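import Vale.Agent.helper4.PottsChain

/-!
The link between the chain of `PottsChain` and the tree recursion, and nonreconstruction for the
3-state Potts channel with positive eigenvalue at and below the Kesten-Stigum bound, for `d ≥ 3`.
-/

open Finset Filter Topology

namespace Vale.Agent.helper4.Potts

open Vale.Agent.helper4.PottsPair Vale.Agent.helper4.PottsChain

variable {d : ℕ}

lemma wt_eq_sum (lam : ℝ) (n : ℕ) (η : LeafCfg 3 d n) :
    (∑ j : Fin 3, lik 3 d lam n j η) / 3 = wt d lam n η := by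
  rw [wt_eq, Fin.sum_univ_three]

lemma fac_eq {lam : ℝ} {n : ℕ} (i : Fin 3) {ω : LeafCfg 3 d n} (hw : wt d lam n ω ≠ 0) :
    ∑ j : Fin 3, potts 3 lam i j * lik 3 d lam n j ω = wt d lam n ω * (1 + lam * vv d lam n ω i) := by
  rw [potts_sum_mul lam i (fun j => lik 3 d lam n j ω), wt_eq_sum, msg_eq hw]
  simp only [vv]

/-- Depth `n + 1` colourings are functions from the children to depth `n` colourings. -/
def mk {n : ℕ} (η : Fin d → LeafCfg 3 d n) : LeafCfg 3 d (n + 1) := η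

lemma lik_mk (lam : ℝ) {n : ℕ} (i : Fin 3) (η : Fin d → LeafCfg 3 d n) :
    lik 3 d lam (n + 1) i (mk η) = ∏ c, ∑ j : Fin 3, potts 3 lam i j * lik 3 d lam n j (η c) := rfl

lemma lik_succ_eq {lam : ℝ} {n : ℕ} (i : Fin 3) (η : Fin d → LeafCfg 3 d n)
    (h : ∀ c, wt d lam n (η c) ≠ 0) :
    lik 3 d lam (n + 1) i (mk η) = (∏ c, wt d lam n (η c)) * ∏ c, (1 + lam * vv d lam n (η c) i) := by
  rw [lik_mk, ← Finset.prod_mul_distrib]
  exact Finset.prod_congr rfl fun c _ => fac_eq i (h c)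

/-- The message vector of a family of children. -/
noncomputable def PP (lam : ℝ) {n : ℕ} (η : Fin d → LeafCfg 3 d n) : Fin 3 → ℝ :=
  fun i => ∏ c, (1 + lam * vv d lam n (η c) i)

lemma wt_succ_eq {lam : ℝ} {n : ℕ} (η : Fin d → LeafCfg 3 d n) (h : ∀ c, wt d lam n (η c) ≠ 0) :
    wt d lam (n + 1) (mk η) = (∏ c, wt d lam n (η c)) * NN (PP lam η) := by
  rw [wt_eq, lik_succ_eq 0 η h, lik_succ_eq 1 η h, lik_succ_eq 2 η h]
  simp only [NN, PP]
  ring

lemma prod_wt_ne {lam : ℝ} {n : ℕ} {η : Fin d → LeafCfg 3 d n} (h : ∀ c, wt d lam n (η c) ≠ 0) :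
    (∏ c, wt d lam n (η c)) ≠ 0 :=
  Finset.prod_ne_zero_iff.2 fun c _ => h c

lemma vv_succ_eq {lam : ℝ} {n : ℕ} (η : Fin d → LeafCfg 3 d n) (h : ∀ c, wt d lam n (η c) ≠ 0) :
    vv d lam (n + 1) (mk η) = cc (PP lam η) := by
  funext i
  simp only [vv, cc]
  rw [wt_succ_eq η h, lik_succ_eq i η h, mul_div_mul_left _ _ (prod_wt_ne h)]
  rfl

lemma wt_succ_zero {lam : ℝ} (h1 : -1 / 2 ≤ lam) (h2 : lam ≤ 1) {n : ℕ}
    (η : Fin d → LeafCfg 3 d n) {c : Fin d} (h : wt d lam n (η c) = 0) :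
    wt d lam (n + 1) (mk η) = 0 := by
  have key : ∀ i : Fin 3, lik 3 d lam (n + 1) i (mk η) = 0 := by
    intro i
    rw [lik_mk]
    refine Finset.prod_eq_zero (Finset.mem_univ c) ?_
    refine Finset.sum_eq_zero fun j _ => ?_
    rw [lik_eq_zero_of_wt h1 h2 h j, mul_zero]
  rw [wt_eq, key, key, key]
  ring

/-- Law of the channel output of a child. -/
noncomputable def treeLaw (d : ℕ) {lam : ℝ} (h0 : 0 ≤ lam) (h2 : lam < 58 / 100) (n : ℕ) :
    Law (LeafCfg 3 d n) where
  w := wt d lam n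
  a := fun η i => lam * vv d lam n η i
  w_nonneg := wt_nonneg (by linarith) (by linarith) n
  w_sum := wt_sum (by linarith) (by linarith) n
  a_sum := fun η h => by
    have := vv_sum h
    linear_combination lam * this
  a_lb := fun η i => by
    have := vv_ge (n := n) (η := η) (by linarith : -1 / 2 ≤ lam) (by linarith : lam ≤ 1) i
    nlinarith
  symm := fun g Φ => En_perm lam g n (fun u => Φ (fun i => lam * u i))

lemma En_succ_eq {lam : ℝ} (h0 : 0 ≤ lam) (h2 : lam < 58 / 100) (n : ℕ) (Ψ : (Fin 3 → ℝ) → ℝ) :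
    En d lam (n + 1) Ψ = EE (treeLaw d h0 h2 n) d Ψ := by
  change (∑ η : Fin d → LeafCfg 3 d n, wt d lam (n + 1) (mk η) * Ψ (vv d lam (n + 1) (mk η))) =
    ∑ η : Fin d → LeafCfg 3 d n, (∏ c, wt d lam n (η c)) * (NN (PP lam η) * Ψ (cc (PP lam η)))
  refine Finset.sum_congr rfl fun η _ => ?_
  by_cases h : ∀ c, wt d lam n (η c) ≠ 0
  · rw [wt_succ_eq η h, vv_succ_eq η h]
    ring
  · simp only [not_forall, not_not] at h
    obtain ⟨c, hc⟩ := h
    rw [wt_succ_zero (by linarith) (by linarith) η hc, Finset.prod_eq_zero (Finset.mem_univ c) hc]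
    ring

lemma xi_treeLaw {lam : ℝ} (h0 : 0 ≤ lam) (h2 : lam < 58 / 100) (n : ℕ) :
    xi (treeLaw d h0 h2 n) = lam^2 * En d lam n xU := by
  simp only [xi, En, Finset.mul_sum]
  refine Finset.sum_congr rfl fun η _ => ?_
  show wt d lam n η * xU (fun i => lam * vv d lam n η i) = _
  simp only [xU, xI]
  ring

lemma eta_treeLaw {lam : ℝ} (h0 : 0 ≤ lam) (h2 : lam < 58 / 100) (n : ℕ) :
    eta (treeLaw d h0 h2 n) = lam^3 * En d lam n yU := by
  simp only [eta, En, Finset.mul_sum]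
  refine Finset.sum_congr rfl fun η _ => ?_
  show wt d lam n η * yU (fun i => lam * vv d lam n η i) = _
  simp only [yU, yI]
  ring

lemma X_nonneg' {lam : ℝ} (hl2 : -1 / 2 ≤ lam) (hl1 : lam ≤ 1) (n : ℕ) : 0 ≤ En d lam n xU := by
  refine En_nonneg hl2 hl1 n _ fun η _ => ?_
  simp only [xU, xI]
  positivity

/-- The base case: at depth `0` the third moment is nonnegative. -/
lemma Y_zero' {lam : ℝ} (hl2 : -1 / 2 ≤ lam) (hl1 : lam ≤ 1) : 0 ≤ En d lam 0 yU := by
  refine En_nonneg hl2 hl1 0 _ fun η _ => ?_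
  have e : ∀ i : Fin 3, lik 3 d lam 0 i η = if i = LeafCfg.colour η then 1 else 0 := fun _ => rfl
  have w : wt d lam 0 η = 1 / 3 := by
    rw [wt_eq, e, e, e]
    generalize LeafCfg.colour η = c
    fin_cases c <;> simp
  simp only [yU, yI, vv, w, e]
  generalize LeafCfg.colour η = c
  fin_cases c <;> simp (decide := true) <;> norm_num

lemma Y_nonneg' {lam : ℝ} (h0 : 0 ≤ lam) (h2 : lam < 58 / 100) (n : ℕ) : 0 ≤ En d lam n yU := by
  induction n with
  | zero => exact Y_zero' (by linarith) (by linarith)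
  | succ n ih =>
    rw [En_succ_eq h0 h2]
    refine EE_y_nonneg _ ?_ _
    rw [eta_treeLaw]
    exact mul_nonneg (pow_nonneg h0 3) ih

/-- One step of the recursion for the second moment on the `(k+1)`-ary tree. -/
lemma X_step_chain {k : ℕ} {lam : ℝ} (h0 : 0 ≤ lam) (h2 : lam < 58 / 100) (n : ℕ) :
    En (k + 1) lam (n + 1) xU
      ≤ (k + 1) * (lam^2 * En (k + 1) lam n xU) - k * (lam^2 * En (k + 1) lam n xU)^2 / 400 := by
  rw [En_succ_eq h0 h2]
  have := EE_x_bound (treeLaw (k + 1) h0 h2 n) (by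
    rw [eta_treeLaw]
    exact mul_nonneg (pow_nonneg h0 3) (Y_nonneg' h0 h2 n)) k
  rw [xi_treeLaw] at this
  exact this

lemma X_tendsto_chain {k : ℕ} (hk : 1 ≤ k) {lam : ℝ} (h0 : 0 ≤ lam) (h2 : lam < 58 / 100)
    (h3 : ((k : ℝ) + 1) * lam^2 ≤ 1) :
    Tendsto (fun n => En (k + 1) lam n xU) atTop (𝓝 0) := by
  have hl1 : lam ≤ 1 := by linarith
  have hl2 : -1 / 2 ≤ lam := by linarith
  have hX := X_nonneg' (d := k + 1) hl2 hl1
  rcases h0.eq_or_lt with rfl | hpos
  · refine tendsto_zero_of_geom hX fun n => ?_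
    have := X_step_chain (k := k) (lam := 0) le_rfl h2 n
    have h4 := hX n
    norm_num at this
    nlinarith
  · have hk' : (1 : ℝ) ≤ k := by exact_mod_cast hk
    refine tendsto_zero_of_quad (κ := (k : ℝ) * lam^4 / 400) (by positivity) hX fun n => ?_
    have h4 := X_step_chain (k := k) h0 h2 n
    have h5 := hX n
    have h6 : ((k : ℝ) + 1) * (lam^2 * En (k + 1) lam n xU) ≤ En (k + 1) lam n xU := by
      have := mul_le_mul_of_nonneg_right h3 h5
      nlinarith
    have h7 : (k : ℝ) * (lam^2 * En (k + 1) lam n xU)^2 / 400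
        = (k : ℝ) * lam^4 / 400 * (En (k + 1) lam n xU)^2 := by
      ring
    linarith

/-- The advantage in terms of the message. -/
lemma adv_le' {lam δ : ℝ} (h1 : -1 / 2 ≤ lam) (hl1 : lam ≤ 1) (hδ : 0 < δ) (n : ℕ) :
    advantage 3 d lam n ≤ (δ + En d lam n xU / δ) / 4 := by
  have one := En_one (d := d) h1 hl1 n
  have e : (δ + En d lam n xU / δ) / 4 = En d lam n (fun u => (δ + xU u / δ) / 4) := by
    have : En d lam n (fun u => (δ + xU u / δ) / 4)
        = δ / 4 * En d lam n (fun _ => 1) + En d lam n xU / (4 * δ) := by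
      simp only [En, Finset.mul_sum, Finset.sum_div, ← Finset.sum_add_distrib]
      exact Finset.sum_congr rfl fun _ _ => by field_simp
    rw [this, one]
    field_simp
  rw [e]
  refine Finset.sum_le_sum fun η _ => ?_
  by_cases w : wt d lam n η = 0
  · have w' : evidence 3 d lam n η = 0 := w
    rw [w']
    simp
    rw [w]
    simp
  · refine mul_le_mul_of_nonneg_left ?_ (wt_nonneg h1 hl1 n η)
    have key : ∀ i : Fin 3, |posterior 3 d lam n i η - 1 / ((3 : ℕ) : ℝ)| = |vv d lam n η i| / 3 := by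
      intro i
      have : posterior 3 d lam n i η - 1 / ((3 : ℕ) : ℝ) = vv d lam n η i / 3 := by
        have w' : evidence 3 d lam n η ≠ 0 := w
        simp only [posterior, vv, wt]
        field_simp
        push_cast
        ring
      rw [this, abs_div]
      norm_num
    have amgm : ∀ t : ℝ, |t| ≤ (δ + t^2 / δ) / 2 := by
      intro t
      have h3 : 0 ≤ (|t| - δ)^2 / δ := by positivity
      have h4 : (|t| - δ)^2 / δ = t^2 / δ - 2 * |t| + δ := by
        rw [sub_sq, sq_abs]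
        field_simp
      linarith
    simp only [key, Fin.sum_univ_three, xU, xI]
    have a0 := amgm (vv d lam n η 0)
    have a1 := amgm (vv d lam n η 1)
    have a2 := amgm (vv d lam n η 2)
    have e2 : (δ + ((vv d lam n η 0)^2 + (vv d lam n η 1)^2 + (vv d lam n η 2)^2) / 3 / δ) / 4
        = (((δ + (vv d lam n η 0)^2 / δ) / 2) + ((δ + (vv d lam n η 1)^2 / δ) / 2)
          + ((δ + (vv d lam n η 2)^2 / δ) / 2)) / 6 := by
      field_simp
      ring
    rw [e2]
    linarith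

lemma adv_nonneg' {lam : ℝ} (h1 : -1 / 2 ≤ lam) (hl1 : lam ≤ 1) (n : ℕ) :
    0 ≤ advantage 3 d lam n := by
  refine Finset.sum_nonneg fun η _ => mul_nonneg (wt_nonneg h1 hl1 n η) ?_
  positivity

/-- If the second moment tends to zero, the advantage tends to zero. -/
lemma adv_tendsto {lam : ℝ} (h1 : -1 / 2 ≤ lam) (hl1 : lam ≤ 1)
    (hX : Tendsto (fun n => En d lam n xU) atTop (𝓝 0)) :
    Tendsto (advantage 3 d lam) atTop (𝓝 0) := by
  rw [Metric.tendsto_atTop]
  intro ε hε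
  have hε2 : 0 < ε^2 := by positivity
  rw [Metric.tendsto_atTop] at hX
  obtain ⟨N, hN⟩ := hX (ε^2) hε2
  refine ⟨N, fun n hn => ?_⟩
  have h3 := hN n hn
  rw [Real.dist_eq, sub_zero, abs_of_nonneg (X_nonneg' h1 hl1 n)] at h3
  rw [Real.dist_eq, sub_zero, abs_of_nonneg (adv_nonneg' h1 hl1 n)]
  have h4 := adv_le' (d := d) h1 hl1 hε n
  have h5 : En d lam n xU / ε < ε := by
    rw [div_lt_iff₀ hε]
    nlinarith
  linarith

/-- Nonreconstruction for the ferromagnetic 3-state Potts channel on the `d`-ary tree, `d ≥ 2`, at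
and below the Kesten-Stigum bound. -/
theorem nonreconstruction_ferro {d : ℕ} (hd : 2 ≤ d) {lam : ℝ} (h0 : 0 ≤ lam)
    (h2 : (d : ℝ) * lam^2 ≤ 1) : Tendsto (advantage 3 d lam) atTop (𝓝 0) := by
  rcases eq_or_lt_of_le hd with rfl | hd3
  · exact nonreconstruction (by linarith) (by simpa using h2)
  · obtain ⟨k, rfl⟩ : ∃ k, d = k + 1 := ⟨d - 1, by omega⟩
    have hk : 2 ≤ k := by omega
    have hk' : (2 : ℝ) ≤ k := by exact_mod_cast hk
    have h3 : ((k : ℝ) + 1) * lam^2 ≤ 1 := by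
      push_cast at h2
      exact h2
    have h4 : lam < 58 / 100 := by
      by_contra hn
      have hn' : 58 / 100 ≤ lam := not_lt.mp hn
      nlinarith
    have hl1 : lam ≤ 1 := by linarith
    exact adv_tendsto (by linarith) hl1 (X_tendsto_chain (by omega) h0 h4 h3)

end Vale.Agent.helper4.Potts
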