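import Vale.Agent.helper4.KEngine

/-!
Three inequalities for the symmetrised monomials with exponents `(1/2, 1/2, 0)` and
`(5/8, 2/8, 1/8)`, checked by the certified evaluation of `KEngine`.
-/

namespace Vale.Agent.helper4.PottsMono

open Vale.Agent.helper4.KEngine
open PE

/-- Symmetrised monomial `(4,4,0)` in the eighth roots. -/
noncomputable def eP3 (w0 w1 w2 : ℝ) : ℝ := (w0^4 * w1^4 + w0^4 * w2^4 + w1^4 * w2^4) / 3

/-- Symmetrised monomial `(5,2,1)` in the eighth roots. -/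
noncomputable def eM3 (w0 w1 w2 : ℝ) : ℝ :=
  (w0^5 * (w1^2 * w2) + w0^5 * (w2^2 * w1) + w1^5 * (w0^2 * w2) + w1^5 * (w2^2 * w0)
    + w2^5 * (w0^2 * w1) + w2^5 * (w1^2 * w0)) / 6

lemma eP3_scale (r w0 w1 w2 : ℝ) : eP3 (r * w0) (r * w1) (r * w2) = r^8 * eP3 w0 w1 w2 := by
  simp only [eP3]; ring

lemma eM3_scale (r w0 w1 w2 : ℝ) : eM3 (r * w0) (r * w1) (r * w2) = r^8 * eM3 w0 w1 w2 := by
  simp only [eM3]; ring

lemma eP3_perm1 (w0 w1 w2 : ℝ) : eP3 w1 w0 w2 = eP3 w0 w1 w2 := by simp only [eP3]; ring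
lemma eP3_perm2 (w0 w1 w2 : ℝ) : eP3 w0 w2 w1 = eP3 w0 w1 w2 := by simp only [eP3]; ring
lemma eM3_perm1 (w0 w1 w2 : ℝ) : eM3 w1 w0 w2 = eM3 w0 w1 w2 := by simp only [eM3]; ring
lemma eM3_perm2 (w0 w1 w2 : ℝ) : eM3 w0 w2 w1 = eM3 w0 w1 w2 := by simp only [eM3]; ring

/-! ### Building blocks -/

def W0 : PE := v 0
def W1 : PE := v 1
def W2 : PE := v 2
def s0E : PE := pow W0 8
def s1E : PE := pow W1 8
def s2E : PE := pow W2 8
def SE : PE := add (add s0E s1E) s2E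
def m2E : PE := add (add (pow s0E 2) (pow s1E 2)) (pow s2E 2)
def m3E : PE := add (add (pow s0E 3) (pow s1E 3)) (pow s2E 3)
def N2p : PE := mul (c 3) m2E
def N2m : PE := pow SE 2
def N3p : PE := add (mul (c 9) m3E) (mul (c 2) (pow SE 3))
def N3m : PE := mul (c 9) (mul m2E SE)
def epE : PE :=
  add (add (mul (pow W0 4) (pow W1 4)) (mul (pow W0 4) (pow W2 4))) (mul (pow W1 4) (pow W2 4))
def emE : PE :=
  add (add (add (add (add
    (mul (pow W0 5) (mul (pow W1 2) W2)) (mul (pow W0 5) (mul (pow W2 2) W1)))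
    (mul (pow W1 5) (mul (pow W0 2) W2))) (mul (pow W1 5) (mul (pow W2 2) W0)))
    (mul (pow W2 5) (mul (pow W0 2) W1))) (mul (pow W2 5) (mul (pow W1 2) W0))

/-! ### The bound on the whole simplex -/

def Dp : PE :=
  add (add (add (add
    (mul (c 866) (mul N2p (pow SE 3)))
    (mul (c 850) (mul N3p (pow SE 2))))
    (mul (c 4000) (mul N2p (mul N2m SE))))
    (mul (c 1632) (add (mul N2p N3p) (mul N2m N3m))))
    (mul (c 16588) (mul epE (pow SE 4)))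

def Dm : PE :=
  add (add (add (add (add
    (mul (c 866) (mul N2m (pow SE 3)))
    (mul (c 850) (mul N3m (pow SE 2))))
    (mul (c 2000) (mul (add (pow N2p 2) (pow N2m 2)) SE)))
    (mul (c 1632) (add (mul N2p N3m) (mul N2m N3p))))
    (mul (c 1722) (pow SE 5)))
    (mul (c 7433) (mul emE (pow SE 4)))

theorem check_D : cover (Dp.subst sig) (Dm.subst sig) (c 0) (c 1) 41 41 8 true 0 1 0 1 1 = true := by
  decide +kernel

/-- The homogeneous form of the bound on the simplex. -/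
noncomputable def DD (s0 s1 s2 e1 e2 : ℝ) : ℝ :=
  let S := (s0 + s1 + s2) / 3
  let N2 := (s0^2 + s1^2 + s2^2) / 3 - S^2
  let N3 := (s0^3 + s1^3 + s2^3) / 3 - 3 * ((s0^2 + s1^2 + s2^2) / 3) * S + 2 * S^3
  433 / 1000 * N2 * S^3 + 425 / 1000 * N3 * S^2 - N2^2 * S + 816 / 1000 * N2 * N3
    - 861 / 1000 * S^5 + 8294 / 1000 * e1 * S^4 - 7433 / 1000 * e2 * S^4

lemma Dp_sub_Dm (w0 w1 w2 : ℝ) :
    Dp.ev (wenv w0 w1 w2) - Dm.ev (wenv w0 w1 w2)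
      = 486000 * DD (w0^8) (w1^8) (w2^8) (eP3 w0 w1 w2) (eM3 w0 w1 w2) := by
  simp only [Dp, Dm, SE, s0E, s1E, s2E, m2E, m3E, N2p, N2m, N3p, N3m, epE, emE, W0, W1, W2, PE.ev,
    wenv, DD, eP3, eM3]
  push_cast
  ring

lemma DD_scale (r s0 s1 s2 e1 e2 : ℝ) :
    DD (r * s0) (r * s1) (r * s2) (r * e1) (r * e2) = r^5 * DD s0 s1 s2 e1 e2 := by
  simp only [DD]; ring

lemma DD_perm1 (s0 s1 s2 e1 e2 : ℝ) : DD s1 s0 s2 e1 e2 = DD s0 s1 s2 e1 e2 := by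
  simp only [DD]; ring

lemma DD_perm2 (s0 s1 s2 e1 e2 : ℝ) : DD s0 s2 s1 e1 e2 = DD s0 s1 s2 e1 e2 := by
  simp only [DD]; ring

lemma DD_sorted {w0 w1 w2 : ℝ} (h0 : w1 ≤ w0) (h1 : w2 ≤ w1) (h2 : 0 < w2) :
    0 ≤ DD (w0^8) (w1^8) (w2^8) (eP3 w0 w1 w2) (eM3 w0 w1 w2) := by
  obtain ⟨r, hr, hh⟩ := sorted_point (E₃ := c 0) (E₄ := c 1) check_D h0 h1 h2
  rcases hh with hh | hh
  · have e := Dp_sub_Dm (r * w0) (r * w1) (r * w2)
    have e1 : DD ((r * w0)^8) ((r * w1)^8) ((r * w2)^8) (eP3 (r * w0) (r * w1) (r * w2))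
        (eM3 (r * w0) (r * w1) (r * w2))
        = (r^8)^5 * DD (w0^8) (w1^8) (w2^8) (eP3 w0 w1 w2) (eM3 w0 w1 w2) := by
      rw [eP3_scale, eM3_scale, ← DD_scale, mul_pow, mul_pow, mul_pow]
    rw [e1] at e
    have h3 : 0 ≤ 486000 * ((r^8)^5 * DD (w0^8) (w1^8) (w2^8) (eP3 w0 w1 w2) (eM3 w0 w1 w2)) := by
      linarith
    have h4 : 0 < 486000 * (r^8)^5 := by positivity
    have h5 : 0 ≤ (486000 * (r^8)^5) * DD (w0^8) (w1^8) (w2^8) (eP3 w0 w1 w2) (eM3 w0 w1 w2) := by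
      linarith [h3]
    exact nonneg_of_mul_nonneg_right h5 h4
  · exfalso
    simp only [PE.ev] at hh
    norm_num at hh

/-- Sorting three positive numbers. -/
lemma sort3 (Pr : ℝ → ℝ → ℝ → Prop) (s1 : ∀ a b c, Pr a b c → Pr b a c)
    (s2 : ∀ a b c, Pr a b c → Pr a c b)
    (h : ∀ a b c, b ≤ a → c ≤ b → 0 < c → Pr a b c) {w0 w1 w2 : ℝ} (h0 : 0 < w0) (h1 : 0 < w1)
    (h2 : 0 < w2) : Pr w0 w1 w2 := by
  rcases le_total w0 w1 with a | a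
  · rcases le_total w1 w2 with b | b
    · -- w2 ≥ w1 ≥ w0
      exact s1 _ _ _ (s2 _ _ _ (s1 _ _ _ (h w2 w1 w0 b a h0)))
    · rcases le_total w0 w2 with c | c
      · -- w1 ≥ w2 ≥ w0
        exact s1 _ _ _ (s2 _ _ _ (h w1 w2 w0 b c h0))
      · -- w1 ≥ w0 ≥ w2
        exact s1 _ _ _ (h w1 w0 w2 a c h2)
  · rcases le_total w1 w2 with b | b
    · rcases le_total w0 w2 with c | c
      · -- w2 ≥ w0 ≥ w1
        exact s2 _ _ _ (s1 _ _ _ (h w2 w0 w1 c a h1))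
      · -- w0 ≥ w2 ≥ w1
        exact s2 _ _ _ (h w0 w2 w1 c b h1)
    · exact h w0 w1 w2 a b h2

/-- The homogeneous bound holds for all positive triples. -/
theorem DD_nonneg {w0 w1 w2 : ℝ} (h0 : 0 < w0) (h1 : 0 < w1) (h2 : 0 < w2) :
    0 ≤ DD (w0^8) (w1^8) (w2^8) (eP3 w0 w1 w2) (eM3 w0 w1 w2) := by
  refine sort3 (fun a b c => 0 ≤ DD (a^8) (b^8) (c^8) (eP3 a b c) (eM3 a b c)) ?_ ?_ ?_ h0 h1 h2
  · intro a b c hh
    rw [eP3_perm1, eM3_perm1, DD_perm1]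
    exact hh
  · intro a b c hh
    rw [eP3_perm2, eM3_perm2, DD_perm2]
    exact hh
  · intro a b c h3 h4 h5
    exact DD_sorted h3 h4 h5

/-- The form of `DD` on the simplex. -/
lemma DD_norm (s0 s1 s2 e1 e2 : ℝ) (h : s0 + s1 + s2 = 3) :
    DD s0 s1 s2 e1 e2
      = 433 / 1000 * (((s0 - 1)^2 + (s1 - 1)^2 + (s2 - 1)^2) / 3)
        + 425 / 1000 * (((s0 - 1)^3 + (s1 - 1)^3 + (s2 - 1)^3) / 3)
        - (((s0 - 1)^2 + (s1 - 1)^2 + (s2 - 1)^2) / 3)^2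
        + 816 / 1000 * (((s0 - 1)^2 + (s1 - 1)^2 + (s2 - 1)^2) / 3)
          * (((s0 - 1)^3 + (s1 - 1)^3 + (s2 - 1)^3) / 3)
        - 861 / 1000 + 8294 / 1000 * e1 - 7433 / 1000 * e2 := by
  obtain rfl : s2 = 3 - s0 - s1 := by linarith
  simp only [DD]
  ring

/-! ### The bounds near the centre of the simplex -/

def Cp : PE :=
  add (add (mul (c 16588) (pow SE 2)) (mul (c 7433) (mul emE SE))) (mul (c 10) (pow SE 2))

def Cm : PE :=
  add (add (mul (c 16588) (mul epE SE)) (mul (c 14866) (pow SE 2))) (mul (c 30) m2E)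

def Op : PE := mul (c 418) SE
def Om : PE := mul (c 3000) s2E

theorem check_C :
    cover (Cp.subst sig) (Cm.subst sig) (Op.subst sig) (Om.subst sig) 17 17 20 true 0 1 0 1 1
      = true := by
  decide +kernel

def Cp2 : PE := mul (c 2) epE
def Cm2 : PE := emE

theorem check_C2 :
    cover (Cp2.subst sig) (Cm2.subst sig) (Op.subst sig) (Om.subst sig) 9 9 20 true 0 1 0 1 1
      = true := by
  decide +kernel

/-- The homogeneous form of the bound near the centre. -/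
noncomputable def CC (s0 s1 s2 e1 e2 : ℝ) : ℝ :=
  let S := (s0 + s1 + s2) / 3
  let N2 := (s0^2 + s1^2 + s2^2) / 3 - S^2
  8294 / 1000 * (S - e1) * S - 7433 / 1000 * (S - e2) * S - 1 / 200 * N2

lemma Cp_sub_Cm (w0 w1 w2 : ℝ) :
    Cp.ev (wenv w0 w1 w2) - Cm.ev (wenv w0 w1 w2)
      = 18000 * CC (w0^8) (w1^8) (w2^8) (eP3 w0 w1 w2) (eM3 w0 w1 w2) := by
  simp only [Cp, Cm, SE, s0E, s1E, s2E, m2E, epE, emE, W0, W1, W2, PE.ev, wenv, CC, eP3, eM3]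
  push_cast
  ring

lemma Cp2_sub_Cm2 (w0 w1 w2 : ℝ) :
    Cp2.ev (wenv w0 w1 w2) - Cm2.ev (wenv w0 w1 w2) = 6 * (eP3 w0 w1 w2 - eM3 w0 w1 w2) := by
  simp only [Cp2, Cm2, epE, emE, W0, W1, W2, PE.ev, wenv, eP3, eM3]
  push_cast
  ring

lemma Op_Om {w0 w1 w2 r : ℝ} (hr : 0 < r) (hs : w0^8 + w1^8 + w2^8 = 3) (h3 : 21 / 50 < w2^8)
    (hh : Om.ev (wenv (r * w0) (r * w1) (r * w2)) ≤ Op.ev (wenv (r * w0) (r * w1) (r * w2))) :
    False := by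
  simp only [Op, Om, SE, s0E, s1E, s2E, W0, W1, W2, PE.ev, wenv] at hh
  push_cast at hh
  have h4 : 0 < r^8 := by positivity
  have e : (418 : ℝ) * ((r * w0)^8 + (r * w1)^8 + (r * w2)^8) = r^8 * 1254 := by
    have : (418 : ℝ) * ((r * w0)^8 + (r * w1)^8 + (r * w2)^8)
        = r^8 * (418 * (w0^8 + w1^8 + w2^8)) := by ring
    rw [this, hs]; norm_num
  have e2 : (3000 : ℝ) * (r * w2)^8 = r^8 * (3000 * w2^8) := by ring
  rw [e, e2] at hh
  have := le_of_mul_le_mul_left hh h4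
  linarith

lemma CC_scale (r s0 s1 s2 e1 e2 : ℝ) :
    CC (r * s0) (r * s1) (r * s2) (r * e1) (r * e2) = r^2 * CC s0 s1 s2 e1 e2 := by
  simp only [CC]; ring

lemma CC_perm1 (s0 s1 s2 e1 e2 : ℝ) : CC s1 s0 s2 e1 e2 = CC s0 s1 s2 e1 e2 := by
  simp only [CC]; ring

lemma CC_perm2 (s0 s1 s2 e1 e2 : ℝ) : CC s0 s2 s1 e1 e2 = CC s0 s1 s2 e1 e2 := by
  simp only [CC]; ring

/-- The bound near the centre, for the `(C)` form. -/
theorem CC_nonneg {w0 w1 w2 : ℝ} (h0 : 0 < w0) (h1 : 0 < w1) (h2 : 0 < w2)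
    (hs : w0^8 + w1^8 + w2^8 = 3) (l0 : 21 / 50 < w0^8) (l1 : 21 / 50 < w1^8) (l2 : 21 / 50 < w2^8) :
    0 ≤ CC (w0^8) (w1^8) (w2^8) (eP3 w0 w1 w2) (eM3 w0 w1 w2) := by
  revert hs l0 l1 l2
  refine sort3 (fun a b c => a^8 + b^8 + c^8 = 3 → 21 / 50 < a^8 → 21 / 50 < b^8 → 21 / 50 < c^8 →
    0 ≤ CC (a^8) (b^8) (c^8) (eP3 a b c) (eM3 a b c)) ?_ ?_ ?_ h0 h1 h2
  · intro a b c hh e1 e2 e3 e4
    rw [eP3_perm1, eM3_perm1, CC_perm1]
    exact hh (by linarith) e3 e2 e4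
  · intro a b c hh e1 e2 e3 e4
    rw [eP3_perm2, eM3_perm2, CC_perm2]
    exact hh (by linarith) e2 e4 e3
  · intro a b c h3 h4 h5 e1 _ _ e4
    obtain ⟨r, hr, hh⟩ := sorted_point check_C h3 h4 h5
    rcases hh with hh | hh
    · have e := Cp_sub_Cm (r * a) (r * b) (r * c)
      have e' : CC ((r * a)^8) ((r * b)^8) ((r * c)^8) (eP3 (r * a) (r * b) (r * c))
          (eM3 (r * a) (r * b) (r * c))
          = (r^8)^2 * CC (a^8) (b^8) (c^8) (eP3 a b c) (eM3 a b c) := by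
        rw [eP3_scale, eM3_scale, ← CC_scale, mul_pow, mul_pow, mul_pow]
      rw [e'] at e
      have h6 : 0 < 18000 * (r^8)^2 := by positivity
      have h7 : 0 ≤ (18000 * (r^8)^2) * CC (a^8) (b^8) (c^8) (eP3 a b c) (eM3 a b c) := by
        nlinarith [e, hh]
      exact nonneg_of_mul_nonneg_right h7 h6
    · exact (Op_Om hr e1 e4 hh).elim

/-- Comparison of the two symmetrised monomials near the centre. -/
theorem e_compare {w0 w1 w2 : ℝ} (h0 : 0 < w0) (h1 : 0 < w1) (h2 : 0 < w2)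
    (hs : w0^8 + w1^8 + w2^8 = 3) (l0 : 21 / 50 < w0^8) (l1 : 21 / 50 < w1^8) (l2 : 21 / 50 < w2^8) :
    eM3 w0 w1 w2 ≤ eP3 w0 w1 w2 := by
  revert hs l0 l1 l2
  refine sort3 (fun a b c => a^8 + b^8 + c^8 = 3 → 21 / 50 < a^8 → 21 / 50 < b^8 → 21 / 50 < c^8 →
    eM3 a b c ≤ eP3 a b c) ?_ ?_ ?_ h0 h1 h2
  · intro a b c hh e1 e2 e3 e4
    rw [eP3_perm1, eM3_perm1]
    exact hh (by linarith) e3 e2 e4
  · intro a b c hh e1 e2 e3 e4
    rw [eP3_perm2, eM3_perm2]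
    exact hh (by linarith) e2 e4 e3
  · intro a b c h3 h4 h5 e1 _ _ e4
    obtain ⟨r, hr, hh⟩ := sorted_point check_C2 h3 h4 h5
    rcases hh with hh | hh
    · have e := Cp2_sub_Cm2 (r * a) (r * b) (r * c)
      rw [eP3_scale, eM3_scale] at e
      have h6 : 0 < 6 * r^8 := by positivity
      have h7 : 0 ≤ (6 * r^8) * (eP3 a b c - eM3 a b c) := by nlinarith [e, hh]
      have := nonneg_of_mul_nonneg_right h7 h6
      linarith
    · exact (Op_Om hr e1 e4 hh).elim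

/-- The form of `CC` on the simplex. -/
lemma CC_norm (s0 s1 s2 e1 e2 : ℝ) (h : s0 + s1 + s2 = 3) :
    CC s0 s1 s2 e1 e2
      = 8294 / 1000 * (1 - e1) - 7433 / 1000 * (1 - e2)
        - 1 / 200 * (((s0 - 1)^2 + (s1 - 1)^2 + (s2 - 1)^2) / 3) := by
  obtain rfl : s2 = 3 - s0 - s1 := by linarith
  simp only [CC]
  ring

end Vale.Agent.helper4.PottsMono
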