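import Vale.Agent.helper4.PottsFull
import Vale.Agent.helper4.PottsMonoIneq
import Vale.Agent.helper4.PottsBinary

/-!
The chain argument: the children of a vertex are multiplied in one at a time.  The law of the messages
of one child is a finite law `L`, invariant under permutations of the colours.
-/

open Finset

namespace Vale.Agent.helper4.PottsChain

open Vale.Agent.helper4.PottsPair Vale.Agent.helper4.PottsFull Vale.Agent.helper4.PottsMono
open Vale.Agent.helper4.Potts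

/-- A finite law of messages. -/
structure Law (Ω : Type) [Fintype Ω] where
  w : Ω → ℝ
  a : Ω → Fin 3 → ℝ
  w_nonneg : ∀ ω, 0 ≤ w ω
  w_sum : ∑ ω, w ω = 1
  a_sum : ∀ ω, w ω ≠ 0 → a ω 0 + a ω 1 + a ω 2 = 0
  a_lb : ∀ ω i, -(58 / 100) < a ω i
  symm : ∀ (g : Equiv.Perm (Fin 3)) (Φ : (Fin 3 → ℝ) → ℝ),
    ∑ ω, w ω * Φ (a ω ∘ g) = ∑ ω, w ω * Φ (a ω)

/-- The mean of a positive vector. -/
noncomputable def NN (P : Fin 3 → ℝ) : ℝ := (P 0 + P 1 + P 2) / 3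

/-- The normalised message of a positive vector, minus one. -/
noncomputable def cc (P : Fin 3 → ℝ) : Fin 3 → ℝ := fun i => P i / NN P - 1

/-- The function of a positive vector given by a function of the normalised message. -/
noncomputable def Gf (Φ : (Fin 3 → ℝ) → ℝ) (P : Fin 3 → ℝ) : ℝ := NN P * Φ (cc P)

variable {Ω : Type} [Fintype Ω] (L : Law Ω)

/-- Multiply in one child. -/
noncomputable def stp (F : (Fin 3 → ℝ) → ℝ) (P : Fin 3 → ℝ) : ℝ :=
  ∑ ω, L.w ω * F (fun i => P i * (1 + L.a ω i))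

/-- Multiply in `k` children, starting from the constant vector. -/
noncomputable def Ak (k : ℕ) (F : (Fin 3 → ℝ) → ℝ) : ℝ :=
  ∑ η : Fin k → Ω, (∏ c, L.w (η c)) * F (fun i => ∏ c, (1 + L.a (η c) i))

lemma Ak_zero (F : (Fin 3 → ℝ) → ℝ) : Ak L 0 F = F (fun _ => 1) := by
  simp [Ak]

lemma Ak_succ (k : ℕ) (F : (Fin 3 → ℝ) → ℝ) : Ak L (k + 1) F = Ak L k (stp L F) := by
  unfold Ak stp
  rw [← (Fin.consEquiv (fun _ => Ω)).sum_comp, Fintype.sum_prod_type, Finset.sum_comm]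
  refine Finset.sum_congr rfl fun η _ => ?_
  rw [Finset.mul_sum]
  refine Finset.sum_congr rfl fun ω _ => ?_
  simp only [Fin.consEquiv, Equiv.coe_fn_mk, Fin.prod_univ_succ, Fin.cons_zero, Fin.cons_succ]
  rw [mul_assoc, mul_left_comm (L.w ω)]
  congr 3
  funext i
  ring

lemma Ak_mono (k : ℕ) {F G : (Fin 3 → ℝ) → ℝ} (h : ∀ P : Fin 3 → ℝ, (∀ i, 0 < P i) → F P ≤ G P) :
    Ak L k F ≤ Ak L k G := by
  refine Finset.sum_le_sum fun η _ => mul_le_mul_of_nonneg_left (h _ fun i => ?_) ?_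
  · refine Finset.prod_pos fun c _ => ?_
    have := L.a_lb (η c) i
    linarith
  · exact Finset.prod_nonneg fun c _ => L.w_nonneg _

lemma Ak_congr (k : ℕ) {F G : (Fin 3 → ℝ) → ℝ} (h : ∀ P : Fin 3 → ℝ, (∀ i, 0 < P i) → F P = G P) :
    Ak L k F = Ak L k G :=
  le_antisymm (Ak_mono L k fun P hP => (h P hP).le) (Ak_mono L k fun P hP => (h P hP).ge)

lemma Ak_add (k : ℕ) (F G : (Fin 3 → ℝ) → ℝ) :
    Ak L k (fun P => F P + G P) = Ak L k F + Ak L k G := by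
  simp only [Ak, mul_add, Finset.sum_add_distrib]

lemma Ak_smul (k : ℕ) (α : ℝ) (F : (Fin 3 → ℝ) → ℝ) :
    Ak L k (fun P => α * F P) = α * Ak L k F := by
  simp only [Ak, Finset.mul_sum]
  exact Finset.sum_congr rfl fun _ _ => by ring

/-- The expectation of a function of the normalised message after `k` children. -/
noncomputable def EE (k : ℕ) (Φ : (Fin 3 → ℝ) → ℝ) : ℝ := Ak L k (Gf Φ)

lemma NN_one : NN (fun _ => 1) = 1 := by norm_num [NN]

lemma cc_one : cc (fun _ => 1) = 0 := by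
  funext i
  simp [cc, NN_one]

lemma EE_zero (Φ : (Fin 3 → ℝ) → ℝ) : EE L 0 Φ = Φ 0 := by
  simp [EE, Ak_zero, Gf, NN_one, cc_one]

lemma EE_mono (k : ℕ) {Φ Ψ : (Fin 3 → ℝ) → ℝ}
    (h : ∀ c : Fin 3 → ℝ, c 0 + c 1 + c 2 = 0 → (∀ i, -1 < c i) → Φ c ≤ Ψ c) :
    EE L k Φ ≤ EE L k Ψ := by
  refine Ak_mono L k fun P hP => ?_
  have hN : 0 < NN P := by
    have h0 := hP 0
    have h1 := hP 1
    have h2 := hP 2
    unfold NN
    positivity
  refine mul_le_mul_of_nonneg_left (h _ ?_ fun i => ?_) hN.le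
  · simp only [cc]
    field_simp
    simp only [NN]
    ring
  · simp only [cc]
    have : 0 < P i / NN P := div_pos (hP i) hN
    linarith

lemma EE_add (k : ℕ) (Φ Ψ : (Fin 3 → ℝ) → ℝ) :
    EE L k (fun c => Φ c + Ψ c) = EE L k Φ + EE L k Ψ := by
  have : Gf (fun c => Φ c + Ψ c) = fun P => Gf Φ P + Gf Ψ P := by
    funext P
    simp only [Gf]
    ring
  rw [EE, this, Ak_add]
  rfl

lemma EE_smul (k : ℕ) (α : ℝ) (Φ : (Fin 3 → ℝ) → ℝ) :
    EE L k (fun c => α * Φ c) = α * EE L k Φ := by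
  have : Gf (fun c => α * Φ c) = fun P => α * Gf Φ P := by
    funext P
    simp only [Gf]
    ring
  rw [EE, this, Ak_smul]
  rfl

/-! ### Expectations over one child -/

/-- The six-fold symmetry, in coordinates. -/
lemma E_avg (F : ℝ → ℝ → ℝ → ℝ) :
    ∑ ω, L.w ω * F (L.a ω 0) (L.a ω 1) (L.a ω 2)
      = ∑ ω, L.w ω * ((F (L.a ω 0) (L.a ω 1) (L.a ω 2) + F (L.a ω 1) (L.a ω 2) (L.a ω 0)
          + F (L.a ω 2) (L.a ω 0) (L.a ω 1) + F (L.a ω 0) (L.a ω 2) (L.a ω 1)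
          + F (L.a ω 2) (L.a ω 1) (L.a ω 0) + F (L.a ω 1) (L.a ω 0) (L.a ω 2)) / 6) := by
  have key := fun g => L.symm g (fun u => F (u 0) (u 1) (u 2))
  have e1 := key g1
  have e2 := key g2
  have e3 := key g3
  have e4 := key g4
  have e5 := key g5
  simp only [(comp_g1 _).1, (comp_g1 _).2.1, (comp_g1 _).2.2] at e1
  simp only [(comp_g2 _).1, (comp_g2 _).2.1, (comp_g2 _).2.2] at e2
  simp only [(comp_g3 _).1, (comp_g3 _).2.1, (comp_g3 _).2.2] at e3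
  simp only [(comp_g4 _).1, (comp_g4 _).2.1, (comp_g4 _).2.2] at e4
  simp only [(comp_g5 _).1, (comp_g5 _).2.1, (comp_g5 _).2.2] at e5
  have : ∑ ω, L.w ω * ((F (L.a ω 0) (L.a ω 1) (L.a ω 2) + F (L.a ω 1) (L.a ω 2) (L.a ω 0)
          + F (L.a ω 2) (L.a ω 0) (L.a ω 1) + F (L.a ω 0) (L.a ω 2) (L.a ω 1)
          + F (L.a ω 2) (L.a ω 1) (L.a ω 0) + F (L.a ω 1) (L.a ω 0) (L.a ω 2)) / 6)
      = (∑ ω, L.w ω * F (L.a ω 0) (L.a ω 1) (L.a ω 2)
        + ∑ ω, L.w ω * F (L.a ω 1) (L.a ω 2) (L.a ω 0)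
        + ∑ ω, L.w ω * F (L.a ω 2) (L.a ω 0) (L.a ω 1)
        + ∑ ω, L.w ω * F (L.a ω 0) (L.a ω 2) (L.a ω 1)
        + ∑ ω, L.w ω * F (L.a ω 2) (L.a ω 1) (L.a ω 0)
        + ∑ ω, L.w ω * F (L.a ω 1) (L.a ω 0) (L.a ω 2)) / 6 := by
    simp only [← Finset.sum_add_distrib, Finset.sum_div]
    exact Finset.sum_congr rfl fun _ _ => by ring
  rw [this, e1, e2, e3, e4, e5]
  ring

/-- Equal expectations under the cyclic and transposed rearrangements. -/
lemma E_perm (F : ℝ → ℝ → ℝ → ℝ) :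
    ∑ ω, L.w ω * F (L.a ω 1) (L.a ω 2) (L.a ω 0) = ∑ ω, L.w ω * F (L.a ω 0) (L.a ω 1) (L.a ω 2)
    ∧ ∑ ω, L.w ω * F (L.a ω 2) (L.a ω 0) (L.a ω 1) = ∑ ω, L.w ω * F (L.a ω 0) (L.a ω 1) (L.a ω 2)
    ∧ ∑ ω, L.w ω * F (L.a ω 0) (L.a ω 2) (L.a ω 1) = ∑ ω, L.w ω * F (L.a ω 0) (L.a ω 1) (L.a ω 2)
    ∧ ∑ ω, L.w ω * F (L.a ω 2) (L.a ω 1) (L.a ω 0) = ∑ ω, L.w ω * F (L.a ω 0) (L.a ω 1) (L.a ω 2)
    ∧ ∑ ω, L.w ω * F (L.a ω 1) (L.a ω 0) (L.a ω 2) = ∑ ω, L.w ω * F (L.a ω 0) (L.a ω 1) (L.a ω 2) := by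
  have key := fun g => L.symm g (fun u => F (u 0) (u 1) (u 2))
  have e1 := key g1
  have e2 := key g2
  have e3 := key g3
  have e4 := key g4
  have e5 := key g5
  simp only [(comp_g1 _).1, (comp_g1 _).2.1, (comp_g1 _).2.2] at e1
  simp only [(comp_g2 _).1, (comp_g2 _).2.1, (comp_g2 _).2.2] at e2
  simp only [(comp_g3 _).1, (comp_g3 _).2.1, (comp_g3 _).2.2] at e3
  simp only [(comp_g4 _).1, (comp_g4 _).2.1, (comp_g4 _).2.2] at e4
  simp only [(comp_g5 _).1, (comp_g5 _).2.1, (comp_g5 _).2.2] at e5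
  exact ⟨e1, e2, e3, e4, e5⟩

lemma mean_zero : (∑ ω, L.w ω * L.a ω 0 = 0) ∧ (∑ ω, L.w ω * L.a ω 1 = 0)
    ∧ (∑ ω, L.w ω * L.a ω 2 = 0) := by
  obtain ⟨e1, e2, _, _, _⟩ := E_perm L (fun u _ _ => u)
  have hs : ∑ ω, L.w ω * L.a ω 0 + ∑ ω, L.w ω * L.a ω 1 + ∑ ω, L.w ω * L.a ω 2 = 0 := by
    rw [← Finset.sum_add_distrib, ← Finset.sum_add_distrib]
    refine Finset.sum_eq_zero fun ω _ => ?_
    by_cases h : L.w ω = 0
    · simp [h]
    · have := L.a_sum ω h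
      linear_combination L.w ω * this
  refine ⟨by linarith, by linarith, by linarith⟩

/-- The mean is preserved on multiplying in a child. -/
lemma stp_NN (P : Fin 3 → ℝ) : stp L NN P = NN P := by
  obtain ⟨m0, m1, m2⟩ := mean_zero L
  have hw := L.w_sum
  have : stp L NN P = (P 0 * (∑ ω, L.w ω + ∑ ω, L.w ω * L.a ω 0)
      + P 1 * (∑ ω, L.w ω + ∑ ω, L.w ω * L.a ω 1)
      + P 2 * (∑ ω, L.w ω + ∑ ω, L.w ω * L.a ω 2)) / 3 := by
    simp only [stp, NN, ← Finset.sum_add_distrib, Finset.mul_sum, Finset.sum_div]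
    exact Finset.sum_congr rfl fun _ _ => by ring
  rw [this, m0, m1, m2, hw]
  simp only [NN]
  ring

lemma Ak_NN (k : ℕ) : Ak L k NN = 1 := by
  induction k with
  | zero => simp [Ak_zero, NN_one]
  | succ k ih =>
    rw [Ak_succ, show stp L NN = NN from funext (stp_NN L), ih]

lemma EE_one (k : ℕ) : EE L k (fun _ => 1) = 1 := by
  have : Gf (fun _ => 1) = NN := by
    funext P
    simp [Gf]
  rw [EE, this, Ak_NN]

/-- Second moment of the law of one child. -/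
noncomputable def xi : ℝ := ∑ ω, L.w ω * xU (L.a ω)

/-- Third moment of the law of one child. -/
noncomputable def eta : ℝ := ∑ ω, L.w ω * yU (L.a ω)

lemma xi_nonneg : 0 ≤ xi L := by
  refine Finset.sum_nonneg fun ω _ => mul_nonneg (L.w_nonneg ω) ?_
  simp only [xU, xI]
  positivity

lemma xi_le : xi L ≤ 1 := by
  have : xi L ≤ ∑ ω, L.w ω * 1 := by
    refine Finset.sum_le_sum fun ω _ => ?_
    by_cases h : L.w ω = 0
    · simp [h]
    · refine mul_le_mul_of_nonneg_left ?_ (L.w_nonneg ω)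
      obtain ⟨_, h2, _, _⟩ := region (μ := 58 / 100) (L.a_sum ω h) (L.a_lb ω 0) (L.a_lb ω 1) (L.a_lb ω 2)
      simp only [xU]
      norm_num at h2 ⊢
      linarith
  simpa [L.w_sum] using this

/-! ### One step of the chain -/

section step

variable {P : Fin 3 → ℝ}

lemma NN_pos (hP : ∀ i, 0 < P i) : 0 < NN P := by
  have h0 := hP 0
  have h1 := hP 1
  have h2 := hP 2
  unfold NN
  positivity

lemma cc_sum (hP : ∀ i, 0 < P i) : cc P 0 + cc P 1 + cc P 2 = 0 := by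
  have hN := NN_pos hP
  simp only [cc]
  field_simp
  simp only [NN]
  ring

lemma cc_lb (hP : ∀ i, 0 < P i) (i : Fin 3) : -1 < cc P i := by
  have hN := NN_pos hP
  simp only [cc]
  have : 0 < P i / NN P := div_pos (hP i) hN
  linarith

lemma P_eq (hP : ∀ i, 0 < P i) (i : Fin 3) : P i = NN P * (1 + cc P i) := by
  have hN := NN_pos hP
  simp only [cc]
  field_simp
  ring

/-- Multiplying a positive vector by a child message. -/
lemma NN_mul (hP : ∀ i, 0 < P i) (a : Fin 3 → ℝ) :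
    NN (fun i => P i * (1 + a i)) = NN P * Zr (cc P 0) (cc P 1) (cc P 2) (a 0) (a 1) (a 2) := by
  have hN := (NN_pos hP).ne'
  have e : ∀ i, 1 + cc P i = P i / NN P := fun i => by simp [cc]
  simp only [Zr, e]
  show (P 0 * (1 + a 0) + P 1 * (1 + a 1) + P 2 * (1 + a 2)) / 3 = _
  field_simp

lemma Zr_pos_cc (hP : ∀ i, 0 < P i) {a : Fin 3 → ℝ} (ha : ∀ i, 0 < 1 + a i) :
    0 < Zr (cc P 0) (cc P 1) (cc P 2) (a 0) (a 1) (a 2) := by
  have h0 := cc_lb hP 0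
  have h1 := cc_lb hP 1
  have h2 := cc_lb hP 2
  have h3 := ha 0
  have h4 := ha 1
  have h5 := ha 2
  have h6 : 0 < 1 + cc P 0 := by linarith
  have h7 : 0 < 1 + cc P 1 := by linarith
  have h8 : 0 < 1 + cc P 2 := by linarith
  unfold Zr
  positivity

lemma cc_mul (hP : ∀ i, 0 < P i) {a : Fin 3 → ℝ} (ha : ∀ i, 0 < 1 + a i) (i : Fin 3) :
    cc (fun i => P i * (1 + a i)) i
      = (1 + cc P i) * (1 + a i) / Zr (cc P 0) (cc P 1) (cc P 2) (a 0) (a 1) (a 2) - 1 := by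
  have hN := (NN_pos hP).ne'
  have hZ := (Zr_pos_cc hP ha).ne'
  have e : ∀ i, 1 + cc P i = P i / NN P := fun i => by simp [cc]
  show P i * (1 + a i) / NN (fun i => P i * (1 + a i)) - 1 = _
  rw [NN_mul hP, e i]
  field_simp

/-- `Gf` of the second moment after multiplying in a child. -/
lemma Gf_x_mul (hP : ∀ i, 0 < P i) {a : Fin 3 → ℝ} (ha : ∀ i, 0 < 1 + a i) :
    Gf xU (fun i => P i * (1 + a i))
      = NN P * tau1 (cc P 0) (cc P 1) (cc P 2) (a 0) (a 1) (a 2) := by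
  simp only [Gf, xU, tau1]
  rw [NN_mul hP, cc_mul hP ha 0, cc_mul hP ha 1, cc_mul hP ha 2]
  ring

lemma Gf_y_mul (hP : ∀ i, 0 < P i) {a : Fin 3 → ℝ} (ha : ∀ i, 0 < 1 + a i) :
    Gf yU (fun i => P i * (1 + a i))
      = NN P * tau3 (cc P 0) (cc P 1) (cc P 2) (a 0) (a 1) (a 2) := by
  simp only [Gf, yU, tau3]
  rw [NN_mul hP, cc_mul hP ha 0, cc_mul hP ha 1, cc_mul hP ha 2]
  ring

lemma one_add_a_pos (ω : Ω) (i : Fin 3) : 0 < 1 + L.a ω i := by
  have := L.a_lb ω i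
  linarith

end step

/-- The function bounding the second moment in terms of the previous message. -/
noncomputable def upX (c : Fin 3 → ℝ) : ℝ :=
  xU c + xi L * 1 - 1 / 2 * xi L * Ups (xU c) (yU c) - eta L * ff (xU c) (yU c)

/-- The function bounding the third moment in terms of the previous message. -/
noncomputable def loY (c : Fin 3 → ℝ) : ℝ :=
  (1 - xi L) * yU c + eta L * (1 - xU c / 2)

lemma stp_x_le {P : Fin 3 → ℝ} (hP : ∀ i, 0 < P i) : stp L (Gf xU) P ≤ Gf (upX L) P := by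
  have hN := NN_pos hP
  have h1 : stp L (Gf xU) P
      = NN P * ∑ ω, L.w ω * tau1 (cc P 0) (cc P 1) (cc P 2) (L.a ω 0) (L.a ω 1) (L.a ω 2) := by
    simp only [stp, Finset.mul_sum]
    refine Finset.sum_congr rfl fun ω _ => ?_
    rw [Gf_x_mul hP (one_add_a_pos L ω)]
    ring
  rw [h1, Gf]
  refine mul_le_mul_of_nonneg_left ?_ hN.le
  rw [E_avg L (tau1 (cc P 0) (cc P 1) (cc P 2))]
  have h2 : upX L (cc P) = ∑ ω, L.w ω * (2 - RA (xU (cc P)) (yU (cc P)) (xU (L.a ω)) (yU (L.a ω))) := by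
    have e : ∀ ω, L.w ω * (2 - RA (xU (cc P)) (yU (cc P)) (xU (L.a ω)) (yU (L.a ω)))
        = L.w ω * xU (cc P) + L.w ω * xU (L.a ω)
          - 1 / 2 * (L.w ω * xU (L.a ω)) * Ups (xU (cc P)) (yU (cc P))
          - (L.w ω * yU (L.a ω)) * ff (xU (cc P)) (yU (cc P)) := by
      intro ω
      simp only [RA]
      ring
    simp only [e, Finset.sum_sub_distrib, Finset.sum_add_distrib, ← Finset.sum_mul, ← Finset.mul_sum,
      L.w_sum]
    simp only [upX, xi, eta]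
    ring
  rw [h2]
  refine Finset.sum_le_sum fun ω _ => ?_
  by_cases h : L.w ω = 0
  · simp [h]
  refine mul_le_mul_of_nonneg_left ?_ (L.w_nonneg ω)
  exact T1_full (cc_sum hP) (L.a_sum ω h) (cc_lb hP 0) (cc_lb hP 1) (cc_lb hP 2)
    (L.a_lb ω 0) (L.a_lb ω 1) (L.a_lb ω 2)

lemma stp_y_ge {P : Fin 3 → ℝ} (hP : ∀ i, 0 < P i) : Gf (loY L) P ≤ stp L (Gf yU) P := by
  have hN := NN_pos hP
  have h1 : stp L (Gf yU) P
      = NN P * ∑ ω, L.w ω * tau3 (cc P 0) (cc P 1) (cc P 2) (L.a ω 0) (L.a ω 1) (L.a ω 2) := by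
    simp only [stp, Finset.mul_sum]
    refine Finset.sum_congr rfl fun ω _ => ?_
    rw [Gf_y_mul hP (one_add_a_pos L ω)]
    ring
  rw [h1, Gf]
  refine mul_le_mul_of_nonneg_left ?_ hN.le
  rw [E_avg L (tau3 (cc P 0) (cc P 1) (cc P 2))]
  have h2 : loY L (cc P) = ∑ ω, L.w ω * ((1 - xU (L.a ω)) * yU (cc P)
      + (1 - xU (cc P) / 2) * yU (L.a ω)) := by
    have e : ∀ ω, L.w ω * ((1 - xU (L.a ω)) * yU (cc P) + (1 - xU (cc P) / 2) * yU (L.a ω))
        = L.w ω * yU (cc P) - (L.w ω * xU (L.a ω)) * yU (cc P)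
          + (L.w ω * yU (L.a ω)) * (1 - xU (cc P) / 2) := by
      intro ω
      ring
    simp only [e, Finset.sum_sub_distrib, Finset.sum_add_distrib, ← Finset.sum_mul, L.w_sum]
    simp only [loY, xi, eta]
    ring
  rw [h2]
  refine Finset.sum_le_sum fun ω _ => ?_
  by_cases h : L.w ω = 0
  · simp [h]
  refine mul_le_mul_of_nonneg_left ?_ (L.w_nonneg ω)
  exact T3_full (cc_sum hP) (L.a_sum ω h) (cc_lb hP 0) (cc_lb hP 1) (cc_lb hP 2)
    (L.a_lb ω 0) (L.a_lb ω 1) (L.a_lb ω 2)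

/-- One step of the chain for the second moment. -/
lemma EE_x_succ (k : ℕ) :
    EE L (k + 1) xU ≤ EE L k xU + xi L - 1 / 2 * xi L * EE L k (fun c => Ups (xU c) (yU c))
      - eta L * EE L k (fun c => ff (xU c) (yU c)) := by
  have h1 : EE L (k + 1) xU ≤ EE L k (upX L) := by
    rw [EE, Ak_succ]
    exact Ak_mono L k fun P hP => stp_x_le L hP
  refine le_trans h1 (le_of_eq ?_)
  have e : upX L = fun c => (((xU c + xi L * 1)
      + (-(1 / 2 * xi L)) * Ups (xU c) (yU c)) + (-eta L) * ff (xU c) (yU c)) := by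
    funext c
    simp only [upX]
    ring
  rw [e, EE_add, EE_add, EE_add, EE_smul, EE_smul, EE_smul, EE_one]
  ring

/-- One step of the chain for the third moment. -/
lemma EE_y_succ (k : ℕ) :
    (1 - xi L) * EE L k yU + eta L * EE L k (fun c => 1 - xU c / 2) ≤ EE L (k + 1) yU := by
  have h1 : EE L k (loY L) ≤ EE L (k + 1) yU := by
    rw [EE, EE, Ak_succ]
    exact Ak_mono L k fun P hP => stp_y_ge L hP
  refine le_trans (le_of_eq ?_) h1
  have e : loY L = fun c => (1 - xi L) * yU c + eta L * (1 - xU c / 2) := rfl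
  rw [e, EE_add, EE_smul, EE_smul]

/-! ### Eighth roots and the multiplicative functions -/

/-- Eighth root. -/
noncomputable def r8 (t : ℝ) : ℝ := Real.sqrt (Real.sqrt (Real.sqrt t))

lemma r8_pos {t : ℝ} (h : 0 < t) : 0 < r8 t :=
  Real.sqrt_pos.2 (Real.sqrt_pos.2 (Real.sqrt_pos.2 h))

lemma r8_nonneg (t : ℝ) : 0 ≤ r8 t := Real.sqrt_nonneg _

lemma r8_pow {t : ℝ} (h : 0 ≤ t) : (r8 t)^8 = t := by
  have h1 : 0 ≤ Real.sqrt t := Real.sqrt_nonneg _
  have h2 : 0 ≤ Real.sqrt (Real.sqrt t) := Real.sqrt_nonneg _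
  have e : (r8 t)^8 = (((r8 t)^2)^2)^2 := by ring
  rw [e]
  simp only [r8]
  rw [Real.sq_sqrt h2, Real.sq_sqrt h1, Real.sq_sqrt h]

lemma r8_mul {s t : ℝ} (hs : 0 ≤ s) : r8 (s * t) = r8 s * r8 t := by
  simp only [r8]
  rw [Real.sqrt_mul hs, Real.sqrt_mul (Real.sqrt_nonneg _), Real.sqrt_mul (Real.sqrt_nonneg _)]

lemma r8_one : r8 1 = 1 := by
  simp [r8]

/-- The first multiplicative function. -/
noncomputable def ePU (P : Fin 3 → ℝ) : ℝ := eP3 (r8 (P 0)) (r8 (P 1)) (r8 (P 2))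

/-- The second multiplicative function. -/
noncomputable def eMU (P : Fin 3 → ℝ) : ℝ := eM3 (r8 (P 0)) (r8 (P 1)) (r8 (P 2))

lemma ePU_one : ePU (fun _ => 1) = 1 := by
  simp only [ePU, eP3, r8_one]
  norm_num

lemma eMU_one : eMU (fun _ => 1) = 1 := by
  simp only [eMU, eM3, r8_one]
  norm_num

/-- One monomial for the first function. -/
noncomputable def Q4 (x y _z : ℝ) : ℝ := r8 (1 + x)^4 * r8 (1 + y)^4

/-- One monomial for the second function. -/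
noncomputable def Q5 (x y z : ℝ) : ℝ := r8 (1 + x)^5 * (r8 (1 + y)^2 * r8 (1 + z))

/-- Expectation of the first function for one child. -/
noncomputable def mP : ℝ := ∑ ω, L.w ω * ePU (fun i => 1 + L.a ω i)

/-- Expectation of the second function for one child. -/
noncomputable def mM : ℝ := ∑ ω, L.w ω * eMU (fun i => 1 + L.a ω i)

lemma mP_eq : mP L = ∑ ω, L.w ω * Q4 (L.a ω 0) (L.a ω 1) (L.a ω 2) := by
  obtain ⟨e1, _, e3, _, _⟩ := E_perm L Q4
  have : mP L = (∑ ω, L.w ω * Q4 (L.a ω 0) (L.a ω 1) (L.a ω 2)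
      + ∑ ω, L.w ω * Q4 (L.a ω 0) (L.a ω 2) (L.a ω 1)
      + ∑ ω, L.w ω * Q4 (L.a ω 1) (L.a ω 2) (L.a ω 0)) / 3 := by
    simp only [mP, ← Finset.sum_add_distrib, Finset.sum_div]
    refine Finset.sum_congr rfl fun ω _ => ?_
    simp only [ePU, eP3, Q4]
    ring
  rw [this, e1, e3]
  ring

lemma mM_eq : mM L = ∑ ω, L.w ω * Q5 (L.a ω 0) (L.a ω 1) (L.a ω 2) := by
  obtain ⟨e1, e2, e3, e4, e5⟩ := E_perm L Q5
  have : mM L = (∑ ω, L.w ω * Q5 (L.a ω 0) (L.a ω 1) (L.a ω 2)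
      + ∑ ω, L.w ω * Q5 (L.a ω 0) (L.a ω 2) (L.a ω 1)
      + ∑ ω, L.w ω * Q5 (L.a ω 1) (L.a ω 0) (L.a ω 2)
      + ∑ ω, L.w ω * Q5 (L.a ω 1) (L.a ω 2) (L.a ω 0)
      + ∑ ω, L.w ω * Q5 (L.a ω 2) (L.a ω 0) (L.a ω 1)
      + ∑ ω, L.w ω * Q5 (L.a ω 2) (L.a ω 1) (L.a ω 0)) / 6 := by
    simp only [mM, ← Finset.sum_add_distrib, Finset.sum_div]
    refine Finset.sum_congr rfl fun ω _ => ?_
    simp only [eMU, eM3, Q5]
    ring
  rw [this, e1, e2, e3, e4, e5]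
  ring

lemma stp_ePU {P : Fin 3 → ℝ} (hP : ∀ i, 0 < P i) : stp L ePU P = mP L * ePU P := by
  obtain ⟨e1, _, e3, _, _⟩ := E_perm L Q4
  have key : ∀ ω, L.w ω * ePU (fun i => P i * (1 + L.a ω i))
      = (r8 (P 0)^4 * r8 (P 1)^4 / 3) * (L.w ω * Q4 (L.a ω 0) (L.a ω 1) (L.a ω 2))
        + (r8 (P 0)^4 * r8 (P 2)^4 / 3) * (L.w ω * Q4 (L.a ω 0) (L.a ω 2) (L.a ω 1))
        + (r8 (P 1)^4 * r8 (P 2)^4 / 3) * (L.w ω * Q4 (L.a ω 1) (L.a ω 2) (L.a ω 0)) := by
    intro ω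
    simp only [ePU, eP3, Q4]
    rw [r8_mul (hP 0).le, r8_mul (hP 1).le, r8_mul (hP 2).le]
    ring
  simp only [stp, key, Finset.sum_add_distrib, ← Finset.mul_sum]
  rw [e1, e3, mP_eq]
  simp only [ePU, eP3]
  ring

lemma stp_eMU {P : Fin 3 → ℝ} (hP : ∀ i, 0 < P i) : stp L eMU P = mM L * eMU P := by
  obtain ⟨e1, e2, e3, e4, e5⟩ := E_perm L Q5
  have key : ∀ ω, L.w ω * eMU (fun i => P i * (1 + L.a ω i))
      = (r8 (P 0)^5 * (r8 (P 1)^2 * r8 (P 2)) / 6) * (L.w ω * Q5 (L.a ω 0) (L.a ω 1) (L.a ω 2))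
        + (r8 (P 0)^5 * (r8 (P 2)^2 * r8 (P 1)) / 6) * (L.w ω * Q5 (L.a ω 0) (L.a ω 2) (L.a ω 1))
        + (r8 (P 1)^5 * (r8 (P 0)^2 * r8 (P 2)) / 6) * (L.w ω * Q5 (L.a ω 1) (L.a ω 0) (L.a ω 2))
        + (r8 (P 1)^5 * (r8 (P 2)^2 * r8 (P 0)) / 6) * (L.w ω * Q5 (L.a ω 1) (L.a ω 2) (L.a ω 0))
        + (r8 (P 2)^5 * (r8 (P 0)^2 * r8 (P 1)) / 6) * (L.w ω * Q5 (L.a ω 2) (L.a ω 0) (L.a ω 1))
        + (r8 (P 2)^5 * (r8 (P 1)^2 * r8 (P 0)) / 6) * (L.w ω * Q5 (L.a ω 2) (L.a ω 1) (L.a ω 0)) := by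
    intro ω
    simp only [eMU, eM3, Q5]
    rw [r8_mul (hP 0).le, r8_mul (hP 1).le, r8_mul (hP 2).le]
    ring
  simp only [stp, key, Finset.sum_add_distrib, ← Finset.mul_sum]
  rw [e1, e2, e3, e4, e5, mM_eq]
  simp only [eMU, eM3]
  ring

lemma Ak_ePU (k : ℕ) : Ak L k ePU = mP L ^ k := by
  induction k with
  | zero => simp [Ak_zero, ePU_one]
  | succ k ih =>
    rw [Ak_succ, Ak_congr L k (fun P hP => stp_ePU L hP), Ak_smul, ih]
    ring

lemma Ak_eMU (k : ℕ) : Ak L k eMU = mM L ^ k := by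
  induction k with
  | zero => simp [Ak_zero, eMU_one]
  | succ k ih =>
    rw [Ak_succ, Ak_congr L k (fun P hP => stp_eMU L hP), Ak_smul, ih]
    ring

/-- Scaling property of `ePU`. -/
lemma ePU_norm {P : Fin 3 → ℝ} (hP : ∀ i, 0 < P i) :
    NN P * ePU (fun i => 1 + cc P i) = ePU P := by
  have hN := NN_pos hP
  have e : ∀ i, 1 + cc P i = (1 / NN P) * P i := fun i => by
    simp only [cc]
    ring
  have hr : 0 ≤ 1 / NN P := by positivity
  simp only [ePU, e]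
  rw [r8_mul hr, r8_mul hr, r8_mul hr, eP3_scale, r8_pow hr]
  field_simp

lemma eMU_norm {P : Fin 3 → ℝ} (hP : ∀ i, 0 < P i) :
    NN P * eMU (fun i => 1 + cc P i) = eMU P := by
  have hN := NN_pos hP
  have e : ∀ i, 1 + cc P i = (1 / NN P) * P i := fun i => by
    simp only [cc]
    ring
  have hr : 0 ≤ 1 / NN P := by positivity
  simp only [eMU, e]
  rw [r8_mul hr, r8_mul hr, r8_mul hr, eM3_scale, r8_pow hr]
  field_simp

/-- The bound `(D)` in terms of the message. -/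
lemma Ups_ge {c : Fin 3 → ℝ} (hc : c 0 + c 1 + c 2 = 0) (hl : ∀ i, -1 < c i) :
    451 / 1000 * yU c + 861 / 1000 - 8294 / 1000 * ePU (fun i => 1 + c i)
        + 7433 / 1000 * eMU (fun i => 1 + c i)
      ≤ Ups (xU c) (yU c) := by
  have p : ∀ i, 0 < 1 + c i := fun i => by
    have := hl i
    linarith
  have key := DD_nonneg (r8_pos (p 0)) (r8_pos (p 1)) (r8_pos (p 2))
  rw [r8_pow (p 0).le, r8_pow (p 1).le, r8_pow (p 2).le,
    DD_norm _ _ _ _ _ (by linarith)] at key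
  simp only [Ups, xU, yU, xI, yI, ePU, eMU]
  have e0 : 1 + c 0 - 1 = c 0 := by ring
  have e1 : 1 + c 1 - 1 = c 1 := by ring
  have e2 : 1 + c 2 - 1 = c 2 := by ring
  rw [e0, e1, e2] at key
  linarith

/-- The quantity that bounds `Ups` from below after `k` children. -/
noncomputable def DK (k : ℕ) : ℝ :=
  8294 / 1000 * (1 - mP L ^ k) - 7433 / 1000 * (1 - mM L ^ k)

lemma EE_Ups_ge (k : ℕ) :
    451 / 1000 * EE L k yU + DK L k ≤ EE L k (fun c => Ups (xU c) (yU c)) := by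
  have h1 : Ak L k (fun P => 451 / 1000 * Gf yU P + (861 / 1000 * NN P + ((-(8294 / 1000)) * ePU P
      + 7433 / 1000 * eMU P))) ≤ EE L k (fun c => Ups (xU c) (yU c)) := by
    refine Ak_mono L k fun P hP => ?_
    have key := Ups_ge (cc_sum hP) (cc_lb hP)
    have hN := NN_pos hP
    have key2 := mul_le_mul_of_nonneg_left key hN.le
    have e1 := ePU_norm hP
    have e2 := eMU_norm hP
    simp only [Gf]
    nlinarith
  refine le_trans (le_of_eq ?_) h1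
  rw [Ak_add, Ak_add, Ak_add, Ak_smul, Ak_smul, Ak_smul, Ak_smul, Ak_NN, Ak_ePU, Ak_eMU]
  simp only [DK, EE]
  ring

lemma mP_nonneg : 0 ≤ mP L := by
  refine Finset.sum_nonneg fun ω _ => mul_nonneg (L.w_nonneg ω) ?_
  simp only [ePU, eP3]
  have h0 := r8_nonneg (1 + L.a ω 0)
  have h1 := r8_nonneg (1 + L.a ω 1)
  have h2 := r8_nonneg (1 + L.a ω 2)
  positivity

lemma mM_nonneg : 0 ≤ mM L := by
  refine Finset.sum_nonneg fun ω _ => mul_nonneg (L.w_nonneg ω) ?_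
  simp only [eMU, eM3]
  have h0 := r8_nonneg (1 + L.a ω 0)
  have h1 := r8_nonneg (1 + L.a ω 1)
  have h2 := r8_nonneg (1 + L.a ω 2)
  positivity

lemma mP_le_one : mP L ≤ 1 := by
  have : mP L ≤ ∑ ω, L.w ω * 1 := by
    refine Finset.sum_le_sum fun ω _ => ?_
    by_cases h : L.w ω = 0
    · simp [h]
    refine mul_le_mul_of_nonneg_left ?_ (L.w_nonneg ω)
    have hs := L.a_sum ω h
    have p0 := one_add_a_pos L ω 0
    have p1 := one_add_a_pos L ω 1
    have p2 := one_add_a_pos L ω 2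
    have e0 := r8_pow p0.le
    have e1 := r8_pow p1.le
    have e2 := r8_pow p2.le
    simp only [ePU, eP3]
    set u0 := r8 (1 + L.a ω 0)
    set u1 := r8 (1 + L.a ω 1)
    set u2 := r8 (1 + L.a ω 2)
    nlinarith [sq_nonneg (u0^4 - u1^4), sq_nonneg (u0^4 - u2^4), sq_nonneg (u1^4 - u2^4)]
  simpa [L.w_sum] using this

lemma mM_le_mP : mM L ≤ mP L := by
  refine Finset.sum_le_sum fun ω _ => ?_
  by_cases h : L.w ω = 0
  · simp [h]
  refine mul_le_mul_of_nonneg_left ?_ (L.w_nonneg ω)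
  have hs := L.a_sum ω h
  have p0 := one_add_a_pos L ω 0
  have p1 := one_add_a_pos L ω 1
  have p2 := one_add_a_pos L ω 2
  have l0 := L.a_lb ω 0
  have l1 := L.a_lb ω 1
  have l2 := L.a_lb ω 2
  refine e_compare (r8_pos p0) (r8_pos p1) (r8_pos p2) ?_ ?_ ?_ ?_
  · rw [r8_pow p0.le, r8_pow p1.le, r8_pow p2.le]
    linarith
  · rw [r8_pow p0.le]
    linarith
  · rw [r8_pow p1.le]
    linarith
  · rw [r8_pow p2.le]
    linarith

lemma delta_ge : 1 / 200 * xi L ≤ DK L 1 := by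
  have key : 0 ≤ ∑ ω, L.w ω * (8294 / 1000 * (1 - ePU (fun i => 1 + L.a ω i))
      - 7433 / 1000 * (1 - eMU (fun i => 1 + L.a ω i)) - 1 / 200 * xU (L.a ω)) := by
    refine Finset.sum_nonneg fun ω _ => ?_
    by_cases h : L.w ω = 0
    · simp [h]
    refine mul_nonneg (L.w_nonneg ω) ?_
    have hs := L.a_sum ω h
    have p0 := one_add_a_pos L ω 0
    have p1 := one_add_a_pos L ω 1
    have p2 := one_add_a_pos L ω 2
    have l0 := L.a_lb ω 0
    have l1 := L.a_lb ω 1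
    have l2 := L.a_lb ω 2
    have key := CC_nonneg (r8_pos p0) (r8_pos p1) (r8_pos p2) (by
      rw [r8_pow p0.le, r8_pow p1.le, r8_pow p2.le]
      linarith) (by
      rw [r8_pow p0.le]
      linarith) (by
      rw [r8_pow p1.le]
      linarith) (by
      rw [r8_pow p2.le]
      linarith)
    rw [r8_pow p0.le, r8_pow p1.le, r8_pow p2.le, CC_norm _ _ _ _ _ (by linarith)] at key
    have e0 : 1 + L.a ω 0 - 1 = L.a ω 0 := by ring
    have e1 : 1 + L.a ω 1 - 1 = L.a ω 1 := by ring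
    have e2 : 1 + L.a ω 2 - 1 = L.a ω 2 := by ring
    rw [e0, e1, e2] at key
    simp only [xU, xI, ePU, eMU]
    linarith
  have e : ∑ ω, L.w ω * (8294 / 1000 * (1 - ePU (fun i => 1 + L.a ω i))
      - 7433 / 1000 * (1 - eMU (fun i => 1 + L.a ω i)) - 1 / 200 * xU (L.a ω))
      = DK L 1 - 1 / 200 * xi L := by
    have e1 : ∀ ω, L.w ω * (8294 / 1000 * (1 - ePU (fun i => 1 + L.a ω i))
      - 7433 / 1000 * (1 - eMU (fun i => 1 + L.a ω i)) - 1 / 200 * xU (L.a ω))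
        = 861 / 1000 * L.w ω - 8294 / 1000 * (L.w ω * ePU (fun i => 1 + L.a ω i))
          + 7433 / 1000 * (L.w ω * eMU (fun i => 1 + L.a ω i)) - 1 / 200 * (L.w ω * xU (L.a ω)) := by
      intro ω
      ring
    simp only [e1, Finset.sum_sub_distrib, Finset.sum_add_distrib, ← Finset.mul_sum, L.w_sum]
    simp only [DK, mP, mM, xi, pow_one]
    ring
  rw [e] at key
  linarith

lemma DK_zero : DK L 0 = 0 := by
  simp [DK]

lemma DK_succ (k : ℕ) : DK L 1 + mM L * DK L k ≤ DK L (k + 1) := by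
  have h1 := mP_nonneg L
  have h2 := mP_le_one L
  have h3 := mM_nonneg L
  have h4 := mM_le_mP L
  have h5 : mP L ^ k ≤ 1 := pow_le_one₀ h1 h2
  have key : DK L (k + 1) - (DK L 1 + mM L * DK L k)
      = 8294 / 1000 * (mP L - mM L) * (1 - mP L ^ k) := by
    simp only [DK, pow_succ, pow_one]
    ring
  have : 0 ≤ 8294 / 1000 * (mP L - mM L) * (1 - mP L ^ k) :=
    mul_nonneg (mul_nonneg (by norm_num) (by linarith)) (by linarith)
  linarith

lemma DK_ge (k : ℕ) : DK L 1 ≤ DK L (k + 1) := by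
  have h0 : 0 ≤ DK L 1 := by
    have := delta_ge L
    have := xi_nonneg L
    linarith
  induction k with
  | zero => simp
  | succ k ih =>
    have := DK_succ L (k + 1)
    have h3 := mM_nonneg L
    have : 0 ≤ mM L * DK L (k + 1) := mul_nonneg h3 (by linarith)
    linarith

/-! ### The chain -/

lemma EE_nonneg (k : ℕ) {Φ : (Fin 3 → ℝ) → ℝ}
    (h : ∀ c : Fin 3 → ℝ, c 0 + c 1 + c 2 = 0 → (∀ i, -1 < c i) → 0 ≤ Φ c) :
    0 ≤ EE L k Φ := by
  have h1 : EE L k (fun _ => 0) ≤ EE L k Φ := EE_mono L k h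
  have h2 : EE L k (fun _ => 0) = 0 := by
    have := EE_smul L k 0 (fun _ => 1)
    simpa using this
  linarith

theorem EE_y_nonneg (hη : 0 ≤ eta L) (k : ℕ) : 0 ≤ EE L k yU := by
  induction k with
  | zero =>
    rw [EE_zero]
    simp [yU, yI]
  | succ k ih =>
    have h1 := EE_y_succ L k
    have h2 : 0 ≤ EE L k (fun c => 1 - xU c / 2) := by
      refine EE_nonneg L k fun c hc hl => ?_
      obtain ⟨_, h3, _, _⟩ := region (μ := 1) hc (hl 0) (hl 1) (hl 2)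
      simp only [xU]
      linarith
    have h3 := xi_le L
    have h4 : 0 ≤ (1 - xi L) * EE L k yU := mul_nonneg (by linarith) ih
    have h5 := mul_nonneg hη h2
    linarith

/-- The bound on the second moment after `k + 1` children. -/
theorem EE_x_bound (hη : 0 ≤ eta L) (k : ℕ) :
    EE L (k + 1) xU ≤ (k + 1) * xi L - k * (xi L)^2 / 400 := by
  have hf : ∀ k, 0 ≤ EE L k (fun c => ff (xU c) (yU c)) := fun k =>
    EE_nonneg L k fun c hc hl => by
      obtain ⟨h1, h2, h3, h4⟩ := region (μ := 1) hc (hl 0) (hl 1) (hl 2)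
      exact ff_nonneg h1 h2 h3 h4
  have hxi := xi_nonneg L
  induction k with
  | zero =>
    have h1 := EE_x_succ L 0
    rw [EE_zero, EE_zero, EE_zero] at h1
    have e0 : xU 0 = 0 := by simp [xU, xI]
    have e1 : yU 0 = 0 := by simp [yU, yI]
    simp only [e0, e1, Ups, ff] at h1
    norm_num at h1 ⊢
    linarith
  | succ k ih =>
    have h1 := EE_x_succ L (k + 1)
    have h2 := EE_Ups_ge L (k + 1)
    have h3 := EE_y_nonneg L hη (k + 1)
    have h4 := DK_ge L k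
    have h5 := delta_ge L
    have h6 : 1 / 200 * xi L ≤ EE L (k + 1) (fun c => Ups (xU c) (yU c)) := by linarith
    have h7 := mul_le_mul_of_nonneg_left h6 (by positivity : 0 ≤ 1 / 2 * xi L)
    have h8 := mul_nonneg hη (hf (k + 1))
    push_cast
    nlinarith

end Vale.Agent.helper4.PottsChain
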