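import Vale.Agent.helper4.KEngine

/-!
Polynomial certificates for the bound on the average of `tau1` on the whole simplex, three colours.
-/

namespace Vale.Agent.helper4.Q3Certs

open Vale.Agent.helper4.KEngine
open PE

noncomputable def a00 (t T : ℝ) : ℝ :=
  (6107 / 20000) + (6841 / 10000) * T^1 + (14453 / 20000) * t^1 + (-4411 / 10000) * t^1 * T^1

noncomputable def a01 (t T : ℝ) : ℝ :=
  (-983 / 10000) + (-1911 / 5000) * T^1 + (-12107 / 10000) * t^1 + (5881 / 5000) * t^1 * T^1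

noncomputable def a02 (t T : ℝ) : ℝ :=
  0

noncomputable def a10 (t T : ℝ) : ℝ :=
  (-1143 / 20000) + (-8159 / 10000) * T^1 + (-8949 / 20000) * t^1 + (6863 / 10000) * t^1 * T^1

noncomputable def a11 (t T : ℝ) : ℝ :=
  (10763 / 16000) + (-5811 / 40000) * T^1 + (-2311 / 80000) * t^1 + (-2911 / 10000) * t^1 * T^1 + (-3159 / 20000) * t^1 * T^2 + (-5547 / 40000) * t^2 * T^1 + (5589 / 20000) * t^2 * T^2

noncomputable def a12 (t T : ℝ) : ℝ :=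
  (-12051 / 40000) + (5733 / 20000) * T^1 + (21321 / 40000) * t^1 + (-3063 / 10000) * t^1 * T^1 + (-1911 / 10000) * t^1 * T^2 + (-7107 / 20000) * t^2 * T^1 + (3381 / 10000) * t^2 * T^2

noncomputable def a20 (t T : ℝ) : ℝ :=
  0

noncomputable def a21 (t T : ℝ) : ℝ :=
  (-26571 / 80000) + (9477 / 40000) * T^1 + (26847 / 80000) * t^1 + (817 / 10000) * t^1 * T^1 + (-3159 / 20000) * t^1 * T^2 + (-8949 / 40000) * t^2 * T^1 + (1863 / 20000) * t^2 * T^2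

noncomputable def a22 (t T : ℝ) : ℝ :=
  (-12051 / 40000) + (5733 / 20000) * T^1 + (7107 / 40000) * t^1 + (159 / 5000) * t^1 * T^1 + (-1911 / 10000) * t^1 * T^2 + (-2369 / 20000) * t^2 * T^1 + (1127 / 10000) * t^2 * T^2

/-- Value at the lower end of `x`, in terms of the three coefficients. -/
noncomputable def b0 (q0 q1 q2 lo : ℝ) : ℝ := q0 + q1 * lo + q2 * lo^2
/-- Middle coefficient. -/
noncomputable def b1 (q0 q1 q2 lo D : ℝ) : ℝ := q0 * D * 2 + q1 * (lo * D + 1) + q2 * lo * 2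
/-- Value at the upper end. -/
noncomputable def b2 (q0 q1 q2 D : ℝ) : ℝ := q0 * D^2 + q1 * D + q2

noncomputable def B00 (t T : ℝ) : ℝ :=
  b0 (b0 (a00 t T) (a10 t T) (a20 t T) (2 * t^2)) (b0 (a01 t T) (a11 t T) (a21 t T) (2 * t^2)) (b0 (a02 t T) (a12 t T) (a22 t T) (2 * t^2)) (2 * T^2)

noncomputable def B01 (t T : ℝ) : ℝ :=
  b1 (b0 (a00 t T) (a10 t T) (a20 t T) (2 * t^2)) (b0 (a01 t T) (a11 t T) (a21 t T) (2 * t^2)) (b0 (a02 t T) (a12 t T) (a22 t T) (2 * t^2)) (2 * T^2) (3 / 2 - T)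

noncomputable def B02 (t T : ℝ) : ℝ :=
  b2 (b0 (a00 t T) (a10 t T) (a20 t T) (2 * t^2)) (b0 (a01 t T) (a11 t T) (a21 t T) (2 * t^2)) (b0 (a02 t T) (a12 t T) (a22 t T) (2 * t^2)) (3 / 2 - T)

noncomputable def B10 (t T : ℝ) : ℝ :=
  b0 (b1 (a00 t T) (a10 t T) (a20 t T) (2 * t^2) (3 / 2 - t)) (b1 (a01 t T) (a11 t T) (a21 t T) (2 * t^2) (3 / 2 - t)) (b1 (a02 t T) (a12 t T) (a22 t T) (2 * t^2) (3 / 2 - t)) (2 * T^2)

noncomputable def B11 (t T : ℝ) : ℝ :=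
  b1 (b1 (a00 t T) (a10 t T) (a20 t T) (2 * t^2) (3 / 2 - t)) (b1 (a01 t T) (a11 t T) (a21 t T) (2 * t^2) (3 / 2 - t)) (b1 (a02 t T) (a12 t T) (a22 t T) (2 * t^2) (3 / 2 - t)) (2 * T^2) (3 / 2 - T)

noncomputable def B12 (t T : ℝ) : ℝ :=
  b2 (b1 (a00 t T) (a10 t T) (a20 t T) (2 * t^2) (3 / 2 - t)) (b1 (a01 t T) (a11 t T) (a21 t T) (2 * t^2) (3 / 2 - t)) (b1 (a02 t T) (a12 t T) (a22 t T) (2 * t^2) (3 / 2 - t)) (3 / 2 - T)

noncomputable def B20 (t T : ℝ) : ℝ :=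
  b0 (b2 (a00 t T) (a10 t T) (a20 t T) (3 / 2 - t)) (b2 (a01 t T) (a11 t T) (a21 t T) (3 / 2 - t)) (b2 (a02 t T) (a12 t T) (a22 t T) (3 / 2 - t)) (2 * T^2)

noncomputable def B21 (t T : ℝ) : ℝ :=
  b1 (b2 (a00 t T) (a10 t T) (a20 t T) (3 / 2 - t)) (b2 (a01 t T) (a11 t T) (a21 t T) (3 / 2 - t)) (b2 (a02 t T) (a12 t T) (a22 t T) (3 / 2 - t)) (2 * T^2) (3 / 2 - T)

noncomputable def B22 (t T : ℝ) : ℝ :=
  b2 (b2 (a00 t T) (a10 t T) (a20 t T) (3 / 2 - t)) (b2 (a01 t T) (a11 t T) (a21 t T) (3 / 2 - t)) (b2 (a02 t T) (a12 t T) (a22 t T) (3 / 2 - t)) (3 / 2 - T)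

def EpB00 : PE :=
  add (add (add (add (add (add (add (add (add (add (add (add (add (add (add (add (add (add (add (add (add (add (add (add (add (add (add (mul (c 923940) (mul (pow (v 1) 6) (pow (v 3) 6))) (mul (c 9186480) (mul (pow (v 1) 6) (mul (pow (v 2) 2) (pow (v 3) 4))))) (mul (c 16368345) (mul (pow (v 1) 6) (mul (pow (v 2) 3) (pow (v 3) 3))))) (mul (c 14109795) (mul (pow (v 1) 6) (pow (v 2) 6)))) (mul (c 13463388) (mul (pow (v 0) 1) (mul (pow (v 1) 5) (mul (pow (v 2) 1) (pow (v 3) 5)))))) (mul (c 61676964) (mul (pow (v 0) 1) (mul (pow (v 1) 5) (mul (pow (v 2) 2) (pow (v 3) 4)))))) (mul (c 84339468) (mul (pow (v 0) 1) (mul (pow (v 1) 5) (mul (pow (v 2) 4) (pow (v 3) 2)))))) (mul (c 200893446) (mul (pow (v 0) 1) (mul (pow (v 1) 5) (mul (pow (v 2) 5) (pow (v 3) 1)))))) (mul (c 5433588) (mul (pow (v 0) 2) (mul (pow (v 1) 4) (pow (v 3) 6))))) (mul (c 72111870) (mul (pow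 (v 0) 2) (mul (pow (v 1) 4) (mul (pow (v 2) 1) (pow (v 3) 5)))))) (mul (c 307718433) (mul (pow (v 0) 2) (mul (pow (v 1) 4) (mul (pow (v 2) 3) (pow (v 3) 3)))))) (mul (c 419005143) (mul (pow (v 0) 2) (mul (pow (v 1) 4) (mul (pow (v 2) 4) (pow (v 3) 2)))))) (mul (c 778324869) (mul (pow (v 0) 2) (mul (pow (v 1) 4) (pow (v 2) 6))))) (mul (c 14110632) (mul (pow (v 0) 3) (mul (pow (v 1) 3) (pow (v 3) 6))))) (mul (c 198531000) (mul (pow (v 0) 3) (mul (pow (v 1) 3) (mul (pow (v 2) 2) (pow (v 3) 4)))))) (mul (c 697638420) (mul (pow (v 0) 3) (mul (pow (v 1) 3) (mul (pow (v 2) 3) (pow (v 3) 3)))))) (mul (c 3762313596) (mul (pow (v 0) 3) (mul (pow (v 1) 3) (mul (pow (v 2) 5) (pow (v 3) 1)))))) (mul (c 24519186) (mul (pow (v 0) 4) (mul (pow (v 1) 2) (mul (pow (v 2) 1) (pow (v 3) 5)))))) (mul (c 530426232) (mul (pow (v 0) 4) (mul (pow (v 1) 2) (mul (pow (v 2) 2) (pow (v 3) 4)))))) (mul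 (c 4979661219) (mul (pow (v 0) 4) (mul (pow (v 1) 2) (mul (pow (v 2) 4) (pow (v 3) 2)))))) (mul (c 2525939073) (mul (pow (v 0) 4) (mul (pow (v 1) 2) (pow (v 2) 6))))) (mul (c 165748356) (mul (pow (v 0) 5) (mul (pow (v 1) 1) (mul (pow (v 2) 1) (pow (v 3) 5)))))) (mul (c 2886170778) (mul (pow (v 0) 5) (mul (pow (v 1) 1) (mul (pow (v 2) 3) (pow (v 3) 3)))))) (mul (c 4664280510) (mul (pow (v 0) 5) (mul (pow (v 1) 1) (mul (pow (v 2) 5) (pow (v 3) 1)))))) (mul (c 10430532) (mul (pow (v 0) 6) (pow (v 3) 6)))) (mul (c 515825820) (mul (pow (v 0) 6) (mul (pow (v 2) 2) (pow (v 3) 4))))) (mul (c 1807667037) (mul (pow (v 0) 6) (mul (pow (v 2) 4) (pow (v 3) 2))))) (mul (c 598934007) (mul (pow (v 0) 6) (pow (v 2) 6)))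

def EmB00 : PE :=
  add (add (add (add (add (add (add (add (add (add (add (add (add (add (add (add (add (add (add (add (mul (c 6481890) (mul (pow (v 1) 6) (mul (pow (v 2) 1) (pow (v 3) 5)))) (mul (c 24220215) (mul (pow (v 1) 6) (mul (pow (v 2) 4) (pow (v 3) 2))))) (mul (c 9886455) (mul (pow (v 1) 6) (mul (pow (v 2) 5) (pow (v 3) 1))))) (mul (c 5389848) (mul (pow (v 0) 1) (mul (pow (v 1) 5) (pow (v 3) 6))))) (mul (c 187778574) (mul (pow (v 0) 1) (mul (pow (v 1) 5) (mul (pow (v 2) 3) (pow (v 3) 3)))))) (mul (c 165888324) (mul (pow (v 0) 1) (mul (pow (v 1) 5) (pow (v 2) 6))))) (mul (c 312657732) (mul (pow (v 0) 2) (mul (pow (v 1) 4) (mul (pow (v 2) 2) (pow (v 3) 4)))))) (mul (c 1286710515) (mul (pow (v 0) 2) (mul (pow (v 1) 4) (mul (pow (v 2) 5) (pow (v 3) 1)))))) (mul (c 152928000) (mul (pow (v 0) 3) (mul (pow (v 1) 3) (mul (pow (v 2) 1) (pow (v 3) 5)))))) (mul (c 2565237276)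 (mul (pow (v 0) 3) (mul (pow (v 1) 3) (mul (pow (v 2) 4) (pow (v 3) 2)))))) (mul (c 1878781716) (mul (pow (v 0) 3) (mul (pow (v 1) 3) (pow (v 2) 6))))) (mul (c 16788060) (mul (pow (v 0) 4) (mul (pow (v 1) 2) (pow (v 3) 6))))) (mul (c 2478236229) (mul (pow (v 0) 4) (mul (pow (v 1) 2) (mul (pow (v 2) 3) (pow (v 3) 3)))))) (mul (c 5704901037) (mul (pow (v 0) 4) (mul (pow (v 1) 2) (mul (pow (v 2) 5) (pow (v 3) 1)))))) (mul (c 8720784) (mul (pow (v 0) 5) (mul (pow (v 1) 1) (pow (v 3) 6))))) (mul (c 1006693596) (mul (pow (v 0) 5) (mul (pow (v 1) 1) (mul (pow (v 2) 2) (pow (v 3) 4)))))) (mul (c 4713527376) (mul (pow (v 0) 5) (mul (pow (v 1) 1) (mul (pow (v 2) 4) (pow (v 3) 2)))))) (mul (c 1874923848) (mul (pow (v 0) 5) (mul (pow (v 1) 1) (pow (v 2) 6))))) (mul (c 115705422) (mul (pow (v 0) 6) (mul (pow (v 2) 1) (pow (v 3) 5))))) (mul (c 1232765973) (mul (pow (v 0) 6) (mul (pow (v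 2) 3) (pow (v 3) 3))))) (mul (c 1617529257) (mul (pow (v 0) 6) (mul (pow (v 2) 5) (pow (v 3) 1))))

theorem checkB00 : cover EpB00 EmB00 (c 0) (c 1) 7 7 6 true 0 1 0 1 1 = true := by
  decide +kernel

lemma certB00 {t T : ℝ} (h1 : -1 / 2 < t) (h2 : t ≤ 1) (h3 : -1 / 2 < T) (h4 : T ≤ 1) :
    0 ≤ B00 t T := by
  obtain ⟨P₀, U₀, g1, g2, g3⟩ := box_nonneg checkB00 (p := (t + 1 / 2) * (2 / 3))
    (q := (T + 1 / 2) * (2 / 3)) (by linarith) (by linarith) (by linarith) (by linarith)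
  have e : EpB00.ev (renv ((t + 1 / 2) * (2 / 3)) P₀ ((T + 1 / 2) * (2 / 3)) U₀)
      - EmB00.ev (renv ((t + 1 / 2) * (2 / 3)) P₀ ((T + 1 / 2) * (2 / 3)) U₀)
      = 2560000 * P₀^6 * U₀^6 * B00 t T := by
    simp only [EpB00, EmB00, PE.ev, renv, B00, a00, a01, a02, a10, a11, a12, a20, a21, a22, b0, b1, b2]
    push_cast
    ring
  have h5 : 0 < (2560000 : ℝ) * P₀^6 * U₀^6 := by positivity
  have h6 : 0 ≤ (2560000 : ℝ) * P₀^6 * U₀^6 * B00 t T := by linarith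
  exact nonneg_of_mul_nonneg_right h6 h5

def EpB01 : PE :=
  add (add (add (add (add (add (add (add (add (add (add (add (add (add (add (add (add (add (add (mul (c 7391520) (mul (pow (v 1) 6) (pow (v 3) 5))) (mul (c 108661365) (mul (pow (v 1) 6) (mul (pow (v 2) 2) (pow (v 3) 3))))) (mul (c 82650375) (mul (pow (v 1) 6) (mul (pow (v 2) 4) (pow (v 3) 1))))) (mul (c 158540760) (mul (pow (v 0) 1) (mul (pow (v 1) 5) (mul (pow (v 2) 1) (pow (v 3) 4)))))) (mul (c 557341560) (mul (pow (v 0) 1) (mul (pow (v 1) 5) (mul (pow (v 2) 3) (pow (v 3) 2)))))) (mul (c 91407852) (mul (pow (v 0) 1) (mul (pow (v 1) 5) (pow (v 2) 5))))) (mul (c 43468704) (mul (pow (v 0) 2) (mul (pow (v 1) 4) (pow (v 3) 5))))) (mul (c 21438108) (mul (pow (v 0) 2) (mul (pow (v 1) 4) (mul (pow (v 2) 1) (pow (v 3) 4)))))) (mul (c 1795753719) (mul (pow (v 0) 2) (mul (pow (v 1) 4) (mul (pow (v 2) 4) (pow (v 3) 1))))))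 (mul (c 112885056) (mul (pow (v 0) 3) (mul (pow (v 1) 3) (pow (v 3) 5))))) (mul (c 4528778364) (mul (pow (v 0) 3) (mul (pow (v 1) 3) (mul (pow (v 2) 3) (pow (v 3) 2)))))) (mul (c 1035247068) (mul (pow (v 0) 3) (mul (pow (v 1) 3) (pow (v 2) 5))))) (mul (c 2924134911) (mul (pow (v 0) 4) (mul (pow (v 1) 2) (mul (pow (v 2) 2) (pow (v 3) 3)))))) (mul (c 6876065781) (mul (pow (v 0) 4) (mul (pow (v 1) 2) (mul (pow (v 2) 4) (pow (v 3) 1)))))) (mul (c 1065063168) (mul (pow (v 0) 5) (mul (pow (v 1) 1) (mul (pow (v 2) 1) (pow (v 3) 4)))))) (mul (c 7974265644) (mul (pow (v 0) 5) (mul (pow (v 1) 1) (mul (pow (v 2) 3) (pow (v 3) 2)))))) (mul (c 1033121304) (mul (pow (v 0) 5) (mul (pow (v 1) 1) (pow (v 2) 5))))) (mul (c 83444256) (mul (pow (v 0) 6) (pow (v 3) 5)))) (mul (c 1999812483) (mul (pow (v 0) 6) (mul (pow (v 2) 2) (pow (v 3) 3))))) (mul (c 1940881581) (mul (pow (v 0) 6) (mul (pow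 (v 2) 4) (pow (v 3) 1))))

def EmB01 : PE :=
  add (add (add (add (add (add (add (add (add (add (add (add (add (add (add (add (add (add (add (add (add (mul (c 31209300) (mul (pow (v 1) 6) (mul (pow (v 2) 1) (pow (v 3) 4)))) (mul (c 159719175) (mul (pow (v 1) 6) (mul (pow (v 2) 3) (pow (v 3) 2))))) (mul (c 7774785) (mul (pow (v 1) 6) (pow (v 2) 5)))) (mul (c 43118784) (mul (pow (v 0) 1) (mul (pow (v 1) 5) (pow (v 3) 5))))) (mul (c 295301538) (mul (pow (v 0) 1) (mul (pow (v 1) 5) (mul (pow (v 2) 2) (pow (v 3) 3)))))) (mul (c 466236810) (mul (pow (v 0) 1) (mul (pow (v 1) 5) (mul (pow (v 2) 4) (pow (v 3) 1)))))) (mul (c 1304343) (mul (pow (v 0) 2) (mul (pow (v 1) 4) (mul (pow (v 2) 2) (pow (v 3) 3)))))) (mul (c 1464031989) (mul (pow (v 0) 2) (mul (pow (v 1) 4) (mul (pow (v 2) 3) (pow (v 3) 2)))))) (mul (c 428872887) (mul (pow (v 0) 2) (mul (pow (v 1) 4) (pow (v 2) 5))))) (mul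 (c 321995736) (mul (pow (v 0) 3) (mul (pow (v 1) 3) (mul (pow (v 2) 1) (pow (v 3) 4)))))) (mul (c 574993404) (mul (pow (v 0) 3) (mul (pow (v 1) 3) (mul (pow (v 2) 2) (pow (v 3) 3)))))) (mul (c 4628628036) (mul (pow (v 0) 3) (mul (pow (v 1) 3) (mul (pow (v 2) 4) (pow (v 3) 1)))))) (mul (c 134304480) (mul (pow (v 0) 4) (mul (pow (v 1) 2) (pow (v 3) 5))))) (mul (c 251136612) (mul (pow (v 0) 4) (mul (pow (v 1) 2) (mul (pow (v 2) 1) (pow (v 3) 4)))))) (mul (c 8301674853) (mul (pow (v 0) 4) (mul (pow (v 1) 2) (mul (pow (v 2) 3) (pow (v 3) 2)))))) (mul (c 1391843979) (mul (pow (v 0) 4) (mul (pow (v 1) 2) (pow (v 2) 5))))) (mul (c 69766272) (mul (pow (v 0) 5) (mul (pow (v 1) 1) (pow (v 3) 5))))) (mul (c 4170919554) (mul (pow (v 0) 5) (mul (pow (v 1) 1) (mul (pow (v 2) 2) (pow (v 3) 3)))))) (mul (c 5607096210) (mul (pow (v 0) 5) (mul (pow (v 1) 1) (mul (pow (v 2) 4) (pow (v 3) 1))))))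 (mul (c 637790436) (mul (pow (v 0) 6) (mul (pow (v 2) 1) (pow (v 3) 4))))) (mul (c 3122609535) (mul (pow (v 0) 6) (mul (pow (v 2) 3) (pow (v 3) 2))))) (mul (c 330024861) (mul (pow (v 0) 6) (pow (v 2) 5)))

theorem checkB01 : cover EpB01 EmB01 (c 0) (c 1) 7 6 6 true 0 1 0 1 1 = true := by
  decide +kernel

lemma certB01 {t T : ℝ} (h1 : -1 / 2 < t) (h2 : t ≤ 1) (h3 : -1 / 2 < T) (h4 : T ≤ 1) :
    0 ≤ B01 t T := by
  obtain ⟨P₀, U₀, g1, g2, g3⟩ := box_nonneg checkB01 (p := (t + 1 / 2) * (2 / 3))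
    (q := (T + 1 / 2) * (2 / 3)) (by linarith) (by linarith) (by linarith) (by linarith)
  have e : EpB01.ev (renv ((t + 1 / 2) * (2 / 3)) P₀ ((T + 1 / 2) * (2 / 3)) U₀)
      - EmB01.ev (renv ((t + 1 / 2) * (2 / 3)) P₀ ((T + 1 / 2) * (2 / 3)) U₀)
      = 5120000 * P₀^6 * U₀^5 * B01 t T := by
    simp only [EpB01, EmB01, PE.ev, renv, B01, a00, a01, a02, a10, a11, a12, a20, a21, a22, b0, b1, b2]
    push_cast
    ring
  have h5 : 0 < (5120000 : ℝ) * P₀^6 * U₀^5 := by positivity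
  have h6 : 0 ≤ (5120000 : ℝ) * P₀^6 * U₀^5 * B01 t T := by linarith
  exact nonneg_of_mul_nonneg_right h6 h5

def EpB02 : PE :=
  add (add (add (add (add (add (add (add (add (add (add (add (add (mul (c 3695760) (mul (pow (v 1) 6) (pow (v 3) 3))) (mul (c 1945215) (mul (pow (v 1) 6) (pow (v 2) 3)))) (mul (c 104687208) (mul (pow (v 0) 1) (mul (pow (v 1) 5) (mul (pow (v 2) 1) (pow (v 3) 2)))))) (mul (c 38929572) (mul (pow (v 0) 1) (mul (pow (v 1) 5) (pow (v 2) 3))))) (mul (c 21734352) (mul (pow (v 0) 2) (mul (pow (v 1) 4) (pow (v 3) 3))))) (mul (c 360481185) (mul (pow (v 0) 2) (mul (pow (v 1) 4) (mul (pow (v 2) 2) (pow (v 3) 1)))))) (mul (c 56442528) (mul (pow (v 0) 3) (mul (pow (v 1) 3) (pow (v 3) 3))))) (mul (c 289716264) (mul (pow (v 0) 3) (mul (pow (v 1) 3) (mul (pow (v 2) 1) (pow (v 3) 2)))))) (mul (c 155052468) (mul (pow (v 0) 3) (mul (pow (v 1) 3) (pow (v 2) 3))))) (mul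 (c 536170023) (mul (pow (v 0) 4) (mul (pow (v 1) 2) (mul (pow (v 2) 2) (pow (v 3) 1)))))) (mul (c 402069744) (mul (pow (v 0) 5) (mul (pow (v 1) 1) (mul (pow (v 2) 1) (pow (v 3) 2)))))) (mul (c 114791256) (mul (pow (v 0) 5) (mul (pow (v 1) 1) (pow (v 2) 3))))) (mul (c 41722128) (mul (pow (v 0) 6) (pow (v 3) 3)))) (mul (c 161630235) (mul (pow (v 0) 6) (mul (pow (v 2) 2) (pow (v 3) 1))))

def EmB02 : PE :=
  add (add (add (add (add (add (add (add (add (add (add (add (add (mul (c 5281740) (mul (pow (v 1) 6) (mul (pow (v 2) 1) (pow (v 3) 2)))) (mul (c 359235) (mul (pow (v 1) 6) (mul (pow (v 2) 2) (pow (v 3) 1))))) (mul (c 21559392) (mul (pow (v 0) 1) (mul (pow (v 1) 5) (pow (v 3) 3))))) (mul (c 121728258) (mul (pow (v 0) 1) (mul (pow (v 1) 5) (mul (pow (v 2) 2) (pow (v 3) 1)))))) (mul (c 267009372) (mul (pow (v 0) 2) (mul (pow (v 1) 4) (mul (pow (v 2) 1) (pow (v 3) 2)))))) (mul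 (c 119399751) (mul (pow (v 0) 2) (mul (pow (v 1) 4) (pow (v 2) 3))))) (mul (c 482299596) (mul (pow (v 0) 3) (mul (pow (v 1) 3) (mul (pow (v 2) 2) (pow (v 3) 1)))))) (mul (c 67152240) (mul (pow (v 0) 4) (mul (pow (v 1) 2) (pow (v 3) 3))))) (mul (c 349213356) (mul (pow (v 0) 4) (mul (pow (v 1) 2) (mul (pow (v 2) 1) (pow (v 3) 2)))))) (mul (c 154649331) (mul (pow (v 0) 4) (mul (pow (v 1) 2) (pow (v 2) 3))))) (mul (c 34883136) (mul (pow (v 0) 5) (mul (pow (v 1) 1) (pow (v 3) 3))))) (mul (c 453894354) (mul (pow (v 0) 5) (mul (pow (v 1) 1) (mul (pow (v 2) 2) (pow (v 3) 1)))))) (mul (c 174968748) (mul (pow (v 0) 6) (mul (pow (v 2) 1) (pow (v 3) 2))))) (mul (c 36669429) (mul (pow (v 0) 6) (pow (v 2) 3)))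

theorem checkB02 : cover EpB02 EmB02 (c 0) (c 1) 7 4 6 true 0 1 0 1 1 = true := by
  decide +kernel

lemma certB02 {t T : ℝ} (h1 : -1 / 2 < t) (h2 : t ≤ 1) (h3 : -1 / 2 < T) (h4 : T ≤ 1) :
    0 ≤ B02 t T := by
  obtain ⟨P₀, U₀, g1, g2, g3⟩ := box_nonneg checkB02 (p := (t + 1 / 2) * (2 / 3))
    (q := (T + 1 / 2) * (2 / 3)) (by linarith) (by linarith) (by linarith) (by linarith)
  have e : EpB02.ev (renv ((t + 1 / 2) * (2 / 3)) P₀ ((T + 1 / 2) * (2 / 3)) U₀)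
      - EmB02.ev (renv ((t + 1 / 2) * (2 / 3)) P₀ ((T + 1 / 2) * (2 / 3)) U₀)
      = 2560000 * P₀^6 * U₀^3 * B02 t T := by
    simp only [EpB02, EmB02, PE.ev, renv, B02, a00, a01, a02, a10, a11, a12, a20, a21, a22, b0, b1, b2]
    push_cast
    ring
  have h5 : 0 < (2560000 : ℝ) * P₀^6 * U₀^3 := by positivity
  have h6 : 0 ≤ (2560000 : ℝ) * P₀^6 * U₀^3 * B02 t T := by linarith
  exact nonneg_of_mul_nonneg_right h6 h5

def EpB10 : PE :=
  add (add (add (add (add (add (add (add (add (add (add (add (add (add (add (add (add (add (mul (c 3695760) (mul (pow (v 1) 5) (pow (v 3) 6))) (mul (c 36745920) (mul (pow (v 1) 5) (mul (pow (v 2) 2) (pow (v 3) 4))))) (mul (c 65473380) (mul (pow (v 1) 5) (mul (pow (v 2) 3) (pow (v 3) 3))))) (mul (c 56439180) (mul (pow (v 1) 5) (pow (v 2) 6)))) (mul (c 94090950) (mul (pow (v 0) 1) (mul (pow (v 1) 4) (mul (pow (v 2) 1) (pow (v 3) 5)))))) (mul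 (c 665638965) (mul (pow (v 0) 1) (mul (pow (v 1) 4) (mul (pow (v 2) 5) (pow (v 3) 1)))))) (mul (c 42419916) (mul (pow (v 0) 2) (mul (pow (v 1) 3) (pow (v 3) 6))))) (mul (c 1538655102) (mul (pow (v 0) 2) (mul (pow (v 1) 3) (mul (pow (v 2) 4) (pow (v 3) 2)))))) (mul (c 1564365474) (mul (pow (v 0) 2) (mul (pow (v 1) 3) (pow (v 2) 6))))) (mul (c 168886296) (mul (pow (v 0) 3) (mul (pow (v 1) 2) (mul (pow (v 2) 1) (pow (v 3) 5)))))) (mul (c 2203074450) (mul (pow (v 0) 3) (mul (pow (v 1) 2) (mul (pow (v 2) 3) (pow (v 3) 3)))))) (mul (c 5887749546) (mul (pow (v 0) 3) (mul (pow (v 1) 2) (mul (pow (v 2) 5) (pow (v 3) 1)))))) (mul (c 34003476) (mul (pow (v 0) 4) (mul (pow (v 1) 1) (pow (v 3) 6))))) (mul (c 978160536) (mul (pow (v 0) 4) (mul (pow (v 1) 1) (mul (pow (v 2) 2) (pow (v 3) 4)))))) (mul (c 5359746510) (mul (pow (v 0) 4) (mul (pow (v 1) 1) (mul (pow (v 2) 4) (pow (v 3) 2))))))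 (mul (c 2089035522) (mul (pow (v 0) 4) (mul (pow (v 1) 1) (pow (v 2) 6))))) (mul (c 69122322) (mul (pow (v 0) 5) (mul (pow (v 2) 1) (pow (v 3) 5))))) (mul (c 1093016673) (mul (pow (v 0) 5) (mul (pow (v 2) 3) (pow (v 3) 3))))) (mul (c 1617529257) (mul (pow (v 0) 5) (mul (pow (v 2) 5) (pow (v 3) 1))))

def EmB10 : PE :=
  add (add (add (add (add (add (add (add (add (add (add (add (add (add (add (add (add (add (add (add (add (add (mul (c 25927560) (mul (pow (v 1) 5) (mul (pow (v 2) 1) (pow (v 3) 5)))) (mul (c 96880860) (mul (pow (v 1) 5) (mul (pow (v 2) 4) (pow (v 3) 2))))) (mul (c 39545820) (mul (pow (v 1) 5) (mul (pow (v 2) 5) (pow (v 3) 1))))) (mul (c 14824620) (mul (pow (v 0) 1) (mul (pow (v 1) 4) (pow (v 3) 6))))) (mul (c 43610400) (mul (pow (v 0) 1) (mul (pow (v 1) 4) (mul (pow (v 2) 2) (pow (v 3) 4)))))) (mul (c 231406875) (mul (pow (v 0) 1) (mul (pow (v 1) 4) (mul (pow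 (v 2) 3) (pow (v 3) 3)))))) (mul (c 560115) (mul (pow (v 0) 1) (mul (pow (v 1) 4) (mul (pow (v 2) 4) (pow (v 3) 2)))))) (mul (c 466694865) (mul (pow (v 0) 1) (mul (pow (v 1) 4) (pow (v 2) 6))))) (mul (c 102361644) (mul (pow (v 0) 2) (mul (pow (v 1) 3) (mul (pow (v 2) 1) (pow (v 3) 5)))))) (mul (c 34384824) (mul (pow (v 0) 2) (mul (pow (v 1) 3) (mul (pow (v 2) 2) (pow (v 3) 4)))))) (mul (c 127905480) (mul (pow (v 0) 2) (mul (pow (v 1) 3) (mul (pow (v 2) 3) (pow (v 3) 3)))))) (mul (c 2880383976) (mul (pow (v 0) 2) (mul (pow (v 1) 3) (mul (pow (v 2) 5) (pow (v 3) 1)))))) (mul (c 60039900) (mul (pow (v 0) 3) (mul (pow (v 1) 2) (pow (v 3) 6))))) (mul (c 564539544) (mul (pow (v 0) 3) (mul (pow (v 1) 2) (mul (pow (v 2) 2) (pow (v 3) 4)))))) (mul (c 5005605600) (mul (pow (v 0) 3) (mul (pow (v 1) 2) (mul (pow (v 2) 4) (pow (v 3) 2)))))) (mul (c 2646497448) (mul (pow (v 0) 3) (mul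 (pow (v 1) 2) (pow (v 2) 6))))) (mul (c 203082876) (mul (pow (v 0) 4) (mul (pow (v 1) 1) (mul (pow (v 2) 1) (pow (v 3) 5)))))) (mul (c 2993136948) (mul (pow (v 0) 4) (mul (pow (v 1) 1) (mul (pow (v 2) 3) (pow (v 3) 3)))))) (mul (c 5242527684) (mul (pow (v 0) 4) (mul (pow (v 1) 1) (mul (pow (v 2) 5) (pow (v 3) 1)))))) (mul (c 5254632) (mul (pow (v 0) 5) (pow (v 3) 6)))) (mul (c 376076520) (mul (pow (v 0) 5) (mul (pow (v 2) 2) (pow (v 3) 4))))) (mul (c 1807667037) (mul (pow (v 0) 5) (mul (pow (v 2) 4) (pow (v 3) 2))))) (mul (c 598934007) (mul (pow (v 0) 5) (pow (v 2) 6)))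

theorem checkB10 : cover EpB10 EmB10 (c 0) (c 1) 6 7 6 true 0 1 0 1 1 = true := by
  decide +kernel

lemma certB10 {t T : ℝ} (h1 : -1 / 2 < t) (h2 : t ≤ 1) (h3 : -1 / 2 < T) (h4 : T ≤ 1) :
    0 ≤ B10 t T := by
  obtain ⟨P₀, U₀, g1, g2, g3⟩ := box_nonneg checkB10 (p := (t + 1 / 2) * (2 / 3))
    (q := (T + 1 / 2) * (2 / 3)) (by linarith) (by linarith) (by linarith) (by linarith)
  have e : EpB10.ev (renv ((t + 1 / 2) * (2 / 3)) P₀ ((T + 1 / 2) * (2 / 3)) U₀)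
      - EmB10.ev (renv ((t + 1 / 2) * (2 / 3)) P₀ ((T + 1 / 2) * (2 / 3)) U₀)
      = 2560000 * P₀^5 * U₀^6 * B10 t T := by
    simp only [EpB10, EmB10, PE.ev, renv, B10, a00, a01, a02, a10, a11, a12, a20, a21, a22, b0, b1, b2]
    push_cast
    ring
  have h5 : 0 < (2560000 : ℝ) * P₀^5 * U₀^6 := by positivity
  have h6 : 0 ≤ (2560000 : ℝ) * P₀^5 * U₀^6 * B10 t T := by linarith
  exact nonneg_of_mul_nonneg_right h6 h5

def EpB11 : PE :=
  add (add (add (add (add (add (add (add (add (add (add (add (add (add (add (add (add (mul (c 29566080) (mul (pow (v 1) 5) (pow (v 3) 5))) (mul (c 434645460) (mul (pow (v 1) 5) (mul (pow (v 2) 2) (pow (v 3) 3))))) (mul (c 330601500) (mul (pow (v 1) 5) (mul (pow (v 2) 4) (pow (v 3) 1))))) (mul (c 608260860) (mul (pow (v 0) 1) (mul (pow (v 1) 4) (mul (pow (v 2) 1) (pow (v 3) 4)))))) (mul (c 2421793485) (mul (pow (v 0) 1) (mul (pow (v 1) 4) (mul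 (pow (v 2) 3) (pow (v 3) 2)))))) (mul (c 257158395) (mul (pow (v 0) 1) (mul (pow (v 1) 4) (pow (v 2) 5))))) (mul (c 339359328) (mul (pow (v 0) 2) (mul (pow (v 1) 3) (pow (v 3) 5))))) (mul (c 2473635348) (mul (pow (v 0) 2) (mul (pow (v 1) 3) (mul (pow (v 2) 2) (pow (v 3) 3)))))) (mul (c 4043214792) (mul (pow (v 0) 2) (mul (pow (v 1) 3) (mul (pow (v 2) 4) (pow (v 3) 1)))))) (mul (c 1675028484) (mul (pow (v 0) 3) (mul (pow (v 1) 2) (mul (pow (v 2) 1) (pow (v 3) 4)))))) (mul (c 8027433072) (mul (pow (v 0) 3) (mul (pow (v 1) 2) (mul (pow (v 2) 3) (pow (v 3) 2)))))) (mul (c 1458274104) (mul (pow (v 0) 3) (mul (pow (v 1) 2) (pow (v 2) 5))))) (mul (c 272027808) (mul (pow (v 0) 4) (mul (pow (v 1) 1) (pow (v 3) 5))))) (mul (c 4102053840) (mul (pow (v 0) 4) (mul (pow (v 1) 1) (mul (pow (v 2) 2) (pow (v 3) 3)))))) (mul (c 5299739604) (mul (pow (v 0) 4) (mul (pow (v 1) 1) (mul (pow (v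 2) 4) (pow (v 3) 1)))))) (mul (c 373819536) (mul (pow (v 0) 5) (mul (pow (v 2) 1) (pow (v 3) 4))))) (mul (c 2144364435) (mul (pow (v 0) 5) (mul (pow (v 2) 3) (pow (v 3) 2))))) (mul (c 330024861) (mul (pow (v 0) 5) (pow (v 2) 5)))

def EmB11 : PE :=
  add (add (add (add (add (add (add (add (add (add (add (add (add (add (add (add (add (mul (c 124837200) (mul (pow (v 1) 5) (mul (pow (v 2) 1) (pow (v 3) 4)))) (mul (c 638876700) (mul (pow (v 1) 5) (mul (pow (v 2) 3) (pow (v 3) 2))))) (mul (c 31099140) (mul (pow (v 1) 5) (pow (v 2) 5)))) (mul (c 118596960) (mul (pow (v 0) 1) (mul (pow (v 1) 4) (pow (v 3) 5))))) (mul (c 1577518335) (mul (pow (v 0) 1) (mul (pow (v 1) 4) (mul (pow (v 2) 2) (pow (v 3) 3)))))) (mul (c 1585831365) (mul (pow (v 0) 1) (mul (pow (v 1) 4) (mul (pow (v 2) 4) (pow (v 3) 1)))))) (mul (c 1167864804) (mul (pow (v 0) 2) (mul (pow (v 1) 3) (mul (pow (v 2) 1) (pow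 (v 3) 4)))))) (mul (c 4825538226) (mul (pow (v 0) 2) (mul (pow (v 1) 3) (mul (pow (v 2) 3) (pow (v 3) 2)))))) (mul (c 861997302) (mul (pow (v 0) 2) (mul (pow (v 1) 3) (pow (v 2) 5))))) (mul (c 480319200) (mul (pow (v 0) 3) (mul (pow (v 1) 2) (pow (v 3) 5))))) (mul (c 4141660410) (mul (pow (v 0) 3) (mul (pow (v 1) 2) (mul (pow (v 2) 2) (pow (v 3) 3)))))) (mul (c 6572700450) (mul (pow (v 0) 3) (mul (pow (v 1) 2) (mul (pow (v 2) 4) (pow (v 3) 1)))))) (mul (c 1361496924) (mul (pow (v 0) 4) (mul (pow (v 1) 1) (mul (pow (v 2) 1) (pow (v 3) 4)))))) (mul (c 7116826050) (mul (pow (v 0) 4) (mul (pow (v 1) 1) (mul (pow (v 2) 3) (pow (v 3) 2)))))) (mul (c 1151101206) (mul (pow (v 0) 4) (mul (pow (v 1) 1) (pow (v 2) 5))))) (mul (c 42037056) (mul (pow (v 0) 5) (pow (v 3) 5)))) (mul (c 1301065983) (mul (pow (v 0) 5) (mul (pow (v 2) 2) (pow (v 3) 3))))) (mul (c 1521633681) (mul (pow (v 0)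 5) (mul (pow (v 2) 4) (pow (v 3) 1))))

theorem checkB11 : cover EpB11 EmB11 (c 0) (c 1) 6 6 6 true 0 1 0 1 1 = true := by
  decide +kernel

lemma certB11 {t T : ℝ} (h1 : -1 / 2 < t) (h2 : t ≤ 1) (h3 : -1 / 2 < T) (h4 : T ≤ 1) :
    0 ≤ B11 t T := by
  obtain ⟨P₀, U₀, g1, g2, g3⟩ := box_nonneg checkB11 (p := (t + 1 / 2) * (2 / 3))
    (q := (T + 1 / 2) * (2 / 3)) (by linarith) (by linarith) (by linarith) (by linarith)
  have e : EpB11.ev (renv ((t + 1 / 2) * (2 / 3)) P₀ ((T + 1 / 2) * (2 / 3)) U₀)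
      - EmB11.ev (renv ((t + 1 / 2) * (2 / 3)) P₀ ((T + 1 / 2) * (2 / 3)) U₀)
      = 5120000 * P₀^5 * U₀^5 * B11 t T := by
    simp only [EpB11, EmB11, PE.ev, renv, B11, a00, a01, a02, a10, a11, a12, a20, a21, a22, b0, b1, b2]
    push_cast
    ring
  have h5 : 0 < (5120000 : ℝ) * P₀^5 * U₀^5 := by positivity
  have h6 : 0 ≤ (5120000 : ℝ) * P₀^5 * U₀^5 * B11 t T := by linarith
  exact nonneg_of_mul_nonneg_right h6 h5

def EpB12 : PE :=
  add (add (add (add (add (add (add (add (add (add (add (mul (c 14783040) (mul (pow (v 1) 5) (pow (v 3) 3))) (mul (c 7780860) (mul (pow (v 1) 5) (pow (v 2) 3)))) (mul (c 231897060) (mul (pow (v 0) 1) (mul (pow (v 1) 4) (mul (pow (v 2) 1) (pow (v 3) 2)))))) (mul (c 67642695) (mul (pow (v 0) 1) (mul (pow (v 1) 4) (pow (v 2) 3))))) (mul (c 169679664) (mul (pow (v 0) 2) (mul (pow (v 1) 3) (pow (v 3) 3))))) (mul (c 862696332) (mul (pow (v 0) 2)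 (mul (pow (v 1) 3) (mul (pow (v 2) 2) (pow (v 3) 1)))))) (mul (c 999483300) (mul (pow (v 0) 3) (mul (pow (v 1) 2) (mul (pow (v 2) 1) (pow (v 3) 2)))))) (mul (c 349701300) (mul (pow (v 0) 3) (mul (pow (v 1) 2) (pow (v 2) 3))))) (mul (c 136013904) (mul (pow (v 0) 4) (mul (pow (v 1) 1) (pow (v 3) 3))))) (mul (c 606638808) (mul (pow (v 0) 4) (mul (pow (v 1) 1) (mul (pow (v 2) 2) (pow (v 3) 1)))))) (mul (c 97330248) (mul (pow (v 0) 5) (mul (pow (v 2) 1) (pow (v 3) 2))))) (mul (c 36669429) (mul (pow (v 0) 5) (pow (v 2) 3)))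

def EmB12 : PE :=
  add (add (add (add (add (add (add (add (add (add (add (mul (c 21126960) (mul (pow (v 1) 5) (mul (pow (v 2) 1) (pow (v 3) 2)))) (mul (c 1436940) (mul (pow (v 1) 5) (mul (pow (v 2) 2) (pow (v 3) 1))))) (mul (c 59298480) (mul (pow (v 0) 1) (mul (pow (v 1) 4) (pow (v 3) 3))))) (mul (c 239583015) (mul (pow (v 0) 1) (mul (pow (v 1) 4) (mul (pow (v 2) 2) (pow (v 3) 1)))))) (mul (c 758418228) (mul (pow (v 0) 2) (mul (pow (v 1) 3) (mul (pow (v 2) 1) (pow (v 3) 2)))))) (mul (c 273856626) (mul (pow (v 0) 2) (mul (pow (v 1) 3) (pow (v 2) 3))))) (mul (c 240159600) (mul (pow (v 0) 3) (mul (pow (v 1) 2) (pow (v 3) 3))))) (mul (c 1113268050) (mul (pow (v 0) 3) (mul (pow (v 1) 2) (mul (pow (v 2) 2) (pow (v 3) 1)))))) (mul (c 549165420) (mul (pow (v 0) 4) (mul (pow (v 1) 1) (mul (pow (v 2) 1) (pow (v 3) 2)))))) (mul (c 187937658) (mul (pow (v 0) 4) (mul (pow (v 1) 1) (pow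 (v 2) 3))))) (mul (c 21018528) (mul (pow (v 0) 5) (pow (v 3) 3)))) (mul (c 115047135) (mul (pow (v 0) 5) (mul (pow (v 2) 2) (pow (v 3) 1))))

theorem checkB12 : cover EpB12 EmB12 (c 0) (c 1) 6 4 6 true 0 1 0 1 1 = true := by
  decide +kernel

lemma certB12 {t T : ℝ} (h1 : -1 / 2 < t) (h2 : t ≤ 1) (h3 : -1 / 2 < T) (h4 : T ≤ 1) :
    0 ≤ B12 t T := by
  obtain ⟨P₀, U₀, g1, g2, g3⟩ := box_nonneg checkB12 (p := (t + 1 / 2) * (2 / 3))
    (q := (T + 1 / 2) * (2 / 3)) (by linarith) (by linarith) (by linarith) (by linarith)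
  have e : EpB12.ev (renv ((t + 1 / 2) * (2 / 3)) P₀ ((T + 1 / 2) * (2 / 3)) U₀)
      - EmB12.ev (renv ((t + 1 / 2) * (2 / 3)) P₀ ((T + 1 / 2) * (2 / 3)) U₀)
      = 2560000 * P₀^5 * U₀^3 * B12 t T := by
    simp only [EpB12, EmB12, PE.ev, renv, B12, a00, a01, a02, a10, a11, a12, a20, a21, a22, b0, b1, b2]
    push_cast
    ring
  have h5 : 0 < (2560000 : ℝ) * P₀^5 * U₀^3 := by positivity
  have h6 : 0 ≤ (2560000 : ℝ) * P₀^5 * U₀^3 * B12 t T := by linarith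
  exact nonneg_of_mul_nonneg_right h6 h5

def EpB20 : PE :=
  add (add (add (add (add (add (add (add (add (add (add (add (add (mul (c 1847880) (mul (pow (v 1) 3) (pow (v 3) 6))) (mul (c 18372960) (mul (pow (v 1) 3) (mul (pow (v 2) 2) (pow (v 3) 4))))) (mul (c 32736690) (mul (pow (v 1) 3) (mul (pow (v 2) 3) (pow (v 3) 3))))) (mul (c 28219590) (mul (pow (v 1) 3) (pow (v 2) 6)))) (mul (c 67164174) (mul (pow (v 0) 1) (mul (pow (v 1) 2) (mul (pow (v 2) 1) (pow (v 3) 5)))))) (mul (c 144150273) (mul (pow (v 0) 1) (mul (pow (v 1) 2) (mul (pow (v 2) 3) (pow (v 3) 3)))))) (mul (c 263852073) (mul (pow (v 0) 1) (mul (pow (v 1) 2) (mul (pow (v 2) 5) (pow (v 3) 1)))))) (mul (c 2591676) (mul (pow (v 0) 2) (mul (pow (v 1) 1) (pow (v 3) 6))))) (mul (c 247748544) (mul (pow (v 0) 2) (mul (pow (v 1) 1) (mul (pow (v 2) 2) (pow (v 3) 4)))))) (mul (c 416992374) (mul (pow (v 0) 2) (mul (pow (v 1)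 1) (mul (pow (v 2) 4) (pow (v 3) 2)))))) (mul (c 172961082) (mul (pow (v 0) 2) (mul (pow (v 1) 1) (pow (v 2) 6))))) (mul (c 31945266) (mul (pow (v 0) 3) (mul (pow (v 2) 1) (pow (v 3) 5))))) (mul (c 155744289) (mul (pow (v 0) 3) (mul (pow (v 2) 3) (pow (v 3) 3))))) (mul (c 179725473) (mul (pow (v 0) 3) (mul (pow (v 2) 5) (pow (v 3) 1))))

def EmB20 : PE :=
  add (add (add (add (add (add (add (add (add (add (add (add (add (mul (c 12963780) (mul (pow (v 1) 3) (mul (pow (v 2) 1) (pow (v 3) 5)))) (mul (c 48440430) (mul (pow (v 1) 3) (mul (pow (v 2) 4) (pow (v 3) 2))))) (mul (c 19772910) (mul (pow (v 1) 3) (mul (pow (v 2) 5) (pow (v 3) 1))))) (mul (c 4044924) (mul (pow (v 0) 1) (mul (pow (v 1) 2) (pow (v 3) 6))))) (mul (c 166964328) (mul (pow (v 0) 1) (mul (pow (v 1) 2) (mul (pow (v 2) 2) (pow (v 3) 4)))))) (mul (c 169239051) (mul (pow (v 0) 1) (mul (pow (v 1) 2) (mul (pow (v 2)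 4) (pow (v 3) 2)))))) (mul (c 134918217) (mul (pow (v 0) 1) (mul (pow (v 1) 2) (pow (v 2) 6))))) (mul (c 86054724) (mul (pow (v 0) 2) (mul (pow (v 1) 1) (mul (pow (v 2) 1) (pow (v 3) 5)))))) (mul (c 331491852) (mul (pow (v 0) 2) (mul (pow (v 1) 1) (mul (pow (v 2) 3) (pow (v 3) 3)))))) (mul (c 422747100) (mul (pow (v 0) 2) (mul (pow (v 1) 1) (mul (pow (v 2) 5) (pow (v 3) 1)))))) (mul (c 394632) (mul (pow (v 0) 3) (pow (v 3) 6)))) (mul (c 99620280) (mul (pow (v 0) 3) (mul (pow (v 2) 2) (pow (v 3) 4))))) (mul (c 200851893) (mul (pow (v 0) 3) (mul (pow (v 2) 4) (pow (v 3) 2))))) (mul (c 66548223) (mul (pow (v 0) 3) (pow (v 2) 6)))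

theorem checkB20 : cover EpB20 EmB20 (c 0) (c 1) 4 7 6 true 0 1 0 1 1 = true := by
  decide +kernel

lemma certB20 {t T : ℝ} (h1 : -1 / 2 < t) (h2 : t ≤ 1) (h3 : -1 / 2 < T) (h4 : T ≤ 1) :
    0 ≤ B20 t T := by
  obtain ⟨P₀, U₀, g1, g2, g3⟩ := box_nonneg checkB20 (p := (t + 1 / 2) * (2 / 3))
    (q := (T + 1 / 2) * (2 / 3)) (by linarith) (by linarith) (by linarith) (by linarith)
  have e : EpB20.ev (renv ((t + 1 / 2) * (2 / 3)) P₀ ((T + 1 / 2) * (2 / 3)) U₀)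
      - EmB20.ev (renv ((t + 1 / 2) * (2 / 3)) P₀ ((T + 1 / 2) * (2 / 3)) U₀)
      = 1280000 * P₀^3 * U₀^6 * B20 t T := by
    simp only [EpB20, EmB20, PE.ev, renv, B20, a00, a01, a02, a10, a11, a12, a20, a21, a22, b0, b1, b2]
    push_cast
    ring
  have h5 : 0 < (1280000 : ℝ) * P₀^3 * U₀^6 := by positivity
  have h6 : 0 ≤ (1280000 : ℝ) * P₀^3 * U₀^6 * B20 t T := by linarith
  exact nonneg_of_mul_nonneg_right h6 h5

def EpB21 : PE :=
  add (add (add (add (add (add (add (add (add (add (add (mul (c 14783040) (mul (pow (v 1) 3) (pow (v 3) 5))) (mul (c 217322730) (mul (pow (v 1) 3) (mul (pow (v 2) 2) (pow (v 3) 3))))) (mul (c 165300750) (mul (pow (v 1) 3) (mul (pow (v 2) 4) (pow (v 3) 1))))) (mul (c 291179340) (mul (pow (v 0) 1) (mul (pow (v 1) 2) (mul (pow (v 2) 1) (pow (v 3) 4)))))) (mul (c 1307110365) (mul (pow (v 0) 1) (mul (pow (v 1) 2) (mul (pow (v 2) 3) (pow (v 3) 2))))))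 (mul (c 74342691) (mul (pow (v 0) 1) (mul (pow (v 1) 2) (pow (v 2) 5))))) (mul (c 20733408) (mul (pow (v 0) 2) (mul (pow (v 1) 1) (pow (v 3) 5))))) (mul (c 1208472696) (mul (pow (v 0) 2) (mul (pow (v 1) 1) (mul (pow (v 2) 2) (pow (v 3) 3)))))) (mul (c 759195180) (mul (pow (v 0) 2) (mul (pow (v 1) 1) (mul (pow (v 2) 4) (pow (v 3) 1)))))) (mul (c 129614256) (mul (pow (v 0) 3) (mul (pow (v 2) 1) (pow (v 3) 4))))) (mul (c 548956683) (mul (pow (v 0) 3) (mul (pow (v 2) 3) (pow (v 3) 2))))) (mul (c 36669429) (mul (pow (v 0) 3) (pow (v 2) 5)))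

def EmB21 : PE :=
  add (add (add (add (add (add (add (add (add (add (add (mul (c 62418600) (mul (pow (v 1) 3) (mul (pow (v 2) 1) (pow (v 3) 4)))) (mul (c 319438350) (mul (pow (v 1) 3) (mul (pow (v 2) 3) (pow (v 3) 2))))) (mul (c 15549570) (mul (pow (v 1) 3) (pow (v 2) 5)))) (mul (c 32359392) (mul (pow (v 0) 1) (mul (pow (v 1) 2) (pow (v 3) 5))))) (mul (c 986915259) (mul (pow (v 0) 1) (mul (pow (v 1) 2) (mul (pow (v 2) 2) (pow (v 3) 3)))))) (mul (c 653357745) (mul (pow (v 0) 1) (mul (pow (v 1) 2) (mul (pow (v 2) 4) (pow (v 3) 1)))))) (mul (c 358011252) (mul (pow (v 0) 2) (mul (pow (v 1) 1) (mul (pow (v 2) 1) (pow (v 3) 4)))))) (mul (c 1535084946) (mul (pow (v 0) 2) (mul (pow (v 1) 1) (mul (pow (v 2) 3) (pow (v 3) 2)))))) (mul (c 95305086) (mul (pow (v 0) 2) (mul (pow (v 1) 1) (pow (v 2) 5))))) (mul (c 3157056) (mul (pow (v 0) 3) (pow (v 3) 5)))) (mul (c 440118927) (mul (pow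 (v 0) 3) (mul (pow (v 2) 2) (pow (v 3) 3))))) (mul (c 271964385) (mul (pow (v 0) 3) (mul (pow (v 2) 4) (pow (v 3) 1))))

theorem checkB21 : cover EpB21 EmB21 (c 0) (c 1) 4 6 6 true 0 1 0 1 1 = true := by
  decide +kernel

lemma certB21 {t T : ℝ} (h1 : -1 / 2 < t) (h2 : t ≤ 1) (h3 : -1 / 2 < T) (h4 : T ≤ 1) :
    0 ≤ B21 t T := by
  obtain ⟨P₀, U₀, g1, g2, g3⟩ := box_nonneg checkB21 (p := (t + 1 / 2) * (2 / 3))
    (q := (T + 1 / 2) * (2 / 3)) (by linarith) (by linarith) (by linarith) (by linarith)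
  have e : EpB21.ev (renv ((t + 1 / 2) * (2 / 3)) P₀ ((T + 1 / 2) * (2 / 3)) U₀)
      - EmB21.ev (renv ((t + 1 / 2) * (2 / 3)) P₀ ((T + 1 / 2) * (2 / 3)) U₀)
      = 2560000 * P₀^3 * U₀^5 * B21 t T := by
    simp only [EpB21, EmB21, PE.ev, renv, B21, a00, a01, a02, a10, a11, a12, a20, a21, a22, b0, b1, b2]
    push_cast
    ring
  have h5 : 0 < (2560000 : ℝ) * P₀^3 * U₀^5 := by positivity
  have h6 : 0 ≤ (2560000 : ℝ) * P₀^3 * U₀^5 * B21 t T := by linarith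
  exact nonneg_of_mul_nonneg_right h6 h5

def EpB22 : PE :=
  add (add (add (add (add (add (add (mul (c 7391520) (mul (pow (v 1) 3) (pow (v 3) 3))) (mul (c 3890430) (mul (pow (v 1) 3) (pow (v 2) 3)))) (mul (c 22522644) (mul (pow (v 0) 1) (mul (pow (v 1) 2) (mul (pow (v 2) 1) (pow (v 3) 2)))))) (mul (c 3873501) (mul (pow (v 0) 1) (mul (pow (v 1) 2) (mul (pow (v 2) 2) (pow (v 3) 1)))))) (mul (c 10366704) (mul (pow (v 0) 2) (mul (pow (v 1) 1) (pow (v 3) 3))))) (mul (c 8682876) (mul (pow (v 0) 2) (mul (pow (v 1) 1) (pow (v 2) 3))))) (mul (c 1833192) (mul (pow (v 0) 3) (mul (pow (v 2) 1) (pow (v 3) 2))))) (mul (c 2102193) (mul (pow (v 0) 3) (mul (pow (v 2) 2) (pow (v 3) 1))))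

def EmB22 : PE :=
  add (add (add (add (add (add (add (mul (c 10563480) (mul (pow (v 1) 3) (mul (pow (v 2) 1) (pow (v 3) 2)))) (mul (c 718470) (mul (pow (v 1) 3) (mul (pow (v 2) 2) (pow (v 3) 1))))) (mul (c 16179696) (mul (pow (v 0) 1) (mul (pow (v 1) 2) (pow (v 3) 3))))) (mul (c 10216449) (mul (pow (v 0) 1) (mul (pow (v 1) 2) (pow (v 2) 3))))) (mul (c 13792356) (mul (pow (v 0) 2) (mul (pow (v 1) 1) (mul (pow (v 2) 1) (pow (v 3) 2)))))) (mul (c 5257224) (mul (pow (v 0) 2) (mul (pow (v 1) 1) (mul (pow (v 2) 2) (pow (v 3) 1)))))) (mul (c 1578528) (mul (pow (v 0) 3) (pow (v 3) 3)))) (mul (c 2356857) (mul (pow (v 0) 3) (pow (v 2) 3)))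

theorem checkB22 : cover EpB22 EmB22 (c 0) (c 1) 4 4 6 true 0 1 0 1 1 = true := by
  decide +kernel

lemma certB22 {t T : ℝ} (h1 : -1 / 2 < t) (h2 : t ≤ 1) (h3 : -1 / 2 < T) (h4 : T ≤ 1) :
    0 ≤ B22 t T := by
  obtain ⟨P₀, U₀, g1, g2, g3⟩ := box_nonneg checkB22 (p := (t + 1 / 2) * (2 / 3))
    (q := (T + 1 / 2) * (2 / 3)) (by linarith) (by linarith) (by linarith) (by linarith)
  have e : EpB22.ev (renv ((t + 1 / 2) * (2 / 3)) P₀ ((T + 1 / 2) * (2 / 3)) U₀)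
      - EmB22.ev (renv ((t + 1 / 2) * (2 / 3)) P₀ ((T + 1 / 2) * (2 / 3)) U₀)
      = 1280000 * P₀^3 * U₀^3 * B22 t T := by
    simp only [EpB22, EmB22, PE.ev, renv, B22, a00, a01, a02, a10, a11, a12, a20, a21, a22, b0, b1, b2]
    push_cast
    ring
  have h5 : 0 < (1280000 : ℝ) * P₀^3 * U₀^3 := by positivity
  have h6 : 0 ≤ (1280000 : ℝ) * P₀^3 * U₀^3 * B22 t T := by linarith
  exact nonneg_of_mul_nonneg_right h6 h5

end Vale.Agent.helper4.Q3Certs
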