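import Vale.Agent.helper4.Q4Atoms
import Vale.Agent.helper4.Q4Const

/-!
The list of all atoms.
-/

namespace Vale.Agent.helper4.Q4

def atomList : List AE := [
  ⟨1,1,0,T11_0D,T11_0⟩,
  ⟨1,1,1,T11_1D,T11_1⟩,
  ⟨1,1,2,T11_2D,T11_2⟩,
  ⟨1,1,3,T11_3D,T11_3⟩,
  ⟨1,1,4,T11_4D,T11_4⟩,
  ⟨1,1,5,T11_5D,T11_5⟩,
  ⟨1,1,6,T11_6D,T11_6⟩,
  ⟨1,1,7,T11_7D,T11_7⟩,
  ⟨1,1,8,T11_8D,T11_8⟩,
  ⟨1,1,9,T11_9D,T11_9⟩,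
  ⟨1,1,10,T11_10D,T11_10⟩,
  ⟨2,1,0,T21_0D,T21_0⟩,
  ⟨2,1,1,T21_1D,T21_1⟩,
  ⟨2,1,2,T21_2D,T21_2⟩,
  ⟨2,1,3,T21_3D,T21_3⟩,
  ⟨2,1,4,T21_4D,T21_4⟩,
  ⟨2,1,5,T21_5D,T21_5⟩,
  ⟨2,1,6,T21_6D,T21_6⟩,
  ⟨2,1,7,T21_7D,T21_7⟩,
  ⟨2,1,8,T21_8D,T21_8⟩,
  ⟨1,2,0,T12_0D,T12_0⟩,
  ⟨1,2,1,T12_1D,T12_1⟩,
  ⟨1,2,2,T12_2D,T12_2⟩,
  ⟨1,2,3,T12_3D,T12_3⟩,
  ⟨1,2,4,T12_4D,T12_4⟩,
  ⟨1,2,5,T12_5D,T12_5⟩,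
  ⟨1,2,6,T12_6D,T12_6⟩,
  ⟨1,2,7,T12_7D,T12_7⟩,
  ⟨1,2,8,T12_8D,T12_8⟩,
  ⟨2,2,0,T22_0D,T22_0⟩,
  ⟨2,2,1,T22_1D,T22_1⟩,
  ⟨2,2,2,T22_2D,T22_2⟩,
  ⟨2,2,3,T22_3D,T22_3⟩,
  ⟨2,2,4,T22_4D,T22_4⟩,
  ⟨2,2,5,T22_5D,T22_5⟩,
  ⟨2,2,6,T22_6D,T22_6⟩,
  ⟨2,2,7,T22_7D,T22_7⟩,
  ⟨2,2,8,T22_8D,T22_8⟩,
  ⟨3,1,0,T31_0D,T31_0⟩,
  ⟨3,1,1,T31_1D,T31_1⟩,
  ⟨3,1,2,T31_2D,T31_2⟩,
  ⟨3,1,3,T31_3D,T31_3⟩,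
  ⟨3,1,4,T31_4D,T31_4⟩,
  ⟨3,1,5,T31_5D,T31_5⟩,
  ⟨3,1,6,T31_6D,T31_6⟩,
  ⟨3,1,7,T31_7D,T31_7⟩,
  ⟨1,3,0,T13_0D,T13_0⟩,
  ⟨1,3,1,T13_1D,T13_1⟩,
  ⟨1,3,2,T13_2D,T13_2⟩,
  ⟨1,3,3,T13_3D,T13_3⟩,
  ⟨1,3,4,T13_4D,T13_4⟩,
  ⟨1,3,5,T13_5D,T13_5⟩,
  ⟨1,3,6,T13_6D,T13_6⟩,
  ⟨1,3,7,T13_7D,T13_7⟩,
  ⟨3,2,0,T32_0D,T32_0⟩,
  ⟨3,2,1,T32_1D,T32_1⟩,
  ⟨3,2,2,T32_2D,T32_2⟩,
  ⟨3,2,3,T32_3D,T32_3⟩,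
  ⟨3,2,4,T32_4D,T32_4⟩,
  ⟨3,2,5,T32_5D,T32_5⟩,
  ⟨3,2,6,T32_6D,T32_6⟩,
  ⟨3,2,7,T32_7D,T32_7⟩,
  ⟨2,3,0,T23_0D,T23_0⟩,
  ⟨2,3,1,T23_1D,T23_1⟩,
  ⟨2,3,2,T23_2D,T23_2⟩,
  ⟨2,3,3,T23_3D,T23_3⟩,
  ⟨2,3,4,T23_4D,T23_4⟩,
  ⟨2,3,5,T23_5D,T23_5⟩,
  ⟨2,3,6,T23_6D,T23_6⟩,
  ⟨2,3,7,T23_7D,T23_7⟩,
  ⟨3,3,0,T33_0D,T33_0⟩,
  ⟨3,3,1,T33_1D,T33_1⟩,
  ⟨3,3,2,T33_2D,T33_2⟩,
  ⟨3,3,3,T33_3D,T33_3⟩,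
  ⟨3,3,4,T33_4D,T33_4⟩,
  ⟨3,3,5,T33_5D,T33_5⟩,
  ⟨3,3,6,T33_6D,T33_6⟩,
  ⟨3,3,7,T33_7D,T33_7⟩,
  ⟨1,1,11,T11_11D,T11_11⟩,
  ⟨1,2,9,T12_9D,T12_9⟩,
  ⟨1,2,10,T12_10D,T12_10⟩,
  ⟨1,2,11,T12_11D,T12_11⟩,
  ⟨2,1,9,T21_9D,T21_9⟩,
  ⟨2,1,10,T21_10D,T21_10⟩,
  ⟨2,1,11,T21_11D,T21_11⟩,
  ⟨2,2,9,T22_9D,T22_9⟩,
  ⟨2,2,10,T22_10D,T22_10⟩,
  ⟨2,2,11,T22_11D,T22_11⟩,
  ⟨3,1,8,T31_8D,T31_8⟩,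
  ⟨3,1,9,T31_9D,T31_9⟩,
  ⟨3,1,10,T31_10D,T31_10⟩,
  ⟨3,1,11,T31_11D,T31_11⟩,
  ⟨1,3,8,T13_8D,T13_8⟩,
  ⟨1,3,9,T13_9D,T13_9⟩,
  ⟨1,3,10,T13_10D,T13_10⟩,
  ⟨1,3,11,T13_11D,T13_11⟩,
  ⟨3,2,8,T32_8D,T32_8⟩,
  ⟨3,2,9,T32_9D,T32_9⟩,
  ⟨3,2,10,T32_10D,T32_10⟩,
  ⟨3,2,11,T32_11D,T32_11⟩,
  ⟨2,3,8,T23_8D,T23_8⟩,
  ⟨2,3,9,T23_9D,T23_9⟩,
  ⟨2,3,10,T23_10D,T23_10⟩,
  ⟨2,3,11,T23_11D,T23_11⟩,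
  ⟨3,3,8,T33_8D,T33_8⟩,
  ⟨3,3,9,T33_9D,T33_9⟩,
  ⟨3,3,10,T33_10D,T33_10⟩,
  ⟨3,3,11,T33_11D,T33_11⟩
]

theorem atomList_spec {c a : Fin 4 → ℝ} (hc : ∑ l, c l = 0) (ha : ∑ l, a l = 0) : ∀ u ∈ atomList, u.Spec c a := by
  intro u hu
  simp only [atomList, List.mem_cons, List.not_mem_nil, or_false] at hu
  rcases hu with rfl | rfl | rfl | rfl | rfl | rfl | rfl | rfl | rfl | rfl | rfl | rfl | rfl | rfl | rfl | rfl | rfl | rfl | rfl | rfl | rfl | rfl | rfl | rfl | rfl | rfl | rfl | rfl | rfl | rfl | rfl | rfl | rfl | rfl | rfl | rfl | rfl | rfl | rfl | rfl | rfl | rfl | rfl | rfl | rfl | rfl | rfl | rfl | rfl | rfl | rfl | rfl | rfl | rfl | rfl | rfl | rfl | rfl | rfl | rfl | rfl | rfl | rfl | rfl | rfl | rfl | rfl | rfl | rfl | rfl | rfl | rfl | rfl | rfl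 | rfl | rfl | rfl | rfl | rfl | rfl | rfl | rfl | rfl | rfl | rfl | rfl | rfl | rfl | rfl | rfl | rfl | rfl | rfl | rfl | rfl | rfl | rfl | rfl | rfl | rfl | rfl | rfl | rfl | rfl | rfl | rfl | rfl | rfl
  · exact atom_eq T11_0_ok hc ha
  · exact atom_eq T11_1_ok hc ha
  · exact atom_eq T11_2_ok hc ha
  · exact atom_eq T11_3_ok hc ha
  · exact atom_eq T11_4_ok hc ha
  · exact atom_eq T11_5_ok hc ha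
  · exact atom_eq T11_6_ok hc ha
  · exact atom_eq T11_7_ok hc ha
  · exact atom_eq T11_8_ok hc ha
  · exact atom_eq T11_9_ok hc ha
  · exact atom_eq T11_10_ok hc ha
  · exact atom_eq T21_0_ok hc ha
  · exact atom_eq T21_1_ok hc ha
  · exact atom_eq T21_2_ok hc ha
  · exact atom_eq T21_3_ok hc ha
  · exact atom_eq T21_4_ok hc ha
  · exact atom_eq T21_5_ok hc ha
  · exact atom_eq T21_6_ok hc ha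
  · exact atom_eq T21_7_ok hc ha
  · exact atom_eq T21_8_ok hc ha
  · exact atom_eq T12_0_ok hc ha
  · exact atom_eq T12_1_ok hc ha
  · exact atom_eq T12_2_ok hc ha
  · exact atom_eq T12_3_ok hc ha
  · exact atom_eq T12_4_ok hc ha
  · exact atom_eq T12_5_ok hc ha
  · exact atom_eq T12_6_ok hc ha
  · exact atom_eq T12_7_ok hc ha
  · exact atom_eq T12_8_ok hc ha
  · exact atom_eq T22_0_ok hc ha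
  · exact atom_eq T22_1_ok hc ha
  · exact atom_eq T22_2_ok hc ha
  · exact atom_eq T22_3_ok hc ha
  · exact atom_eq T22_4_ok hc ha
  · exact atom_eq T22_5_ok hc ha
  · exact atom_eq T22_6_ok hc ha
  · exact atom_eq T22_7_ok hc ha
  · exact atom_eq T22_8_ok hc ha
  · exact atom_eq T31_0_ok hc ha
  · exact atom_eq T31_1_ok hc ha
  · exact atom_eq T31_2_ok hc ha
  · exact atom_eq T31_3_ok hc ha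
  · exact atom_eq T31_4_ok hc ha
  · exact atom_eq T31_5_ok hc ha
  · exact atom_eq T31_6_ok hc ha
  · exact atom_eq T31_7_ok hc ha
  · exact atom_eq T13_0_ok hc ha
  · exact atom_eq T13_1_ok hc ha
  · exact atom_eq T13_2_ok hc ha
  · exact atom_eq T13_3_ok hc ha
  · exact atom_eq T13_4_ok hc ha
  · exact atom_eq T13_5_ok hc ha
  · exact atom_eq T13_6_ok hc ha
  · exact atom_eq T13_7_ok hc ha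
  · exact atom_eq T32_0_ok hc ha
  · exact atom_eq T32_1_ok hc ha
  · exact atom_eq T32_2_ok hc ha
  · exact atom_eq T32_3_ok hc ha
  · exact atom_eq T32_4_ok hc ha
  · exact atom_eq T32_5_ok hc ha
  · exact atom_eq T32_6_ok hc ha
  · exact atom_eq T32_7_ok hc ha
  · exact atom_eq T23_0_ok hc ha
  · exact atom_eq T23_1_ok hc ha
  · exact atom_eq T23_2_ok hc ha
  · exact atom_eq T23_3_ok hc ha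
  · exact atom_eq T23_4_ok hc ha
  · exact atom_eq T23_5_ok hc ha
  · exact atom_eq T23_6_ok hc ha
  · exact atom_eq T23_7_ok hc ha
  · exact atom_eq T33_0_ok hc ha
  · exact atom_eq T33_1_ok hc ha
  · exact atom_eq T33_2_ok hc ha
  · exact atom_eq T33_3_ok hc ha
  · exact atom_eq T33_4_ok hc ha
  · exact atom_eq T33_5_ok hc ha
  · exact atom_eq T33_6_ok hc ha
  · exact atom_eq T33_7_ok hc ha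
  · exact atom_eq T11_11_ok hc ha
  · exact atom_eq T12_9_ok hc ha
  · exact atom_eq T12_10_ok hc ha
  · exact atom_eq T12_11_ok hc ha
  · exact atom_eq T21_9_ok hc ha
  · exact atom_eq T21_10_ok hc ha
  · exact atom_eq T21_11_ok hc ha
  · exact atom_eq T22_9_ok hc ha
  · exact atom_eq T22_10_ok hc ha
  · exact atom_eq T22_11_ok hc ha
  · exact atom_eq T31_8_ok hc ha
  · exact atom_eq T31_9_ok hc ha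
  · exact atom_eq T31_10_ok hc ha
  · exact atom_eq T31_11_ok hc ha
  · exact atom_eq T13_8_ok hc ha
  · exact atom_eq T13_9_ok hc ha
  · exact atom_eq T13_10_ok hc ha
  · exact atom_eq T13_11_ok hc ha
  · exact atom_eq T32_8_ok hc ha
  · exact atom_eq T32_9_ok hc ha
  · exact atom_eq T32_10_ok hc ha
  · exact atom_eq T32_11_ok hc ha
  · exact atom_eq T23_8_ok hc ha
  · exact atom_eq T23_9_ok hc ha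
  · exact atom_eq T23_10_ok hc ha
  · exact atom_eq T23_11_ok hc ha
  · exact atom_eq T33_8_ok hc ha
  · exact atom_eq T33_9_ok hc ha
  · exact atom_eq T33_10_ok hc ha
  · exact atom_eq T33_11_ok hc ha

end Vale.Agent.helper4.Q4
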