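import Vale.Agent.helper4.Q4Id

/-!
Tables of the averages over the orderings of four colours.
-/

namespace Vale.Agent.helper4.Q4

open Vale.Agent.helper4.Q4

def T11_0 : List TE := []
def T11_0D : ℕ := 1
theorem T11_0_ok : checkId T11_0D 1 1 0 2 T11_0 = true := by decide +kernel

def T11_1 : List TE := [⟨1,0,0,1,0,0,8,0⟩]
def T11_1D : ℕ := 1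
theorem T11_1_ok : checkId T11_1D 1 1 1 3 T11_1 = true := by decide +kernel

def T11_2 : List TE := [⟨0,1,0,0,1,0,16,0⟩]
def T11_2D : ℕ := 1
theorem T11_2_ok : checkId T11_2D 1 1 2 4 T11_2 = true := by decide +kernel

def T11_3 : List TE := [⟨0,0,1,0,0,1,80,0⟩, ⟨0,0,1,2,0,0,0,36⟩, ⟨2,0,0,0,0,1,0,36⟩, ⟨2,0,0,2,0,0,21,0⟩]
def T11_3D : ℕ := 1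
theorem T11_3_ok : checkId T11_3D 1 1 3 5 T11_3 = true := by decide +kernel

def T11_4 : List TE := [⟨1,1,0,1,1,0,160,0⟩]
def T11_4D : ℕ := 9
theorem T11_4_ok : checkId T11_4D 1 1 4 6 T11_4 = true := by decide +kernel

def T11_5 : List TE := [⟨0,2,0,0,2,0,1232,0⟩, ⟨0,2,0,1,0,1,0,1008⟩, ⟨0,2,0,3,0,0,348,0⟩, ⟨1,0,1,0,2,0,0,1008⟩, ⟨1,0,1,1,0,1,4752,0⟩, ⟨1,0,1,3,0,0,0,2052⟩, ⟨3,0,0,0,2,0,348,0⟩, ⟨3,0,0,1,0,1,0,2052⟩, ⟨3,0,0,3,0,0,1017,0⟩]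
def T11_5D : ℕ := 36
theorem T11_5_ok : checkId T11_5D 1 1 5 7 T11_5 = true := by decide +kernel

def T11_6 : List TE := [⟨0,1,1,0,1,1,2464,0⟩, ⟨0,1,1,2,1,0,0,1288⟩, ⟨2,1,0,0,1,1,0,1288⟩, ⟨2,1,0,2,1,0,826,0⟩]
def T11_6D : ℕ := 9
theorem T11_6_ok : checkId T11_6D 1 1 6 8 T11_6 = true := by decide +kernel

def T11_7 : List TE := [⟨0,0,2,0,0,2,1347840,0⟩, ⟨0,0,2,1,2,0,0,119808⟩, ⟨0,0,2,2,0,1,0,1047168⟩, ⟨0,0,2,4,0,0,198288,0⟩, ⟨1,2,0,0,0,2,0,119808⟩, ⟨1,2,0,1,2,0,93440,0⟩, ⟨1,2,0,2,0,1,25344,0⟩, ⟨1,2,0,4,0,0,5760,0⟩, ⟨2,0,1,0,0,2,0,1047168⟩, ⟨2,0,1,1,2,0,25344,0⟩, ⟨2,0,1,2,0,1,1021248,0⟩, ⟨2,0,1,4,0,0,0,241704⟩, ⟨4,0,0,0,0,2,198288,0⟩, ⟨4,0,0,1,2,0,5760,0⟩, ⟨4,0,0,2,0,1,0,241704⟩,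 ⟨4,0,0,4,0,0,70065,0⟩]
def T11_7D : ℕ := 1296
theorem T11_7_ok : checkId T11_7D 1 1 7 9 T11_7 = true := by decide +kernel

def T11_8 : List TE := [⟨0,3,0,0,3,0,7072,0⟩, ⟨0,3,0,1,1,1,0,11232⟩, ⟨0,3,0,3,1,0,4536,0⟩, ⟨1,1,1,0,3,0,0,11232⟩, ⟨1,1,1,1,1,1,64800,0⟩, ⟨1,1,1,3,1,0,0,31752⟩, ⟨3,1,0,0,3,0,4536,0⟩, ⟨3,1,0,1,1,1,0,31752⟩, ⟨3,1,0,3,1,0,17010,0⟩]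
def T11_8D : ℕ := 81
theorem T11_8_ok : checkId T11_8D 1 1 8 10 T11_8 = true := by decide +kernel

def T11_9 : List TE := [⟨0,2,1,0,2,1,4547840,0⟩, ⟨0,2,1,1,0,2,0,2154240⟩, ⟨0,2,1,2,2,0,0,2390080⟩, ⟨0,2,1,3,0,1,1710720,0⟩, ⟨0,2,1,5,0,0,0,316080⟩, ⟨1,0,2,0,2,1,0,2154240⟩, ⟨1,0,2,1,0,2,13789440,0⟩, ⟨1,0,2,2,2,0,0,2880⟩, ⟨1,0,2,3,0,1,0,10730880⟩, ⟨1,0,2,5,0,0,2028240,0⟩, ⟨2,2,0,0,2,1,0,2390080⟩, ⟨2,2,0,1,0,2,0,2880⟩, ⟨2,2,0,2,2,0,1795280,0⟩, ⟨2,2,0,3,0,1,0,375840⟩, ⟨2,2,0,5,0,0,122940,0⟩, ⟨3,0,1,0,2,1,1710720,0⟩, ⟨3,0,1,1,0,2,0,10730880⟩, ⟨3,0,1,2,2,0,0,375840⟩, ⟨3,0,1,3,0,1,9253440,0⟩, ⟨3,0,1,5,0,0,0,1953720⟩, ⟨5,0,0,0,2,1,0,316080⟩, ⟨5,0,0,1,0,2,2028240,0⟩, ⟨5,0,0,2,2,0,122940,0⟩,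 ⟨5,0,0,3,0,1,0,1953720⟩, ⟨5,0,0,5,0,0,467937,0⟩]
def T11_9D : ℕ := 5184
theorem T11_9_ok : checkId T11_9D 1 1 9 11 T11_9 = true := by decide +kernel

def T11_10 : List TE := [⟨0,1,2,0,1,2,30336768,0⟩, ⟨0,1,2,1,3,0,0,1926144⟩, ⟨0,1,2,2,1,1,0,26573184⟩, ⟨0,1,2,4,1,0,5887728,0⟩, ⟨1,3,0,0,1,2,0,1926144⟩, ⟨1,3,0,1,3,0,1455872,0⟩, ⟨1,3,0,2,1,1,0,430848⟩, ⟨1,3,0,4,1,0,481536,0⟩, ⟨2,1,1,0,1,2,0,26573184⟩, ⟨2,1,1,1,3,0,0,430848⟩, ⟨2,1,1,2,1,1,31534272,0⟩, ⟨2,1,1,4,1,0,0,9073944⟩, ⟨4,1,0,0,1,2,5887728,0⟩, ⟨4,1,0,1,3,0,481536,0⟩, ⟨4,1,0,2,1,1,0,9073944⟩, ⟨4,1,0,4,1,0,3112263,0⟩]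
def T11_10D : ℕ := 5832
theorem T11_10_ok : checkId T11_10D 1 1 10 12 T11_10 = true := by decide +kernel

def T21_0 : List TE := []
def T21_0D : ℕ := 1
theorem T21_0_ok : checkId T21_0D 2 1 0 3 T21_0 = true := by decide +kernel

def T21_1 : List TE := [⟨0,1,0,1,0,0,8,0⟩]
def T21_1D : ℕ := 1
theorem T21_1_ok : checkId T21_1D 2 1 1 4 T21_1 = true := by decide +kernel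

def T21_2 : List TE := [⟨0,0,1,0,1,0,16,0⟩, ⟨2,0,0,0,1,0,0,4⟩]
def T21_2D : ℕ := 1
theorem T21_2_ok : checkId T21_2D 2 1 2 5 T21_2 = true := by decide +kernel

def T21_3 : List TE := [⟨1,1,0,0,0,1,32,0⟩]
def T21_3D : ℕ := 3
theorem T21_3_ok : checkId T21_3D 2 1 3 6 T21_3 = true := by decide +kernel

def T21_4 : List TE := [⟨0,2,0,1,1,0,64,0⟩, ⟨1,0,1,1,1,0,96,0⟩, ⟨3,0,0,1,1,0,0,24⟩]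
def T21_4D : ℕ := 9
theorem T21_4_ok : checkId T21_4D 2 1 4 7 T21_4 = true := by decide +kernel

def T21_5 : List TE := [⟨0,1,1,0,2,0,224,0⟩, ⟨0,1,1,1,0,1,144,0⟩, ⟨0,1,1,3,0,0,0,84⟩, ⟨2,1,0,0,2,0,0,88⟩, ⟨2,1,0,1,0,1,12,0⟩, ⟨2,1,0,3,0,0,33,0⟩]
def T21_5D : ℕ := 9
theorem T21_5_ok : checkId T21_5D 2 1 5 8 T21_5 = true := by decide +kernel

def T21_6 : List TE := [⟨0,0,2,0,1,1,6336,0⟩, ⟨0,0,2,2,1,0,0,3312⟩, ⟨1,2,0,0,1,1,512,0⟩, ⟨1,2,0,2,1,0,256,0⟩, ⟨2,0,1,0,1,1,0,4896⟩, ⟨2,0,1,2,1,0,2952,0⟩, ⟨4,0,0,0,1,1,828,0⟩, ⟨4,0,0,2,1,0,0,531⟩]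
def T21_6D : ℕ := 54
theorem T21_6_ok : checkId T21_6D 2 1 6 9 T21_6 = true := by decide +kernel

def T21_7 : List TE := [⟨0,3,0,0,0,2,0,3744⟩, ⟨0,3,0,1,2,0,2920,0⟩, ⟨0,3,0,2,0,1,792,0⟩, ⟨0,3,0,4,0,0,180,0⟩, ⟨1,1,1,0,0,2,21600,0⟩, ⟨1,1,1,1,2,0,1608,0⟩, ⟨1,1,1,2,0,1,0,10152⟩, ⟨1,1,1,4,0,0,0,108⟩, ⟨3,1,0,0,0,2,0,10584⟩, ⟨3,1,0,1,2,0,0,546⟩, ⟨3,1,0,2,0,1,6426,0⟩, ⟨3,1,0,4,0,0,0,189⟩]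
def T21_7D : ℕ := 162
theorem T21_7_ok : checkId T21_7D 2 1 7 10 T21_7 = true := by decide +kernel

def T21_8 : List TE := [⟨0,2,1,0,3,0,9152,0⟩, ⟨0,2,1,1,1,1,6336,0⟩, ⟨0,2,1,3,1,0,0,5040⟩, ⟨1,0,2,0,3,0,0,7488⟩, ⟨1,0,2,1,1,1,43200,0⟩, ⟨1,0,2,3,1,0,0,21168⟩, ⟨2,2,0,0,3,0,0,3312⟩, ⟨2,2,0,1,1,1,0,3120⟩, ⟨2,2,0,3,1,0,3948,0⟩, ⟨3,0,1,0,3,0,4896,0⟩, ⟨3,0,1,1,1,1,0,31968⟩, ⟨3,0,1,3,1,0,16632,0⟩, ⟨5,0,0,0,3,0,0,756⟩, ⟨5,0,0,1,1,1,5292,0⟩, ⟨5,0,0,3,1,0,0,2835⟩]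
def T21_8D : ℕ := 162
theorem T21_8_ok : checkId T21_8D 2 1 8 11 T21_8 = true := by decide +kernel

def T12_0 : List TE := []
def T12_0D : ℕ := 1
theorem T12_0_ok : checkId T12_0D 1 2 0 3 T12_0 = true := by decide +kernel

def T12_1 : List TE := [⟨1,0,0,0,1,0,8,0⟩]
def T12_1D : ℕ := 1
theorem T12_1_ok : checkId T12_1D 1 2 1 4 T12_1 = true := by decide +kernel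

def T12_2 : List TE := [⟨0,1,0,0,0,1,16,0⟩, ⟨0,1,0,2,0,0,0,4⟩]
def T12_2D : ℕ := 1
theorem T12_2_ok : checkId T12_2D 1 2 2 5 T12_2 = true := by decide +kernel

def T12_3 : List TE := [⟨0,0,1,1,1,0,32,0⟩]
def T12_3D : ℕ := 3
theorem T12_3_ok : checkId T12_3D 1 2 3 6 T12_3 = true := by decide +kernel

def T12_4 : List TE := [⟨1,1,0,0,2,0,64,0⟩, ⟨1,1,0,1,0,1,96,0⟩, ⟨1,1,0,3,0,0,0,24⟩]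
def T12_4D : ℕ := 9
theorem T12_4_ok : checkId T12_4D 1 2 4 7 T12_4 = true := by decide +kernel

def T12_5 : List TE := [⟨0,2,0,0,1,1,224,0⟩, ⟨0,2,0,2,1,0,0,88⟩, ⟨1,0,1,0,1,1,144,0⟩, ⟨1,0,1,2,1,0,12,0⟩, ⟨3,0,0,0,1,1,0,84⟩, ⟨3,0,0,2,1,0,33,0⟩]
def T12_5D : ℕ := 9
theorem T12_5_ok : checkId T12_5D 1 2 5 8 T12_5 = true := by decide +kernel

def T12_6 : List TE := [⟨0,1,1,0,0,2,6336,0⟩, ⟨0,1,1,1,2,0,512,0⟩, ⟨0,1,1,2,0,1,0,4896⟩, ⟨0,1,1,4,0,0,828,0⟩, ⟨2,1,0,0,0,2,0,3312⟩, ⟨2,1,0,1,2,0,256,0⟩, ⟨2,1,0,2,0,1,2952,0⟩, ⟨2,1,0,4,0,0,0,531⟩]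
def T12_6D : ℕ := 54
theorem T12_6_ok : checkId T12_6D 1 2 6 9 T12_6 = true := by decide +kernel

def T12_7 : List TE := [⟨0,0,2,0,3,0,0,3744⟩, ⟨0,0,2,1,1,1,21600,0⟩, ⟨0,0,2,3,1,0,0,10584⟩, ⟨1,2,0,0,3,0,2920,0⟩, ⟨1,2,0,1,1,1,1608,0⟩, ⟨1,2,0,3,1,0,0,546⟩, ⟨2,0,1,0,3,0,792,0⟩, ⟨2,0,1,1,1,1,0,10152⟩, ⟨2,0,1,3,1,0,6426,0⟩, ⟨4,0,0,0,3,0,180,0⟩, ⟨4,0,0,1,1,1,0,108⟩, ⟨4,0,0,3,1,0,0,189⟩]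
def T12_7D : ℕ := 162
theorem T12_7_ok : checkId T12_7D 1 2 7 10 T12_7 = true := by decide +kernel

def T12_8 : List TE := [⟨0,3,0,0,2,1,9152,0⟩, ⟨0,3,0,1,0,2,0,7488⟩, ⟨0,3,0,2,2,0,0,3312⟩, ⟨0,3,0,3,0,1,4896,0⟩, ⟨0,3,0,5,0,0,0,756⟩, ⟨1,1,1,0,2,1,6336,0⟩, ⟨1,1,1,1,0,2,43200,0⟩, ⟨1,1,1,2,2,0,0,3120⟩, ⟨1,1,1,3,0,1,0,31968⟩, ⟨1,1,1,5,0,0,5292,0⟩, ⟨3,1,0,0,2,1,0,5040⟩, ⟨3,1,0,1,0,2,0,21168⟩, ⟨3,1,0,2,2,0,3948,0⟩, ⟨3,1,0,3,0,1,16632,0⟩, ⟨3,1,0,5,0,0,0,2835⟩]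
def T12_8D : ℕ := 162
theorem T12_8_ok : checkId T12_8D 1 2 8 11 T12_8 = true := by decide +kernel

def T22_0 : List TE := [⟨1,0,0,1,0,0,6,0⟩]
def T22_0D : ℕ := 1
theorem T22_0_ok : checkId T22_0D 2 2 0 3 T22_0 = true := by decide +kernel

def T22_1 : List TE := [⟨0,1,0,0,1,0,8,0⟩]
def T22_1D : ℕ := 1
theorem T22_1_ok : checkId T22_1D 2 2 1 4 T22_1 = true := by decide +kernel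

def T22_2 : List TE := [⟨0,0,1,0,0,1,16,0⟩, ⟨0,0,1,2,0,0,0,4⟩, ⟨2,0,0,0,0,1,0,4⟩, ⟨2,0,0,2,0,0,3,0⟩]
def T22_2D : ℕ := 1
theorem T22_2_ok : checkId T22_2D 2 2 2 5 T22_2 = true := by decide +kernel

def T22_3 : List TE := [⟨1,1,0,1,1,0,92,0⟩]
def T22_3D : ℕ := 9
theorem T22_3_ok : checkId T22_3D 2 2 3 6 T22_3 = true := by decide +kernel

def T22_4 : List TE := [⟨0,2,0,0,2,0,448,0⟩, ⟨0,2,0,1,0,1,0,192⟩, ⟨0,2,0,3,0,0,48,0⟩, ⟨1,0,1,0,2,0,0,192⟩, ⟨1,0,1,1,0,1,1296,0⟩, ⟨1,0,1,3,0,0,0,468⟩, ⟨3,0,0,0,2,0,48,0⟩, ⟨3,0,0,1,0,1,0,468⟩, ⟨3,0,0,3,0,0,225,0⟩]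
def T22_4D : ℕ := 36
theorem T22_4_ok : checkId T22_4D 2 2 4 7 T22_4 = true := by decide +kernel

def T22_5 : List TE := [⟨0,1,1,0,1,1,752,0⟩, ⟨0,1,1,2,1,0,0,364⟩, ⟨2,1,0,0,1,1,0,364⟩, ⟨2,1,0,2,1,0,263,0⟩]
def T22_5D : ℕ := 9
theorem T22_5_ok : checkId T22_5D 2 2 5 8 T22_5 = true := by decide +kernel

def T22_6 : List TE := [⟨0,0,2,0,0,2,331776,0⟩, ⟨0,0,2,1,2,0,0,39168⟩, ⟨0,0,2,2,0,1,0,228096⟩, ⟨0,0,2,4,0,0,36288,0⟩, ⟨1,2,0,0,0,2,0,39168⟩, ⟨1,2,0,1,2,0,40912,0⟩, ⟨1,2,0,2,0,1,7056,0⟩, ⟨1,2,0,4,0,0,1548,0⟩, ⟨2,0,1,0,0,2,0,228096⟩, ⟨2,0,1,1,2,0,7056,0⟩, ⟨2,0,1,2,0,1,219024,0⟩, ⟨2,0,1,4,0,0,0,48276⟩, ⟨4,0,0,0,0,2,36288,0⟩, ⟨4,0,0,1,2,0,1548,0⟩, ⟨4,0,0,2,0,1,0,48276⟩, ⟨4,0,0,4,0,0,14337,0⟩]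
def T22_6D : ℕ := 1296
theorem T22_6_ok : checkId T22_6D 2 2 6 9 T22_6 = true := by decide +kernel

def T22_7 : List TE := [⟨0,3,0,0,3,0,9776,0⟩, ⟨0,3,0,1,1,1,0,12048⟩, ⟨0,3,0,3,1,0,4452,0⟩, ⟨1,1,1,0,3,0,0,12048⟩, ⟨1,1,1,1,1,1,84240,0⟩, ⟨1,1,1,3,1,0,0,40068⟩, ⟨3,1,0,0,3,0,4452,0⟩, ⟨3,1,0,1,1,1,0,40068⟩, ⟨3,1,0,3,1,0,22113,0⟩]
def T22_7D : ℕ := 324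
theorem T22_7_ok : checkId T22_7D 2 2 7 10 T22_7 = true := by decide +kernel

def T22_8 : List TE := [⟨0,2,1,0,2,1,1441792,0⟩, ⟨0,2,1,1,0,2,0,405504⟩, ⟨0,2,1,2,2,0,0,743424⟩, ⟨0,2,1,3,0,1,294912,0⟩, ⟨0,2,1,5,0,0,0,48384⟩, ⟨1,0,2,0,2,1,0,405504⟩, ⟨1,0,2,1,0,2,4002048,0⟩, ⟨1,0,2,2,2,0,0,221184⟩, ⟨1,0,2,3,0,1,0,2871936⟩, ⟨1,0,2,5,0,0,488592,0⟩, ⟨2,2,0,0,2,1,0,743424⟩, ⟨2,2,0,1,0,2,0,221184⟩, ⟨2,2,0,2,2,0,635136,0⟩, ⟨2,2,0,3,0,1,34560,0⟩, ⟨2,2,0,5,0,0,9792,0⟩, ⟨3,0,1,0,2,1,294912,0⟩, ⟨3,0,1,1,0,2,0,2871936⟩, ⟨3,0,1,2,2,0,34560,0⟩, ⟨3,0,1,3,0,1,2348352,0⟩, ⟨3,0,1,5,0,0,0,459432⟩, ⟨5,0,0,0,2,1,0,48384⟩, ⟨5,0,0,1,0,2,488592,0⟩, ⟨5,0,0,2,2,0,9792,0⟩, ⟨5,0,0,3,0,1,0,459432⟩, ⟨5,0,0,5,0,0,106353,0⟩]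
def T22_8D : ℕ := 5184
theorem T22_8_ok : checkId T22_8D 2 2 8 11 T22_8 = true := by decide +kernel

def T31_0 : List TE := []
def T31_0D : ℕ := 1
theorem T31_0_ok : checkId T31_0D 3 1 0 4 T31_0 = true := by decide +kernel

def T31_1 : List TE := [⟨0,0,1,1,0,0,8,0⟩]
def T31_1D : ℕ := 1
theorem T31_1_ok : checkId T31_1D 3 1 1 5 T31_1 = true := by decide +kernel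

def T31_2 : List TE := [⟨1,1,0,0,1,0,28,0⟩]
def T31_2D : ℕ := 3
theorem T31_2_ok : checkId T31_2D 3 1 2 6 T31_2 = true := by decide +kernel

def T31_3 : List TE := [⟨0,2,0,0,0,1,40,0⟩, ⟨0,2,0,2,0,0,0,18⟩, ⟨1,0,1,0,0,1,144,0⟩, ⟨1,0,1,2,0,0,0,36⟩, ⟨3,0,0,0,0,1,0,60⟩, ⟨3,0,0,2,0,0,27,0⟩]
def T31_3D : ℕ := 6
theorem T31_3_ok : checkId T31_3D 3 1 3 7 T31_3 = true := by decide +kernel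

def T31_4 : List TE := [⟨0,1,1,1,1,0,64,0⟩, ⟨2,1,0,1,1,0,56,0⟩]
def T31_4D : ℕ := 9
theorem T31_4_ok : checkId T31_4D 3 1 4 8 T31_4 = true := by decide +kernel

def T31_5 : List TE := [⟨0,0,2,0,2,0,0,1008⟩, ⟨0,0,2,1,0,1,4752,0⟩, ⟨0,0,2,3,0,0,0,2052⟩, ⟨1,2,0,0,2,0,1988,0⟩, ⟨1,2,0,1,0,1,0,972⟩, ⟨1,2,0,3,0,0,267,0⟩, ⟨2,0,1,0,2,0,0,468⟩, ⟨2,0,1,1,0,1,972,0⟩, ⟨2,0,1,3,0,0,0,27⟩, ⟨4,0,0,0,2,0,252,0⟩, ⟨4,0,0,1,0,1,0,1188⟩, ⟨4,0,0,3,0,0,513,0⟩]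
def T31_5D : ℕ := 108
theorem T31_5_ok : checkId T31_5D 3 1 5 9 T31_5 = true := by decide +kernel

def T31_6 : List TE := [⟨0,3,0,0,1,1,704,0⟩, ⟨0,3,0,2,1,0,0,368⟩, ⟨1,1,1,0,1,1,5616,0⟩, ⟨1,1,1,2,1,0,0,2412⟩, ⟨3,1,0,0,1,1,0,2988⟩, ⟨3,1,0,2,1,0,1791,0⟩]
def T31_6D : ℕ := 54
theorem T31_6_ok : checkId T31_6D 3 1 6 10 T31_6 = true := by decide +kernel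

def T31_7 : List TE := [⟨0,2,1,0,0,2,164736,0⟩, ⟨0,2,1,1,2,0,26752,0⟩, ⟨0,2,1,2,0,1,0,161856⟩, ⟨0,2,1,4,0,0,35928,0⟩, ⟨1,0,2,0,0,2,974592,0⟩, ⟨1,0,2,1,2,0,0,154368⟩, ⟨1,0,2,2,0,1,0,549504⟩, ⟨1,0,2,4,0,0,55728,0⟩, ⟨2,2,0,0,0,2,0,192096⟩, ⟨2,2,0,1,2,0,83872,0⟩, ⟨2,2,0,2,0,1,107280,0⟩, ⟨2,2,0,4,0,0,0,15102⟩, ⟨3,0,1,0,0,2,0,725760⟩, ⟨3,0,1,1,2,0,60480,0⟩, ⟨3,0,1,2,0,1,544320,0⟩, ⟨3,0,1,4,0,0,0,90720⟩, ⟨5,0,0,0,0,2,130896,0⟩, ⟨5,0,0,1,2,0,0,3168⟩, ⟨5,0,0,2,0,1,0,127656⟩, ⟨5,0,0,4,0,0,30213,0⟩]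
def T31_7D : ℕ := 2592
theorem T31_7_ok : checkId T31_7D 3 1 7 11 T31_7 = true := by decide +kernel

def T13_0 : List TE := []
def T13_0D : ℕ := 1
theorem T13_0_ok : checkId T13_0D 1 3 0 4 T13_0 = true := by decide +kernel

def T13_1 : List TE := [⟨1,0,0,0,0,1,8,0⟩]
def T13_1D : ℕ := 1
theorem T13_1_ok : checkId T13_1D 1 3 1 5 T13_1 = true := by decide +kernel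

def T13_2 : List TE := [⟨0,1,0,1,1,0,28,0⟩]
def T13_2D : ℕ := 3
theorem T13_2_ok : checkId T13_2D 1 3 2 6 T13_2 = true := by decide +kernel

def T13_3 : List TE := [⟨0,0,1,0,2,0,40,0⟩, ⟨0,0,1,1,0,1,144,0⟩, ⟨0,0,1,3,0,0,0,60⟩, ⟨2,0,0,0,2,0,0,18⟩, ⟨2,0,0,1,0,1,0,36⟩, ⟨2,0,0,3,0,0,27,0⟩]
def T13_3D : ℕ := 6
theorem T13_3_ok : checkId T13_3D 1 3 3 7 T13_3 = true := by decide +kernel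

def T13_4 : List TE := [⟨1,1,0,0,1,1,64,0⟩, ⟨1,1,0,2,1,0,56,0⟩]
def T13_4D : ℕ := 9
theorem T13_4_ok : checkId T13_4D 1 3 4 8 T13_4 = true := by decide +kernel

def T13_5 : List TE := [⟨0,2,0,0,0,2,0,1008⟩, ⟨0,2,0,1,2,0,1988,0⟩, ⟨0,2,0,2,0,1,0,468⟩, ⟨0,2,0,4,0,0,252,0⟩, ⟨1,0,1,0,0,2,4752,0⟩, ⟨1,0,1,1,2,0,0,972⟩, ⟨1,0,1,2,0,1,972,0⟩, ⟨1,0,1,4,0,0,0,1188⟩, ⟨3,0,0,0,0,2,0,2052⟩, ⟨3,0,0,1,2,0,267,0⟩, ⟨3,0,0,2,0,1,0,27⟩, ⟨3,0,0,4,0,0,513,0⟩]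
def T13_5D : ℕ := 108
theorem T13_5_ok : checkId T13_5D 1 3 5 9 T13_5 = true := by decide +kernel

def T13_6 : List TE := [⟨0,1,1,0,3,0,704,0⟩, ⟨0,1,1,1,1,1,5616,0⟩, ⟨0,1,1,3,1,0,0,2988⟩, ⟨2,1,0,0,3,0,0,368⟩, ⟨2,1,0,1,1,1,0,2412⟩, ⟨2,1,0,3,1,0,1791,0⟩]
def T13_6D : ℕ := 54
theorem T13_6_ok : checkId T13_6D 1 3 6 10 T13_6 = true := by decide +kernel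

def T13_7 : List TE := [⟨0,0,2,0,2,1,164736,0⟩, ⟨0,0,2,1,0,2,974592,0⟩, ⟨0,0,2,2,2,0,0,192096⟩, ⟨0,0,2,3,0,1,0,725760⟩, ⟨0,0,2,5,0,0,130896,0⟩, ⟨1,2,0,0,2,1,26752,0⟩, ⟨1,2,0,1,0,2,0,154368⟩, ⟨1,2,0,2,2,0,83872,0⟩, ⟨1,2,0,3,0,1,60480,0⟩, ⟨1,2,0,5,0,0,0,3168⟩, ⟨2,0,1,0,2,1,0,161856⟩, ⟨2,0,1,1,0,2,0,549504⟩, ⟨2,0,1,2,2,0,107280,0⟩, ⟨2,0,1,3,0,1,544320,0⟩, ⟨2,0,1,5,0,0,0,127656⟩, ⟨4,0,0,0,2,1,35928,0⟩, ⟨4,0,0,1,0,2,55728,0⟩, ⟨4,0,0,2,2,0,0,15102⟩, ⟨4,0,0,3,0,1,0,90720⟩, ⟨4,0,0,5,0,0,30213,0⟩]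
def T13_7D : ℕ := 2592
theorem T13_7_ok : checkId T13_7D 1 3 7 11 T13_7 = true := by decide +kernel

def T32_0 : List TE := [⟨0,1,0,1,0,0,6,0⟩]
def T32_0D : ℕ := 1
theorem T32_0_ok : checkId T32_0D 3 2 0 4 T32_0 = true := by decide +kernel

def T32_1 : List TE := [⟨0,0,1,0,1,0,8,0⟩]
def T32_1D : ℕ := 1
theorem T32_1_ok : checkId T32_1D 3 2 1 5 T32_1 = true := by decide +kernel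

def T32_2 : List TE := [⟨1,1,0,0,0,1,28,0⟩, ⟨1,1,0,2,0,0,0,1⟩]
def T32_2D : ℕ := 3
theorem T32_2_ok : checkId T32_2D 3 2 2 6 T32_2 = true := by decide +kernel

def T32_3 : List TE := [⟨0,2,0,1,1,0,44,0⟩, ⟨1,0,1,1,1,0,72,0⟩, ⟨3,0,0,1,1,0,0,12⟩]
def T32_3D : ℕ := 9
theorem T32_3_ok : checkId T32_3D 3 2 3 7 T32_3 = true := by decide +kernel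

def T32_4 : List TE := [⟨0,1,1,0,2,0,448,0⟩, ⟨0,1,1,1,0,1,528,0⟩, ⟨0,1,1,3,0,0,0,276⟩, ⟨2,1,0,0,2,0,0,112⟩, ⟨2,1,0,1,0,1,12,0⟩, ⟨2,1,0,3,0,0,105,0⟩]
def T32_4D : ℕ := 36
theorem T32_4_ok : checkId T32_4D 3 2 4 8 T32_4 = true := by decide +kernel

def T32_5 : List TE := [⟨0,0,2,0,1,1,1584,0⟩, ⟨0,0,2,2,1,0,0,828⟩, ⟨1,2,0,0,1,1,296,0⟩, ⟨1,2,0,2,1,0,38,0⟩, ⟨2,0,1,0,1,1,0,1116⟩, ⟨2,0,1,2,1,0,747,0⟩, ⟨4,0,0,0,1,1,144,0⟩, ⟨4,0,0,2,1,0,0,108⟩]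
def T32_5D : ℕ := 27
theorem T32_5_ok : checkId T32_5D 3 2 5 9 T32_5 = true := by decide +kernel

def T32_6 : List TE := [⟨0,3,0,0,0,2,0,14976⟩, ⟨0,3,0,1,2,0,15376,0⟩, ⟨0,3,0,2,0,1,144,0⟩, ⟨0,3,0,4,0,0,1764,0⟩, ⟨1,1,1,0,0,2,124416,0⟩, ⟨1,1,1,1,2,0,6480,0⟩, ⟨1,1,1,2,0,1,0,55728⟩, ⟨1,1,1,4,0,0,0,1620⟩, ⟨3,1,0,0,0,2,0,62208⟩, ⟨3,1,0,1,2,0,396,0⟩, ⟨3,1,0,2,0,1,37260,0⟩, ⟨3,1,0,4,0,0,0,891⟩]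
def T32_6D : ℕ := 1296
theorem T32_6_ok : checkId T32_6D 3 2 6 10 T32_6 = true := by decide +kernel

def T32_7 : List TE := [⟨0,2,1,0,3,0,18304,0⟩, ⟨0,2,1,1,1,1,27456,0⟩, ⟨0,2,1,3,1,0,0,17808⟩, ⟨1,0,2,0,3,0,0,18720⟩, ⟨1,0,2,1,1,1,108000,0⟩, ⟨1,0,2,3,1,0,0,52920⟩, ⟨2,2,0,0,3,0,0,3704⟩, ⟨2,2,0,1,1,1,0,12360⟩, ⟨2,2,0,3,1,0,12306,0⟩, ⟨3,0,1,0,3,0,10584,0⟩, ⟨3,0,1,1,1,1,0,74088⟩, ⟨3,0,1,3,1,0,39690,0⟩, ⟨5,0,0,0,3,0,0,1332⟩, ⟨5,0,0,1,1,1,10476,0⟩, ⟨5,0,0,3,1,0,0,5859⟩]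
def T32_7D : ℕ := 648
theorem T32_7_ok : checkId T32_7D 3 2 7 11 T32_7 = true := by decide +kernel

def T23_0 : List TE := [⟨1,0,0,0,1,0,6,0⟩]
def T23_0D : ℕ := 1
theorem T23_0_ok : checkId T23_0D 2 3 0 4 T23_0 = true := by decide +kernel

def T23_1 : List TE := [⟨0,1,0,0,0,1,8,0⟩]
def T23_1D : ℕ := 1
theorem T23_1_ok : checkId T23_1D 2 3 1 5 T23_1 = true := by decide +kernel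

def T23_2 : List TE := [⟨0,0,1,1,1,0,28,0⟩, ⟨2,0,0,1,1,0,0,1⟩]
def T23_2D : ℕ := 3
theorem T23_2_ok : checkId T23_2D 2 3 2 6 T23_2 = true := by decide +kernel

def T23_3 : List TE := [⟨1,1,0,0,2,0,44,0⟩, ⟨1,1,0,1,0,1,72,0⟩, ⟨1,1,0,3,0,0,0,12⟩]
def T23_3D : ℕ := 9
theorem T23_3_ok : checkId T23_3D 2 3 3 7 T23_3 = true := by decide +kernel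

def T23_4 : List TE := [⟨0,2,0,0,1,1,448,0⟩, ⟨0,2,0,2,1,0,0,112⟩, ⟨1,0,1,0,1,1,528,0⟩, ⟨1,0,1,2,1,0,12,0⟩, ⟨3,0,0,0,1,1,0,276⟩, ⟨3,0,0,2,1,0,105,0⟩]
def T23_4D : ℕ := 36
theorem T23_4_ok : checkId T23_4D 2 3 4 8 T23_4 = true := by decide +kernel

def T23_5 : List TE := [⟨0,1,1,0,0,2,1584,0⟩, ⟨0,1,1,1,2,0,296,0⟩, ⟨0,1,1,2,0,1,0,1116⟩, ⟨0,1,1,4,0,0,144,0⟩, ⟨2,1,0,0,0,2,0,828⟩, ⟨2,1,0,1,2,0,38,0⟩, ⟨2,1,0,2,0,1,747,0⟩, ⟨2,1,0,4,0,0,0,108⟩]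
def T23_5D : ℕ := 27
theorem T23_5_ok : checkId T23_5D 2 3 5 9 T23_5 = true := by decide +kernel

def T23_6 : List TE := [⟨0,0,2,0,3,0,0,14976⟩, ⟨0,0,2,1,1,1,124416,0⟩, ⟨0,0,2,3,1,0,0,62208⟩, ⟨1,2,0,0,3,0,15376,0⟩, ⟨1,2,0,1,1,1,6480,0⟩, ⟨1,2,0,3,1,0,396,0⟩, ⟨2,0,1,0,3,0,144,0⟩, ⟨2,0,1,1,1,1,0,55728⟩, ⟨2,0,1,3,1,0,37260,0⟩, ⟨4,0,0,0,3,0,1764,0⟩, ⟨4,0,0,1,1,1,0,1620⟩, ⟨4,0,0,3,1,0,0,891⟩]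
def T23_6D : ℕ := 1296
theorem T23_6_ok : checkId T23_6D 2 3 6 10 T23_6 = true := by decide +kernel

def T23_7 : List TE := [⟨0,3,0,0,2,1,18304,0⟩, ⟨0,3,0,1,0,2,0,18720⟩, ⟨0,3,0,2,2,0,0,3704⟩, ⟨0,3,0,3,0,1,10584,0⟩, ⟨0,3,0,5,0,0,0,1332⟩, ⟨1,1,1,0,2,1,27456,0⟩, ⟨1,1,1,1,0,2,108000,0⟩, ⟨1,1,1,2,2,0,0,12360⟩, ⟨1,1,1,3,0,1,0,74088⟩, ⟨1,1,1,5,0,0,10476,0⟩, ⟨3,1,0,0,2,1,0,17808⟩, ⟨3,1,0,1,0,2,0,52920⟩, ⟨3,1,0,2,2,0,12306,0⟩, ⟨3,1,0,3,0,1,39690,0⟩, ⟨3,1,0,5,0,0,0,5859⟩]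
def T23_7D : ℕ := 648
theorem T23_7_ok : checkId T23_7D 2 3 7 11 T23_7 = true := by decide +kernel

def T33_0 : List TE := [⟨0,1,0,0,1,0,6,0⟩]
def T33_0D : ℕ := 1
theorem T33_0_ok : checkId T33_0D 3 3 0 4 T33_0 = true := by decide +kernel

def T33_1 : List TE := [⟨0,0,1,0,0,1,8,0⟩]
def T33_1D : ℕ := 1
theorem T33_1_ok : checkId T33_1D 3 3 1 5 T33_1 = true := by decide +kernel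

def T33_2 : List TE := [⟨1,1,0,1,1,0,67,0⟩]
def T33_2D : ℕ := 9
theorem T33_2_ok : checkId T33_2D 3 3 2 6 T33_2 = true := by decide +kernel

def T33_3 : List TE := [⟨0,2,0,0,2,0,164,0⟩, ⟨0,2,0,1,0,1,72,0⟩, ⟨0,2,0,3,0,0,0,30⟩, ⟨1,0,1,0,2,0,72,0⟩, ⟨1,0,1,1,0,1,432,0⟩, ⟨1,0,1,3,0,0,0,108⟩, ⟨3,0,0,0,2,0,0,30⟩, ⟨3,0,0,1,0,1,0,108⟩, ⟨3,0,0,3,0,0,45,0⟩]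
def T33_3D : ℕ := 36
theorem T33_3_ok : checkId T33_3D 3 3 3 7 T33_3 = true := by decide +kernel

def T33_4 : List TE := [⟨0,1,1,0,1,1,1168,0⟩, ⟨0,1,1,2,1,0,0,436⟩, ⟨2,1,0,0,1,1,0,436⟩, ⟨2,1,0,2,1,0,385,0⟩]
def T33_4D : ℕ := 36
theorem T33_4_ok : checkId T33_4D 3 3 4 8 T33_4 = true := by decide +kernel

def T33_5 : List TE := [⟨0,0,2,0,0,2,22032,0⟩, ⟨0,0,2,1,2,0,0,2412⟩, ⟨0,0,2,2,0,1,0,11988⟩, ⟨0,0,2,4,0,0,972,0⟩, ⟨1,2,0,0,0,2,0,2412⟩, ⟨1,2,0,1,2,0,4877,0⟩, ⟨1,2,0,2,0,1,423,0⟩, ⟨1,2,0,4,0,0,63,0⟩, ⟨2,0,1,0,0,2,0,11988⟩, ⟨2,0,1,1,2,0,423,0⟩, ⟨2,0,1,2,0,1,11097,0⟩, ⟨2,0,1,4,0,0,0,1863⟩, ⟨4,0,0,0,0,2,972,0⟩, ⟨4,0,0,1,2,0,63,0⟩, ⟨4,0,0,2,0,1,0,1863⟩, ⟨4,0,0,4,0,0,567,0⟩]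
def T33_5D : ℕ := 324
theorem T33_5_ok : checkId T33_5D 3 3 5 9 T33_5 = true := by decide +kernel

def T33_6 : List TE := [⟨0,3,0,0,3,0,13744,0⟩, ⟨0,3,0,1,1,1,0,8208⟩, ⟨0,3,0,3,1,0,2340,0⟩, ⟨1,1,1,0,3,0,0,8208⟩, ⟨1,1,1,1,1,1,132624,0⟩, ⟨1,1,1,3,1,0,0,59076⟩, ⟨3,1,0,0,3,0,2340,0⟩, ⟨3,1,0,1,1,1,0,59076⟩, ⟨3,1,0,3,1,0,33777,0⟩]
def T33_6D : ℕ := 1296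
theorem T33_6_ok : checkId T33_6D 3 3 6 10 T33_6 = true := by decide +kernel

def T33_7 : List TE := [⟨0,2,1,0,2,1,528704,0⟩, ⟨0,2,1,1,0,2,12672,0⟩, ⟨0,2,1,2,2,0,0,247120⟩, ⟨0,2,1,3,0,1,0,36288⟩, ⟨0,2,1,5,0,0,11160,0⟩, ⟨1,0,2,0,2,1,12672,0⟩, ⟨1,0,2,1,0,2,1347840,0⟩, ⟨1,0,2,2,2,0,0,174816⟩, ⟨1,0,2,3,0,1,0,870912⟩, ⟨1,0,2,5,0,0,123120,0⟩, ⟨2,2,0,0,2,1,0,247120⟩, ⟨2,2,0,1,0,2,0,174816⟩, ⟨2,2,0,2,2,0,242516,0⟩, ⟨2,2,0,3,0,1,93744,0⟩, ⟨2,2,0,5,0,0,0,12654⟩, ⟨3,0,1,0,2,1,0,36288⟩, ⟨3,0,1,1,0,2,0,870912⟩, ⟨3,0,1,2,2,0,93744,0⟩, ⟨3,0,1,3,0,1,653184,0⟩, ⟨3,0,1,5,0,0,0,108864⟩, ⟨5,0,0,0,2,1,11160,0⟩, ⟨5,0,0,1,0,2,123120,0⟩, ⟨5,0,0,2,2,0,0,12654⟩, ⟨5,0,0,3,0,1,0,108864⟩, ⟨5,0,0,5,0,0,22761,0⟩]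
def T33_7D : ℕ := 5184
theorem T33_7_ok : checkId T33_7D 3 3 7 11 T33_7 = true := by decide +kernel

def T11_11 : List TE := [⟨0,0,3,0,0,3,3060633600,0⟩, ⟨0,0,3,0,4,0,74704896,0⟩, ⟨0,0,3,1,2,1,0,707678208⟩, ⟨0,0,3,2,0,2,0,3455529984⟩, ⟨0,0,3,3,2,0,328209408,0⟩, ⟨0,0,3,4,0,1,1270349568,0⟩, ⟨0,0,3,6,0,0,0,152425152⟩, ⟨0,4,0,0,0,3,74704896,0⟩, ⟨0,4,0,0,4,0,46398464,0⟩, ⟨0,4,0,1,2,1,0,121927680⟩, ⟨0,4,0,2,0,2,0,61917696⟩, ⟨0,4,0,3,2,0,52010496,0⟩, ⟨0,4,0,4,0,1,14795136,0⟩, ⟨0,4,0,6,0,0,0,940896⟩, ⟨1,2,1,0,0,3,0,707678208⟩, ⟨1,2,1,0,4,0,0,121927680⟩, ⟨1,2,1,1,2,1,879151104,0⟩, ⟨1,2,1,2,0,2,523791360,0⟩, ⟨1,2,1,3,2,0,0,426097152⟩, ⟨1,2,1,4,0,1,0,78941952⟩, ⟨1,2,1,6,0,0,0,3934656⟩,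 ⟨2,0,2,0,0,3,0,3455529984⟩, ⟨2,0,2,0,4,0,0,61917696⟩, ⟨2,0,2,1,2,1,523791360,0⟩, ⟨2,0,2,2,0,2,4740436224,0⟩, ⟨2,0,2,3,2,0,0,295674624⟩, ⟨2,0,2,4,0,1,0,2087342784⟩, ⟨2,0,2,6,0,0,295227504,0⟩, ⟨3,2,0,0,0,3,328209408,0⟩, ⟨3,2,0,0,4,0,52010496,0⟩, ⟨3,2,0,1,2,1,0,426097152⟩, ⟨3,2,0,2,0,2,0,295674624⟩, ⟨3,2,0,3,2,0,232364160,0⟩, ⟨3,2,0,4,0,1,62285760,0⟩, ⟨3,2,0,6,0,0,0,727056⟩, ⟨4,0,1,0,0,3,1270349568,0⟩, ⟨4,0,1,0,4,0,14795136,0⟩, ⟨4,0,1,1,2,1,0,78941952⟩, ⟨4,0,1,2,0,2,0,2087342784⟩, ⟨4,0,1,3,2,0,62285760,0⟩, ⟨4,0,1,4,0,1,1069180560,0⟩, ⟨4,0,1,6,0,0,0,172921716⟩, ⟨6,0,0,0,0,3,0,152425152⟩, ⟨6,0,0,0,4,0,0,940896⟩, ⟨6,0,0,1,2,1,0,3934656⟩, ⟨6,0,0,2,0,2,295227504,0⟩, ⟨6,0,0,3,2,0,0,727056⟩,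 ⟨6,0,0,4,0,1,0,172921716⟩, ⟨6,0,0,6,0,0,31779297,0⟩]
def T11_11D : ℕ := 186624
theorem T11_11_ok : checkId T11_11D 1 1 11 13 T11_11 = true := by decide +kernel

def T12_9 : List TE := [⟨0,2,1,0,1,2,1723392,0⟩, ⟨0,2,1,1,3,0,78848,0⟩, ⟨0,2,1,2,1,1,0,1571328⟩, ⟨0,2,1,4,1,0,331200,0⟩, ⟨1,0,2,0,1,2,1099008,0⟩, ⟨1,0,2,1,3,0,0,377856⟩, ⟨1,0,2,2,1,1,238464,0⟩, ⟨1,0,2,4,1,0,0,356400⟩, ⟨2,2,0,0,1,2,0,1075968⟩, ⟨2,2,0,1,3,0,120320,0⟩, ⟨2,2,0,2,1,1,906624,0⟩, ⟨2,2,0,4,1,0,0,175536⟩, ⟨3,0,1,0,1,2,0,839808⟩, ⟨3,0,1,1,3,0,186624,0⟩, ⟨3,0,1,2,1,1,46656,0⟩, ⟨3,0,1,4,1,0,196344,0⟩, ⟨5,0,0,0,1,2,162000,0⟩, ⟨5,0,0,1,3,0,0,18432⟩, ⟨5,0,0,2,1,1,0,78408⟩, ⟨5,0,0,4,1,0,0,4779⟩]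
def T12_9D : ℕ := 3888
theorem T12_9_ok : checkId T12_9D 1 2 9 12 T12_9 = true := by decide +kernel

def T12_10 : List TE := [⟨0,1,2,0,0,3,33094656,0⟩, ⟨0,1,2,0,4,0,0,1400832⟩, ⟨0,1,2,1,2,1,6524928,0⟩, ⟨0,1,2,2,0,2,0,37262592⟩, ⟨0,1,2,3,2,0,0,3843072⟩, ⟨0,1,2,4,0,1,13670208,0⟩, ⟨0,1,2,6,0,0,0,1605744⟩, ⟨1,3,0,0,0,3,0,2101248⟩, ⟨1,3,0,0,4,0,1058816,0⟩, ⟨1,3,0,1,2,1,869376,0⟩, ⟨1,3,0,2,0,2,55296,0⟩, ⟨1,3,0,3,2,0,0,155904⟩, ⟨1,3,0,4,0,1,642816,0⟩, ⟨1,3,0,6,0,0,0,131328⟩, ⟨2,1,1,0,0,3,0,28988928⟩, ⟨2,1,1,0,4,0,0,313344⟩, ⟨2,1,1,1,2,1,0,635904⟩, ⟨2,1,1,2,0,2,41648256,0⟩, ⟨2,1,1,3,2,0,711936,0⟩, ⟨2,1,1,4,0,1,0,18499104⟩, ⟨2,1,1,6,0,0,2474712,0⟩, ⟨4,1,0,0,0,3,6422976,0⟩, ⟨4,1,0,0,4,0,350208,0⟩,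 ⟨4,1,0,1,2,1,0,1631232⟩, ⟨4,1,0,2,0,2,0,11504592⟩, ⟨4,1,0,3,2,0,960768,0⟩, ⟨4,1,0,4,0,1,5869908,0⟩, ⟨4,1,0,6,0,0,0,848799⟩]
def T12_10D : ℕ := 23328
theorem T12_10_ok : checkId T12_10D 1 2 10 13 T12_10 = true := by decide +kernel

def T12_11 : List TE := [⟨0,0,3,0,3,1,0,2702592⟩, ⟨0,0,3,1,1,2,17480448,0⟩, ⟨0,0,3,2,3,0,489024,0⟩, ⟨0,0,3,3,1,1,0,15272064⟩, ⟨0,0,3,5,1,0,3347568,0⟩, ⟨0,4,0,0,3,1,1629824,0⟩, ⟨0,4,0,1,1,2,0,2376576⟩, ⟨0,4,0,2,3,0,0,581408⟩, ⟨0,4,0,3,1,1,1689408,0⟩, ⟨0,4,0,5,1,0,0,285336⟩, ⟨1,2,1,0,3,1,1537344,0⟩, ⟨1,2,1,1,1,2,12585024,0⟩, ⟨1,2,1,2,3,0,0,726288⟩, ⟨1,2,1,3,1,1,0,10742112⟩, ⟨1,2,1,5,1,0,2123604,0⟩, ⟨2,0,2,0,3,1,1586304,0⟩, ⟨2,0,2,1,1,2,0,10855296⟩,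 ⟨2,0,2,2,3,0,0,1906848⟩, ⟨2,0,2,3,1,1,14914368,0⟩, ⟨2,0,2,5,1,0,0,4605336⟩, ⟨3,2,0,0,3,1,0,1187856⟩, ⟨3,2,0,1,1,2,0,7509456⟩, ⟨3,2,0,2,3,0,1270452,0⟩, ⟨3,2,0,3,1,1,5998968,0⟩, ⟨3,2,0,5,1,0,0,1103841⟩, ⟨4,0,1,0,3,1,102384,0⟩, ⟨4,0,1,1,1,2,361584,0⟩, ⟨4,0,1,2,3,0,755892,0⟩, ⟨4,0,1,3,1,1,0,3621672⟩, ⟨4,0,1,5,1,0,1699299,0⟩, ⟨6,0,0,0,3,1,0,99792⟩, ⟨6,0,0,1,1,2,470448,0⟩, ⟨6,0,0,2,3,0,0,55836⟩, ⟨6,0,0,3,1,1,0,21384⟩, ⟨6,0,0,5,1,0,0,109593⟩]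
def T12_11D : ℕ := 11664
theorem T12_11_ok : checkId T12_11D 1 2 11 14 T12_11 = true := by decide +kernel

def T21_9 : List TE := [⟨0,1,2,0,2,1,1723392,0⟩, ⟨0,1,2,1,0,2,1099008,0⟩, ⟨0,1,2,2,2,0,0,1075968⟩, ⟨0,1,2,3,0,1,0,839808⟩, ⟨0,1,2,5,0,0,162000,0⟩, ⟨1,3,0,0,2,1,78848,0⟩, ⟨1,3,0,1,0,2,0,377856⟩, ⟨1,3,0,2,2,0,120320,0⟩, ⟨1,3,0,3,0,1,186624,0⟩, ⟨1,3,0,5,0,0,0,18432⟩, ⟨2,1,1,0,2,1,0,1571328⟩, ⟨2,1,1,1,0,2,238464,0⟩, ⟨2,1,1,2,2,0,906624,0⟩, ⟨2,1,1,3,0,1,46656,0⟩, ⟨2,1,1,5,0,0,0,78408⟩, ⟨4,1,0,0,2,1,331200,0⟩, ⟨4,1,0,1,0,2,0,356400⟩, ⟨4,1,0,2,2,0,0,175536⟩, ⟨4,1,0,3,0,1,196344,0⟩, ⟨4,1,0,5,0,0,0,4779⟩]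
def T21_9D : ℕ := 3888
theorem T21_9_ok : checkId T21_9D 2 1 9 12 T21_9 = true := by decide +kernel

def T21_10 : List TE := [⟨0,0,3,0,1,2,33094656,0⟩, ⟨0,0,3,1,3,0,0,2101248⟩, ⟨0,0,3,2,1,1,0,28988928⟩, ⟨0,0,3,4,1,0,6422976,0⟩, ⟨0,4,0,0,1,2,0,1400832⟩, ⟨0,4,0,1,3,0,1058816,0⟩, ⟨0,4,0,2,1,1,0,313344⟩, ⟨0,4,0,4,1,0,350208,0⟩, ⟨1,2,1,0,1,2,6524928,0⟩, ⟨1,2,1,1,3,0,869376,0⟩, ⟨1,2,1,2,1,1,0,635904⟩, ⟨1,2,1,4,1,0,0,1631232⟩, ⟨2,0,2,0,1,2,0,37262592⟩, ⟨2,0,2,1,3,0,55296,0⟩, ⟨2,0,2,2,1,1,41648256,0⟩, ⟨2,0,2,4,1,0,0,11504592⟩, ⟨3,2,0,0,1,2,0,3843072⟩, ⟨3,2,0,1,3,0,0,155904⟩, ⟨3,2,0,2,1,1,711936,0⟩, ⟨3,2,0,4,1,0,960768,0⟩, ⟨4,0,1,0,1,2,13670208,0⟩, ⟨4,0,1,1,3,0,642816,0⟩, ⟨4,0,1,2,1,1,0,18499104⟩,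 ⟨4,0,1,4,1,0,5869908,0⟩, ⟨6,0,0,0,1,2,0,1605744⟩, ⟨6,0,0,1,3,0,0,131328⟩, ⟨6,0,0,2,1,1,2474712,0⟩, ⟨6,0,0,4,1,0,0,848799⟩]
def T21_10D : ℕ := 23328
theorem T21_10_ok : checkId T21_10D 2 1 10 13 T21_10 = true := by decide +kernel

def T21_11 : List TE := [⟨0,3,1,0,0,3,0,2702592⟩, ⟨0,3,1,0,4,0,1629824,0⟩, ⟨0,3,1,1,2,1,1537344,0⟩, ⟨0,3,1,2,0,2,1586304,0⟩, ⟨0,3,1,3,2,0,0,1187856⟩, ⟨0,3,1,4,0,1,102384,0⟩, ⟨0,3,1,6,0,0,0,99792⟩, ⟨1,1,2,0,0,3,17480448,0⟩, ⟨1,1,2,0,4,0,0,2376576⟩, ⟨1,1,2,1,2,1,12585024,0⟩, ⟨1,1,2,2,0,2,0,10855296⟩, ⟨1,1,2,3,2,0,0,7509456⟩, ⟨1,1,2,4,0,1,361584,0⟩, ⟨1,1,2,6,0,0,470448,0⟩, ⟨2,3,0,0,0,3,489024,0⟩, ⟨2,3,0,0,4,0,0,581408⟩, ⟨2,3,0,1,2,1,0,726288⟩, ⟨2,3,0,2,0,2,0,1906848⟩,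 ⟨2,3,0,3,2,0,1270452,0⟩, ⟨2,3,0,4,0,1,755892,0⟩, ⟨2,3,0,6,0,0,0,55836⟩, ⟨3,1,1,0,0,3,0,15272064⟩, ⟨3,1,1,0,4,0,1689408,0⟩, ⟨3,1,1,1,2,1,0,10742112⟩, ⟨3,1,1,2,0,2,14914368,0⟩, ⟨3,1,1,3,2,0,5998968,0⟩, ⟨3,1,1,4,0,1,0,3621672⟩, ⟨3,1,1,6,0,0,0,21384⟩, ⟨5,1,0,0,0,3,3347568,0⟩, ⟨5,1,0,0,4,0,0,285336⟩, ⟨5,1,0,1,2,1,2123604,0⟩, ⟨5,1,0,2,0,2,0,4605336⟩, ⟨5,1,0,3,2,0,0,1103841⟩, ⟨5,1,0,4,0,1,1699299,0⟩, ⟨5,1,0,6,0,0,0,109593⟩]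
def T21_11D : ℕ := 11664
theorem T21_11_ok : checkId T21_11D 2 1 11 14 T21_11 = true := by decide +kernel

def T22_9 : List TE := [⟨0,1,2,0,1,2,17646336,0⟩, ⟨0,1,2,1,3,0,0,1428480⟩, ⟨0,1,2,2,1,1,0,14256000⟩, ⟨0,1,2,4,1,0,2855088,0⟩, ⟨1,3,0,0,1,2,0,1428480⟩, ⟨1,3,0,1,3,0,1188224,0⟩, ⟨1,3,0,2,1,1,0,254592⟩, ⟨1,3,0,4,1,0,302688,0⟩, ⟨2,1,1,0,1,2,0,14256000⟩, ⟨2,1,1,1,3,0,0,254592⟩, ⟨2,1,1,2,1,1,17257536,0⟩, ⟨2,1,1,4,1,0,0,4968216⟩, ⟨4,1,0,0,1,2,2855088,0⟩, ⟨4,1,0,1,3,0,302688,0⟩, ⟨4,1,0,2,1,1,0,4968216⟩, ⟨4,1,0,4,1,0,1808811,0⟩]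
def T22_9D : ℕ := 11664
theorem T22_9_ok : checkId T22_9D 2 2 9 12 T22_9 = true := by decide +kernel

def T22_10 : List TE := [⟨0,0,3,0,0,3,764411904,0⟩, ⟨0,0,3,0,4,0,20017152,0⟩, ⟨0,0,3,1,2,1,0,193425408⟩, ⟨0,0,3,2,0,2,0,812187648⟩, ⟨0,0,3,3,2,0,86510592,0⟩, ⟨0,0,3,4,0,1,277696512,0⟩, ⟨0,0,3,6,0,0,0,30606336⟩, ⟨0,4,0,0,0,3,20017152,0⟩, ⟨0,4,0,0,4,0,15640576,0⟩, ⟨0,4,0,1,2,1,0,35457024⟩, ⟨0,4,0,2,0,2,0,17224704⟩, ⟨0,4,0,3,2,0,14608896,0⟩, ⟨0,4,0,4,0,1,4582656,0⟩, ⟨0,4,0,6,0,0,0,381888⟩, ⟨1,2,1,0,0,3,0,193425408⟩, ⟨1,2,1,0,4,0,0,35457024⟩, ⟨1,2,1,1,2,1,281892096,0⟩, ⟨1,2,1,2,0,2,142269696,0⟩, ⟨1,2,1,3,2,0,0,136033344⟩, ⟨1,2,1,4,0,1,0,23359104⟩, ⟨1,2,1,6,0,0,0,237168⟩, ⟨2,0,2,0,0,3,0,812187648⟩,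 ⟨2,0,2,0,4,0,0,17224704⟩, ⟨2,0,2,1,2,1,142269696,0⟩, ⟨2,0,2,2,0,2,1121423616,0⟩, ⟨2,0,2,3,2,0,0,85644864⟩, ⟨2,0,2,4,0,1,0,484009344⟩, ⟨2,0,2,6,0,0,65470032,0⟩, ⟨3,2,0,0,0,3,86510592,0⟩, ⟨3,2,0,0,4,0,14608896,0⟩, ⟨3,2,0,1,2,1,0,136033344⟩, ⟨3,2,0,2,0,2,0,85644864⟩, ⟨3,2,0,3,2,0,77804496,0⟩, ⟨3,2,0,4,0,1,20925216,0⟩, ⟨3,2,0,6,0,0,0,971028⟩, ⟨4,0,1,0,0,3,277696512,0⟩, ⟨4,0,1,0,4,0,4582656,0⟩, ⟨4,0,1,1,2,1,0,23359104⟩, ⟨4,0,1,2,0,2,0,484009344⟩, ⟨4,0,1,3,2,0,20925216,0⟩, ⟨4,0,1,4,0,1,250122816,0⟩, ⟨4,0,1,6,0,0,0,39418488⟩, ⟨6,0,0,0,0,3,0,30606336⟩, ⟨6,0,0,0,4,0,0,381888⟩, ⟨6,0,0,1,2,1,0,237168⟩, ⟨6,0,0,2,0,2,65470032,0⟩, ⟨6,0,0,3,2,0,0,971028⟩, ⟨6,0,0,4,0,1,0,39418488⟩, ⟨6,0,0,6,0,0,7197417,0⟩]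
def T22_10D : ℕ := 186624
theorem T22_10_ok : checkId T22_10D 2 2 10 13 T22_10 = true := by decide +kernel

def T22_11 : List TE := [⟨0,3,1,0,3,1,41652992,0⟩, ⟨0,3,1,1,1,2,0,34507008⟩, ⟨0,3,1,2,3,0,0,21523904⟩, ⟨0,3,1,3,1,1,28139904,0⟩, ⟨0,3,1,5,1,0,0,5408208⟩, ⟨1,1,2,0,3,1,0,34507008⟩, ⟨1,1,2,1,1,2,282279168,0⟩, ⟨1,1,2,2,3,0,0,1927872⟩, ⟨1,1,2,3,1,1,0,232274304⟩, ⟨1,1,2,5,1,0,47476368,0⟩, ⟨2,3,0,0,3,1,0,21523904⟩, ⟨2,3,0,1,1,2,0,1927872⟩, ⟨2,3,0,2,3,0,20468912,0⟩, ⟨2,3,0,3,1,1,0,8842464⟩, ⟨2,3,0,5,1,0,3500388,0⟩, ⟨3,1,1,0,3,1,28139904,0⟩, ⟨3,1,1,1,1,2,0,232274304⟩, ⟨3,1,1,2,3,0,0,8842464⟩, ⟨3,1,1,3,1,1,225467712,0⟩, ⟨3,1,1,5,1,0,0,54706104⟩, ⟨5,1,0,0,3,1,0,5408208⟩, ⟨5,1,0,1,1,2,47476368,0⟩,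 ⟨5,1,0,2,3,0,3500388,0⟩, ⟨5,1,0,3,1,1,0,54706104⟩, ⟨5,1,0,5,1,0,15577029,0⟩]
def T22_11D : ℕ := 46656
theorem T22_11_ok : checkId T22_11D 2 2 11 14 T22_11 = true := by decide +kernel

def T31_8 : List TE := [⟨0,1,2,0,3,0,0,14976⟩, ⟨0,1,2,1,1,1,86400,0⟩, ⟨0,1,2,3,1,0,0,42336⟩, ⟨1,3,0,0,3,0,22256,0⟩, ⟨1,3,0,1,1,1,0,24912⟩, ⟨1,3,0,3,1,0,8820,0⟩, ⟨2,1,1,0,3,0,0,17424⟩, ⟨2,1,1,1,1,1,78192,0⟩, ⟨2,1,1,3,1,0,0,32508⟩, ⟨4,1,0,0,3,0,9036,0⟩, ⟨4,1,0,1,1,1,0,58644⟩, ⟨4,1,0,3,1,0,30429,0⟩]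
def T31_8D : ℕ := 486
theorem T31_8_ok : checkId T31_8D 3 1 8 12 T31_8 = true := by decide +kernel

def T31_9 : List TE := [⟨0,0,3,0,2,1,0,1292544⟩, ⟨0,0,3,1,0,2,8273664,0⟩, ⟨0,0,3,2,2,0,0,1728⟩, ⟨0,0,3,3,0,1,0,6438528⟩, ⟨0,0,3,5,0,0,1216944,0⟩, ⟨0,4,0,0,2,1,454784,0⟩, ⟨0,4,0,1,0,2,0,215424⟩, ⟨0,4,0,2,2,0,0,239008⟩, ⟨0,4,0,3,0,1,171072,0⟩, ⟨0,4,0,5,0,0,0,31608⟩, ⟨1,2,1,0,2,1,5569344,0⟩, ⟨1,2,1,1,0,2,0,1446336⟩, ⟨1,2,1,2,2,0,0,2506896⟩, ⟨1,2,1,3,0,1,738720,0⟩, ⟨1,2,1,5,0,0,0,63180⟩, ⟨2,0,2,0,2,1,0,798336⟩, ⟨2,0,2,1,0,2,5505408,0⟩, ⟨2,0,2,2,2,0,0,681696⟩, ⟨2,0,2,3,0,1,0,2659392⟩, ⟨2,0,2,5,0,0,134136,0⟩, ⟨3,2,0,0,2,1,0,3020688⟩, ⟨3,2,0,1,0,2,0,752976⟩, ⟨3,2,0,2,2,0,2205972,0⟩,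 ⟨3,2,0,3,0,1,274104,0⟩, ⟨3,2,0,5,0,0,0,18873⟩, ⟨4,0,1,0,2,1,1237680,0⟩, ⟨4,0,1,1,0,2,0,7709904⟩, ⟨4,0,1,2,2,0,31428,0⟩, ⟨4,0,1,3,0,1,5686200,0⟩, ⟨4,0,1,5,0,0,0,963009⟩, ⟨6,0,0,0,2,1,0,256608⟩, ⟨6,0,0,1,0,2,1609632,0⟩, ⟨6,0,0,2,2,0,56376,0⟩, ⟨6,0,0,3,0,1,0,1388016⟩, ⟨6,0,0,5,0,0,293058,0⟩]
def T31_9D : ℕ := 15552
theorem T31_9_ok : checkId T31_9D 3 1 9 13 T31_9 = true := by decide +kernel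

def T31_10 : List TE := [⟨0,3,1,0,1,2,5953536,0⟩, ⟨0,3,1,1,3,0,591872,0⟩, ⟨0,3,1,2,1,1,0,6755328⟩, ⟨0,3,1,4,1,0,1777536,0⟩, ⟨1,1,2,0,1,2,46842624,0⟩, ⟨1,1,2,1,3,0,0,6054912⟩, ⟨1,1,2,2,1,1,0,29020032⟩, ⟨1,1,2,4,1,0,3394224,0⟩, ⟨2,3,0,0,1,2,0,6898176⟩, ⟨2,3,0,1,3,0,2727168,0⟩, ⟨2,3,0,2,1,1,2999808,0⟩, ⟨2,3,0,4,1,0,0,180576⟩, ⟨3,1,1,0,1,2,0,39802752⟩, ⟨3,1,1,1,3,0,1357056,0⟩, ⟨3,1,1,2,1,1,37734336,0⟩, ⟨3,1,1,4,1,0,0,8760312⟩, ⟨5,1,0,0,1,2,8578224,0⟩, ⟨5,1,0,1,3,0,384768,0⟩, ⟨5,1,0,2,1,1,0,11507832⟩, ⟨5,1,0,4,1,0,3630339,0⟩]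
def T31_10D : ℕ := 23328
theorem T31_10_ok : checkId T31_10D 3 1 10 14 T31_10 = true := by decide +kernel

def T31_11 : List TE := [⟨0,2,2,0,0,3,822638592,0⟩, ⟨0,2,2,0,4,0,0,84575232⟩, ⟨0,2,2,1,2,1,525312000,0⟩, ⟨0,2,2,2,0,2,0,1203973632⟩, ⟨0,2,2,3,2,0,0,261992448⟩, ⟨0,2,2,4,0,1,556232832,0⟩, ⟨0,2,2,6,0,0,0,80147232⟩, ⟨1,0,3,0,0,3,6861791232,0⟩, ⟨1,0,3,0,4,0,212336640,0⟩, ⟨1,0,3,1,2,1,0,2136969216⟩, ⟨1,0,3,2,0,2,0,6069012480⟩, ⟨1,0,3,3,2,0,885593088,0⟩, ⟨1,0,3,4,0,1,1541887488,0⟩, ⟨1,0,3,6,0,0,0,95458176⟩, ⟨1,4,0,0,0,3,143520768,0⟩, ⟨1,4,0,0,4,0,142073344,0⟩, ⟨1,4,0,1,2,1,0,280221696⟩, ⟨1,4,0,2,0,2,0,129413376⟩, ⟨1,4,0,3,2,0,111020544,0⟩, ⟨1,4,0,4,0,1,38625984,0⟩, ⟨1,4,0,6,0,0,0,3948912⟩,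 ⟨2,2,1,0,0,3,0,2467169280⟩, ⟨2,2,1,0,4,0,0,260872704⟩, ⟨2,2,1,1,2,1,1753546752,0⟩, ⟨2,2,1,2,0,2,2395443456,0⟩, ⟨2,2,1,3,2,0,0,786281472⟩, ⟨2,2,1,4,0,1,0,765484992⟩, ⟨2,2,1,6,0,0,83440368,0⟩, ⟨3,0,2,0,0,3,0,7580666880⟩, ⟨3,0,2,0,4,0,0,182601216⟩, ⟨3,0,2,1,2,1,1786364928,0⟩, ⟨3,0,2,2,0,2,8463585024,0⟩, ⟨3,0,2,3,2,0,0,884037888⟩, ⟨3,0,2,4,0,1,0,2938068288⟩, ⟨3,0,2,6,0,0,308314512,0⟩, ⟨4,2,0,0,0,3,963010944,0⟩, ⟨4,2,0,0,4,0,123966144,0⟩, ⟨4,2,0,1,2,1,0,978614784⟩, ⟨4,2,0,2,0,2,0,996268896⟩, ⟨4,2,0,3,2,0,523542528,0⟩, ⟨4,2,0,4,0,1,306932328,0⟩, ⟨4,2,0,6,0,0,0,29108970⟩, ⟨5,0,1,0,0,3,2718738432,0⟩, ⟨5,0,1,0,4,0,47506176,0⟩, ⟨5,0,1,1,2,1,0,403916544⟩, ⟨5,0,1,2,0,2,0,3729867264⟩,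 ⟨5,0,1,3,2,0,236903616,0⟩, ⟨5,0,1,4,0,1,1609911936,0⟩, ⟨5,0,1,6,0,0,0,216320544⟩, ⟨7,0,0,0,0,3,0,317587392⟩, ⟨7,0,0,0,4,0,0,3698784⟩, ⟨7,0,0,1,2,1,19735488,0⟩, ⟨7,0,0,2,0,2,521835696,0⟩, ⟨7,0,0,3,2,0,0,15571440⟩, ⟨7,0,0,4,0,1,0,267295140⟩, ⟨7,0,0,6,0,0,43230429,0⟩]
def T31_11D : ℕ := 1119744
theorem T31_11_ok : checkId T31_11D 3 1 11 15 T31_11 = true := by decide +kernel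

def T13_8 : List TE := [⟨0,3,0,0,1,2,0,14976⟩, ⟨0,3,0,1,3,0,22256,0⟩, ⟨0,3,0,2,1,1,0,17424⟩, ⟨0,3,0,4,1,0,9036,0⟩, ⟨1,1,1,0,1,2,86400,0⟩, ⟨1,1,1,1,3,0,0,24912⟩, ⟨1,1,1,2,1,1,78192,0⟩, ⟨1,1,1,4,1,0,0,58644⟩, ⟨3,1,0,0,1,2,0,42336⟩, ⟨3,1,0,1,3,0,8820,0⟩, ⟨3,1,0,2,1,1,0,32508⟩, ⟨3,1,0,4,1,0,30429,0⟩]
def T13_8D : ℕ := 486
theorem T13_8_ok : checkId T13_8D 1 3 8 12 T13_8 = true := by decide +kernel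

def T13_9 : List TE := [⟨0,2,1,0,0,3,0,1292544⟩, ⟨0,2,1,0,4,0,454784,0⟩, ⟨0,2,1,1,2,1,5569344,0⟩, ⟨0,2,1,2,0,2,0,798336⟩, ⟨0,2,1,3,2,0,0,3020688⟩, ⟨0,2,1,4,0,1,1237680,0⟩, ⟨0,2,1,6,0,0,0,256608⟩, ⟨1,0,2,0,0,3,8273664,0⟩, ⟨1,0,2,0,4,0,0,215424⟩, ⟨1,0,2,1,2,1,0,1446336⟩, ⟨1,0,2,2,0,2,5505408,0⟩, ⟨1,0,2,3,2,0,0,752976⟩, ⟨1,0,2,4,0,1,0,7709904⟩, ⟨1,0,2,6,0,0,1609632,0⟩, ⟨2,2,0,0,0,3,0,1728⟩, ⟨2,2,0,0,4,0,0,239008⟩, ⟨2,2,0,1,2,1,0,2506896⟩, ⟨2,2,0,2,0,2,0,681696⟩, ⟨2,2,0,3,2,0,2205972,0⟩, ⟨2,2,0,4,0,1,31428,0⟩, ⟨2,2,0,6,0,0,56376,0⟩, ⟨3,0,1,0,0,3,0,6438528⟩, ⟨3,0,1,0,4,0,171072,0⟩, ⟨3,0,1,1,2,1,738720,0⟩, ⟨3,0,1,2,0,2,0,2659392⟩, ⟨3,0,1,3,2,0,274104,0⟩, ⟨3,0,1,4,0,1,5686200,0⟩,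 ⟨3,0,1,6,0,0,0,1388016⟩, ⟨5,0,0,0,0,3,1216944,0⟩, ⟨5,0,0,0,4,0,0,31608⟩, ⟨5,0,0,1,2,1,0,63180⟩, ⟨5,0,0,2,0,2,134136,0⟩, ⟨5,0,0,3,2,0,0,18873⟩, ⟨5,0,0,4,0,1,0,963009⟩, ⟨5,0,0,6,0,0,293058,0⟩]
def T13_9D : ℕ := 15552
theorem T13_9_ok : checkId T13_9D 1 3 9 13 T13_9 = true := by decide +kernel

def T13_10 : List TE := [⟨0,1,2,0,3,1,5953536,0⟩, ⟨0,1,2,1,1,2,46842624,0⟩, ⟨0,1,2,2,3,0,0,6898176⟩, ⟨0,1,2,3,1,1,0,39802752⟩, ⟨0,1,2,5,1,0,8578224,0⟩, ⟨1,3,0,0,3,1,591872,0⟩, ⟨1,3,0,1,1,2,0,6054912⟩, ⟨1,3,0,2,3,0,2727168,0⟩, ⟨1,3,0,3,1,1,1357056,0⟩, ⟨1,3,0,5,1,0,384768,0⟩, ⟨2,1,1,0,3,1,0,6755328⟩, ⟨2,1,1,1,1,2,0,29020032⟩, ⟨2,1,1,2,3,0,2999808,0⟩, ⟨2,1,1,3,1,1,37734336,0⟩, ⟨2,1,1,5,1,0,0,11507832⟩,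 ⟨4,1,0,0,3,1,1777536,0⟩, ⟨4,1,0,1,1,2,3394224,0⟩, ⟨4,1,0,2,3,0,0,180576⟩, ⟨4,1,0,3,1,1,0,8760312⟩, ⟨4,1,0,5,1,0,3630339,0⟩]
def T13_10D : ℕ := 23328
theorem T13_10_ok : checkId T13_10D 1 3 10 14 T13_10 = true := by decide +kernel

def T13_11 : List TE := [⟨0,0,3,0,2,2,822638592,0⟩, ⟨0,0,3,1,0,3,6861791232,0⟩, ⟨0,0,3,1,4,0,143520768,0⟩, ⟨0,0,3,2,2,1,0,2467169280⟩, ⟨0,0,3,3,0,2,0,7580666880⟩, ⟨0,0,3,4,2,0,963010944,0⟩, ⟨0,0,3,5,0,1,2718738432,0⟩, ⟨0,0,3,7,0,0,0,317587392⟩, ⟨0,4,0,0,2,2,0,84575232⟩, ⟨0,4,0,1,0,3,212336640,0⟩, ⟨0,4,0,1,4,0,142073344,0⟩, ⟨0,4,0,2,2,1,0,260872704⟩, ⟨0,4,0,3,0,2,0,182601216⟩, ⟨0,4,0,4,2,0,123966144,0⟩, ⟨0,4,0,5,0,1,47506176,0⟩, ⟨0,4,0,7,0,0,0,3698784⟩,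 ⟨1,2,1,0,2,2,525312000,0⟩, ⟨1,2,1,1,0,3,0,2136969216⟩, ⟨1,2,1,1,4,0,0,280221696⟩, ⟨1,2,1,2,2,1,1753546752,0⟩, ⟨1,2,1,3,0,2,1786364928,0⟩, ⟨1,2,1,4,2,0,0,978614784⟩, ⟨1,2,1,5,0,1,0,403916544⟩, ⟨1,2,1,7,0,0,19735488,0⟩, ⟨2,0,2,0,2,2,0,1203973632⟩, ⟨2,0,2,1,0,3,0,6069012480⟩, ⟨2,0,2,1,4,0,0,129413376⟩, ⟨2,0,2,2,2,1,2395443456,0⟩, ⟨2,0,2,3,0,2,8463585024,0⟩, ⟨2,0,2,4,2,0,0,996268896⟩, ⟨2,0,2,5,0,1,0,3729867264⟩, ⟨2,0,2,7,0,0,521835696,0⟩, ⟨3,2,0,0,2,2,0,261992448⟩, ⟨3,2,0,1,0,3,885593088,0⟩, ⟨3,2,0,1,4,0,111020544,0⟩, ⟨3,2,0,2,2,1,0,786281472⟩, ⟨3,2,0,3,0,2,0,884037888⟩, ⟨3,2,0,4,2,0,523542528,0⟩, ⟨3,2,0,5,0,1,236903616,0⟩, ⟨3,2,0,7,0,0,0,15571440⟩, ⟨4,0,1,0,2,2,556232832,0⟩,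 ⟨4,0,1,1,0,3,1541887488,0⟩, ⟨4,0,1,1,4,0,38625984,0⟩, ⟨4,0,1,2,2,1,0,765484992⟩, ⟨4,0,1,3,0,2,0,2938068288⟩, ⟨4,0,1,4,2,0,306932328,0⟩, ⟨4,0,1,5,0,1,1609911936,0⟩, ⟨4,0,1,7,0,0,0,267295140⟩, ⟨6,0,0,0,2,2,0,80147232⟩, ⟨6,0,0,1,0,3,0,95458176⟩, ⟨6,0,0,1,4,0,0,3948912⟩, ⟨6,0,0,2,2,1,83440368,0⟩, ⟨6,0,0,3,0,2,308314512,0⟩, ⟨6,0,0,4,2,0,0,29108970⟩, ⟨6,0,0,5,0,1,0,216320544⟩, ⟨6,0,0,7,0,0,43230429,0⟩]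
def T13_11D : ℕ := 1119744
theorem T13_11_ok : checkId T13_11D 1 3 11 15 T13_11 = true := by decide +kernel

def T32_8 : List TE := [⟨0,1,2,0,2,1,3446784,0⟩, ⟨0,1,2,1,0,2,3545856,0⟩, ⟨0,1,2,2,2,0,0,2271744⟩, ⟨0,1,2,3,0,1,0,2726784⟩, ⟨0,1,2,5,0,0,522288,0⟩, ⟨1,3,0,0,2,1,377344,0⟩, ⟨1,3,0,1,0,2,0,1055232⟩, ⟨1,3,0,2,2,0,254592,0⟩, ⟨1,3,0,3,0,1,516096,0⟩, ⟨1,3,0,5,0,0,0,49248⟩, ⟨2,1,1,0,2,1,0,2990592⟩, ⟨2,1,1,1,0,2,466560,0⟩, ⟨2,1,1,2,2,0,1763712,0⟩, ⟨2,1,1,3,0,1,347328,0⟩, ⟨2,1,1,5,0,0,0,271512⟩, ⟨4,1,0,0,2,1,541440,0⟩, ⟨4,1,0,1,0,2,0,1022544⟩, ⟨4,1,0,2,2,0,0,250560⟩, ⟨4,1,0,3,0,1,550152,0⟩, ⟨4,1,0,5,0,0,0,7533⟩]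
def T32_8D : ℕ := 15552
theorem T32_8_ok : checkId T32_8D 3 2 8 12 T32_8 = true := by decide +kernel

def T32_9 : List TE := [⟨0,0,3,0,1,2,8273664,0⟩, ⟨0,0,3,1,3,0,0,525312⟩, ⟨0,0,3,2,1,1,0,7247232⟩, ⟨0,0,3,4,1,0,1605744,0⟩, ⟨0,4,0,0,1,2,0,350208⟩, ⟨0,4,0,1,3,0,349568,0⟩, ⟨0,4,0,2,1,1,0,213120⟩, ⟨0,4,0,4,1,0,141984,0⟩, ⟨1,2,1,0,1,2,2923776,0⟩, ⟨1,2,1,1,3,0,141696,0⟩, ⟨1,2,1,2,1,1,0,559872⟩, ⟨1,2,1,4,1,0,0,540432⟩, ⟨2,0,2,0,1,2,0,8491392⟩, ⟨2,0,2,1,3,0,0,269568⟩, ⟨2,0,2,2,1,1,10590912,0⟩, ⟨2,0,2,4,1,0,0,3143448⟩, ⟨3,2,0,0,1,2,0,1767744⟩, ⟨3,2,0,1,3,0,105696,0⟩, ⟨3,2,0,2,1,1,476928,0⟩, ⟨3,2,0,4,1,0,312660,0⟩, ⟨4,0,1,0,1,2,2787696,0⟩, ⟨4,0,1,1,3,0,300672,0⟩, ⟨4,0,1,2,1,1,0,4589784⟩,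 ⟨4,0,1,4,1,0,1614735,0⟩, ⟨6,0,0,0,1,2,0,279936⟩, ⟨6,0,0,1,3,0,0,46656⟩, ⟨6,0,0,2,1,1,559872,0⟩, ⟨6,0,0,4,1,0,0,215784⟩]
def T32_9D : ℕ := 11664
theorem T32_9_ok : checkId T32_9D 3 2 9 13 T32_9 = true := by decide +kernel

def T32_10 : List TE := [⟨0,3,1,0,0,3,0,21620736⟩, ⟨0,3,1,0,4,0,13038592,0⟩, ⟨0,3,1,1,2,1,25942272,0⟩, ⟨0,3,1,2,0,2,6227712,0⟩, ⟨0,3,1,3,2,0,0,16673088⟩, ⟨0,3,1,4,0,1,5951232,0⟩, ⟨0,3,1,6,0,0,0,1746576⟩, ⟨1,1,2,0,0,3,206032896,0⟩, ⟨1,1,2,0,4,0,0,21814272⟩, ⟨1,1,2,1,2,1,107267328,0⟩, ⟨1,1,2,2,0,2,0,119999232⟩, ⟨1,1,2,3,2,0,0,67770432⟩, ⟨1,1,2,4,0,1,0,1959552⟩, ⟨1,1,2,6,0,0,6636816,0⟩, ⟨2,3,0,0,0,3,0,290304⟩, ⟨2,3,0,0,4,0,0,2533632⟩, ⟨2,3,0,1,2,1,0,11241792⟩,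 ⟨2,3,0,2,0,2,0,15152832⟩, ⟨2,3,0,3,2,0,15237648,0⟩, ⟨2,3,0,4,0,1,6205248,0⟩, ⟨2,3,0,6,0,0,0,340524⟩, ⟨3,1,1,0,0,3,0,180154368⟩, ⟨3,1,1,0,4,0,12888576,0⟩, ⟨3,1,1,1,2,1,0,82076544⟩, ⟨3,1,1,2,0,2,170418816,0⟩, ⟨3,1,1,3,2,0,48288096,0⟩, ⟨3,1,1,4,0,1,0,38211264⟩, ⟨3,1,1,6,0,0,0,1082808⟩, ⟨5,1,0,0,0,3,39626496,0⟩, ⟨5,1,0,0,4,0,0,1582272⟩, ⟨5,1,0,1,2,1,12778128,0⟩, ⟨5,1,0,2,0,2,0,53767152⟩, ⟨5,1,0,3,2,0,0,6540372⟩, ⟨5,1,0,4,0,1,19473048,0⟩, ⟨5,1,0,6,0,0,0,1170531⟩]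
def T32_10D : ℕ := 186624
theorem T32_10_ok : checkId T32_10D 3 2 10 14 T32_10 = true := by decide +kernel

def T32_11 : List TE := [⟨0,2,2,0,3,1,205396992,0⟩, ⟨0,2,2,1,1,2,248997888,0⟩, ⟨0,2,2,2,3,0,0,137325312⟩, ⟨0,2,2,3,1,1,0,221128704⟩, ⟨0,2,2,5,1,0,51746688,0⟩, ⟨1,0,3,0,3,1,0,113508864⟩, ⟨1,0,3,1,1,2,734178816,0⟩, ⟨1,0,3,2,3,0,20539008,0⟩, ⟨1,0,3,3,1,1,0,641426688⟩, ⟨1,0,3,5,1,0,140597856,0⟩, ⟨1,4,0,0,3,1,17020672,0⟩, ⟨1,4,0,1,1,2,0,74163456⟩, ⟨1,4,0,2,3,0,18063680,0⟩, ⟨1,4,0,3,1,1,27508608,0⟩, ⟨1,4,0,5,1,0,914544,0⟩, ⟨2,2,1,0,3,1,0,183247488⟩, ⟨2,2,1,1,1,2,0,25681536⟩, ⟨2,2,1,2,3,0,105253920,0⟩, ⟨2,2,1,3,1,1,130673088,0⟩, ⟨2,2,1,5,1,0,0,62270856⟩, ⟨3,0,2,0,3,1,117739008,0⟩,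 ⟨3,0,2,1,1,2,0,772250112⟩, ⟨3,0,2,2,3,0,0,50461056⟩, ⟨3,0,2,3,1,1,772436736,0⟩, ⟨3,0,2,5,1,0,0,193365792⟩, ⟨4,2,0,0,3,1,35526240,0⟩, ⟨4,2,0,1,1,2,0,60619104⟩, ⟨4,2,0,2,3,0,0,11289528⟩, ⟨4,2,0,3,1,1,0,2077488⟩, ⟨4,2,0,5,1,0,18512226,0⟩, ⟨5,0,1,0,3,1,0,37742112⟩, ⟨5,0,1,1,1,2,260130528,0⟩, ⟨5,0,1,2,3,0,23854824,0⟩, ⟨5,0,1,3,1,1,0,293711184⟩, ⟨5,0,1,5,1,0,81943974,0⟩, ⟨7,0,0,0,3,1,3746736,0⟩, ⟨7,0,0,1,1,2,0,27305424⟩, ⟨7,0,0,2,3,0,0,3001212⟩, ⟨7,0,0,3,1,1,33773112,0⟩, ⟨7,0,0,5,1,0,0,10119249⟩]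
def T32_11D : ℕ := 279936
theorem T32_11_ok : checkId T32_11D 3 2 11 15 T32_11 = true := by decide +kernel

def T23_8 : List TE := [⟨0,2,1,0,1,2,3446784,0⟩, ⟨0,2,1,1,3,0,377344,0⟩, ⟨0,2,1,2,1,1,0,2990592⟩, ⟨0,2,1,4,1,0,541440,0⟩, ⟨1,0,2,0,1,2,3545856,0⟩, ⟨1,0,2,1,3,0,0,1055232⟩, ⟨1,0,2,2,1,1,466560,0⟩, ⟨1,0,2,4,1,0,0,1022544⟩, ⟨2,2,0,0,1,2,0,2271744⟩, ⟨2,2,0,1,3,0,254592,0⟩, ⟨2,2,0,2,1,1,1763712,0⟩, ⟨2,2,0,4,1,0,0,250560⟩, ⟨3,0,1,0,1,2,0,2726784⟩, ⟨3,0,1,1,3,0,516096,0⟩, ⟨3,0,1,2,1,1,347328,0⟩, ⟨3,0,1,4,1,0,550152,0⟩, ⟨5,0,0,0,1,2,522288,0⟩, ⟨5,0,0,1,3,0,0,49248⟩, ⟨5,0,0,2,1,1,0,271512⟩, ⟨5,0,0,4,1,0,0,7533⟩]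
def T23_8D : ℕ := 15552
theorem T23_8_ok : checkId T23_8D 2 3 8 12 T23_8 = true := by decide +kernel

def T23_9 : List TE := [⟨0,1,2,0,0,3,8273664,0⟩, ⟨0,1,2,0,4,0,0,350208⟩, ⟨0,1,2,1,2,1,2923776,0⟩, ⟨0,1,2,2,0,2,0,8491392⟩, ⟨0,1,2,3,2,0,0,1767744⟩, ⟨0,1,2,4,0,1,2787696,0⟩, ⟨0,1,2,6,0,0,0,279936⟩, ⟨1,3,0,0,0,3,0,525312⟩, ⟨1,3,0,0,4,0,349568,0⟩, ⟨1,3,0,1,2,1,141696,0⟩, ⟨1,3,0,2,0,2,0,269568⟩, ⟨1,3,0,3,2,0,105696,0⟩, ⟨1,3,0,4,0,1,300672,0⟩, ⟨1,3,0,6,0,0,0,46656⟩, ⟨2,1,1,0,0,3,0,7247232⟩, ⟨2,1,1,0,4,0,0,213120⟩, ⟨2,1,1,1,2,1,0,559872⟩, ⟨2,1,1,2,0,2,10590912,0⟩, ⟨2,1,1,3,2,0,476928,0⟩, ⟨2,1,1,4,0,1,0,4589784⟩, ⟨2,1,1,6,0,0,559872,0⟩, ⟨4,1,0,0,0,3,1605744,0⟩, ⟨4,1,0,0,4,0,141984,0⟩,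 ⟨4,1,0,1,2,1,0,540432⟩, ⟨4,1,0,2,0,2,0,3143448⟩, ⟨4,1,0,3,2,0,312660,0⟩, ⟨4,1,0,4,0,1,1614735,0⟩, ⟨4,1,0,6,0,0,0,215784⟩]
def T23_9D : ℕ := 11664
theorem T23_9_ok : checkId T23_9D 2 3 9 13 T23_9 = true := by decide +kernel

def T23_10 : List TE := [⟨0,0,3,0,3,1,0,21620736⟩, ⟨0,0,3,1,1,2,206032896,0⟩, ⟨0,0,3,2,3,0,0,290304⟩, ⟨0,0,3,3,1,1,0,180154368⟩, ⟨0,0,3,5,1,0,39626496,0⟩, ⟨0,4,0,0,3,1,13038592,0⟩, ⟨0,4,0,1,1,2,0,21814272⟩, ⟨0,4,0,2,3,0,0,2533632⟩, ⟨0,4,0,3,1,1,12888576,0⟩, ⟨0,4,0,5,1,0,0,1582272⟩, ⟨1,2,1,0,3,1,25942272,0⟩, ⟨1,2,1,1,1,2,107267328,0⟩, ⟨1,2,1,2,3,0,0,11241792⟩, ⟨1,2,1,3,1,1,0,82076544⟩, ⟨1,2,1,5,1,0,12778128,0⟩, ⟨2,0,2,0,3,1,6227712,0⟩, ⟨2,0,2,1,1,2,0,119999232⟩,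 ⟨2,0,2,2,3,0,0,15152832⟩, ⟨2,0,2,3,1,1,170418816,0⟩, ⟨2,0,2,5,1,0,0,53767152⟩, ⟨3,2,0,0,3,1,0,16673088⟩, ⟨3,2,0,1,1,2,0,67770432⟩, ⟨3,2,0,2,3,0,15237648,0⟩, ⟨3,2,0,3,1,1,48288096,0⟩, ⟨3,2,0,5,1,0,0,6540372⟩, ⟨4,0,1,0,3,1,5951232,0⟩, ⟨4,0,1,1,1,2,0,1959552⟩, ⟨4,0,1,2,3,0,6205248,0⟩, ⟨4,0,1,3,1,1,0,38211264⟩, ⟨4,0,1,5,1,0,19473048,0⟩, ⟨6,0,0,0,3,1,0,1746576⟩, ⟨6,0,0,1,1,2,6636816,0⟩, ⟨6,0,0,2,3,0,0,340524⟩, ⟨6,0,0,3,1,1,0,1082808⟩, ⟨6,0,0,5,1,0,0,1170531⟩]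
def T23_10D : ℕ := 186624
theorem T23_10_ok : checkId T23_10D 2 3 10 14 T23_10 = true := by decide +kernel

def T23_11 : List TE := [⟨0,3,1,0,2,2,205396992,0⟩, ⟨0,3,1,1,0,3,0,113508864⟩, ⟨0,3,1,1,4,0,17020672,0⟩, ⟨0,3,1,2,2,1,0,183247488⟩, ⟨0,3,1,3,0,2,117739008,0⟩, ⟨0,3,1,4,2,0,35526240,0⟩, ⟨0,3,1,5,0,1,0,37742112⟩, ⟨0,3,1,7,0,0,3746736,0⟩, ⟨1,1,2,0,2,2,248997888,0⟩, ⟨1,1,2,1,0,3,734178816,0⟩, ⟨1,1,2,1,4,0,0,74163456⟩, ⟨1,1,2,2,2,1,0,25681536⟩, ⟨1,1,2,3,0,2,0,772250112⟩, ⟨1,1,2,4,2,0,0,60619104⟩, ⟨1,1,2,5,0,1,260130528,0⟩, ⟨1,1,2,7,0,0,0,27305424⟩, ⟨2,3,0,0,2,2,0,137325312⟩, ⟨2,3,0,1,0,3,20539008,0⟩, ⟨2,3,0,1,4,0,18063680,0⟩, ⟨2,3,0,2,2,1,105253920,0⟩, ⟨2,3,0,3,0,2,0,50461056⟩,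 ⟨2,3,0,4,2,0,0,11289528⟩, ⟨2,3,0,5,0,1,23854824,0⟩, ⟨2,3,0,7,0,0,0,3001212⟩, ⟨3,1,1,0,2,2,0,221128704⟩, ⟨3,1,1,1,0,3,0,641426688⟩, ⟨3,1,1,1,4,0,27508608,0⟩, ⟨3,1,1,2,2,1,130673088,0⟩, ⟨3,1,1,3,0,2,772436736,0⟩, ⟨3,1,1,4,2,0,0,2077488⟩, ⟨3,1,1,5,0,1,0,293711184⟩, ⟨3,1,1,7,0,0,33773112,0⟩, ⟨5,1,0,0,2,2,51746688,0⟩, ⟨5,1,0,1,0,3,140597856,0⟩, ⟨5,1,0,1,4,0,914544,0⟩, ⟨5,1,0,2,2,1,0,62270856⟩, ⟨5,1,0,3,0,2,0,193365792⟩, ⟨5,1,0,4,2,0,18512226,0⟩, ⟨5,1,0,5,0,1,81943974,0⟩, ⟨5,1,0,7,0,0,0,10119249⟩]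
def T23_11D : ℕ := 279936
theorem T23_11_ok : checkId T23_11D 2 3 11 15 T23_11 = true := by decide +kernel

def T33_8 : List TE := [⟨0,1,2,0,1,2,23908608,0⟩, ⟨0,1,2,1,3,0,0,2082816⟩, ⟨0,1,2,2,1,1,0,16723584⟩, ⟨0,1,2,4,1,0,2541456,0⟩, ⟨1,3,0,0,1,2,0,2082816⟩, ⟨1,3,0,1,3,0,2145664,0⟩, ⟨1,3,0,2,1,1,0,415872⟩, ⟨1,3,0,4,1,0,429984,0⟩, ⟨2,1,1,0,1,2,0,16723584⟩, ⟨2,1,1,1,3,0,0,415872⟩, ⟨2,1,1,2,1,1,20813760,0⟩, ⟨2,1,1,4,1,0,0,5848200⟩, ⟨4,1,0,0,1,2,2541456,0⟩, ⟨4,1,0,1,3,0,429984,0⟩, ⟨4,1,0,2,1,1,0,5848200⟩, ⟨4,1,0,4,1,0,2346489,0⟩]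
def T33_8D : ℕ := 46656
theorem T33_8_ok : checkId T33_8D 3 3 8 12 T33_8 = true := by decide +kernel

def T33_9 : List TE := [⟨0,0,3,0,0,3,47962368,0⟩, ⟨0,0,3,0,4,0,915840,0⟩, ⟨0,0,3,1,2,1,0,10870848⟩, ⟨0,0,3,2,0,2,0,45069696⟩, ⟨0,0,3,3,2,0,4288464,0⟩, ⟨0,0,3,4,0,1,12842064,0⟩, ⟨0,0,3,6,0,0,0,1049760⟩, ⟨0,4,0,0,0,3,915840,0⟩, ⟨0,4,0,0,4,0,1325120,0⟩, ⟨0,4,0,1,2,1,0,2105568⟩, ⟨0,4,0,2,0,2,0,1124928⟩, ⟨0,4,0,3,2,0,844632,0⟩, ⟨0,4,0,4,0,1,450360,0⟩, ⟨0,4,0,6,0,0,0,58320⟩, ⟨1,2,1,0,0,3,0,10870848⟩, ⟨1,2,1,0,4,0,0,2105568⟩, ⟨1,2,1,1,2,1,24246864,0⟩, ⟨1,2,1,2,0,2,8281440,0⟩, ⟨1,2,1,3,2,0,0,11591748⟩, ⟨1,2,1,4,0,1,0,1880820⟩, ⟨1,2,1,6,0,0,145800,0⟩, ⟨2,0,2,0,0,3,0,45069696⟩, ⟨2,0,2,0,4,0,0,1124928⟩,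 ⟨2,0,2,1,2,1,8281440,0⟩, ⟨2,0,2,2,0,2,64245312,0⟩, ⟨2,0,2,3,2,0,0,5639544⟩, ⟨2,0,2,4,0,1,0,26821368⟩, ⟨2,0,2,6,0,0,3254256,0⟩, ⟨3,2,0,0,0,3,4288464,0⟩, ⟨3,2,0,0,4,0,844632,0⟩, ⟨3,2,0,1,2,1,0,11591748⟩, ⟨3,2,0,2,0,2,0,5639544⟩, ⟨3,2,0,3,2,0,7068141,0⟩, ⟨3,2,0,4,0,1,1925289,0⟩, ⟨3,2,0,6,0,0,0,193914⟩, ⟨4,0,1,0,0,3,12842064,0⟩, ⟨4,0,1,0,4,0,450360,0⟩, ⟨4,0,1,1,2,1,0,1880820⟩, ⟨4,0,1,2,0,2,0,26821368⟩, ⟨4,0,1,3,2,0,1925289,0⟩, ⟨4,0,1,4,0,1,14283297,0⟩, ⟨4,0,1,6,0,0,0,2112642⟩, ⟨6,0,0,0,0,3,0,1049760⟩, ⟨6,0,0,0,4,0,0,58320⟩, ⟨6,0,0,1,2,1,145800,0⟩, ⟨6,0,0,2,0,2,3254256,0⟩, ⟨6,0,0,3,2,0,0,193914⟩, ⟨6,0,0,4,0,1,0,2112642⟩, ⟨6,0,0,6,0,0,376164,0⟩]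
def T33_9D : ℕ := 46656
theorem T33_9_ok : checkId T33_9D 3 3 9 13 T33_9 = true := by decide +kernel

def T33_10 : List TE := [⟨0,3,1,0,3,1,59739904,0⟩, ⟨0,3,1,1,1,2,0,27143424⟩, ⟨0,3,1,2,3,0,0,28618944⟩, ⟨0,3,1,3,1,1,16762752,0⟩, ⟨0,3,1,5,1,0,0,2010384⟩, ⟨1,1,2,0,3,1,0,27143424⟩, ⟨1,1,2,1,1,2,425689344,0⟩, ⟨1,1,2,2,3,0,0,23426496⟩, ⟨1,1,2,3,1,1,0,320153472⟩, ⟨1,1,2,5,1,0,57165264,0⟩, ⟨2,3,0,0,3,1,0,28618944⟩, ⟨2,3,0,1,1,2,0,23426496⟩, ⟨2,3,0,2,3,0,32133744,0⟩, ⟨2,3,0,3,1,1,3323808,0⟩, ⟨2,3,0,5,1,0,1825524,0⟩, ⟨3,1,1,0,3,1,16762752,0⟩, ⟨3,1,1,1,1,2,0,320153472⟩, ⟨3,1,1,2,3,0,3323808,0⟩, ⟨3,1,1,3,1,1,296986176,0⟩, ⟨3,1,1,5,1,0,0,67922712⟩, ⟨5,1,0,0,3,1,0,2010384⟩, ⟨5,1,0,1,1,2,57165264,0⟩,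 ⟨5,1,0,2,3,0,1825524,0⟩, ⟨5,1,0,3,1,1,0,67922712⟩, ⟨5,1,0,5,1,0,19768617,0⟩]
def T33_10D : ℕ := 186624
theorem T33_10_ok : checkId T33_10D 3 3 10 14 T33_10 = true := by decide +kernel

def T33_11 : List TE := [⟨0,2,2,0,2,2,14585287680,0⟩, ⟨0,2,2,1,0,3,0,567336960⟩, ⟨0,2,2,1,4,0,0,926913024⟩, ⟨0,2,2,2,2,1,0,11719365120⟩, ⟨0,2,2,3,0,2,131010048,0⟩, ⟨0,2,2,4,2,0,2286004032,0⟩, ⟨0,2,2,5,0,1,168521472,0⟩, ⟨0,2,2,7,0,0,0,46679328⟩, ⟨1,0,3,0,2,2,0,567336960⟩, ⟨1,0,3,1,0,3,34506031104,0⟩, ⟨1,0,3,1,4,0,843208704,0⟩, ⟨1,0,3,2,2,1,0,8172638208⟩, ⟨1,0,3,3,0,2,0,34922575872⟩, ⟨1,0,3,4,2,0,3634315776,0⟩, ⟨1,0,3,5,0,1,11179524096,0⟩, ⟨1,0,3,7,0,0,0,1124502912⟩, ⟨1,4,0,0,2,2,0,926913024⟩,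 ⟨1,4,0,1,0,3,843208704,0⟩, ⟨1,4,0,1,4,0,973839104,0⟩, ⟨1,4,0,2,2,1,0,986155776⟩, ⟨1,4,0,3,0,2,0,806692608⟩, ⟨1,4,0,4,2,0,559339488,0⟩, ⟨1,4,0,5,0,1,248355072,0⟩, ⟨1,4,0,7,0,0,0,25052976⟩, ⟨2,2,1,0,2,2,0,11719365120⟩, ⟨2,2,1,1,0,3,0,8172638208⟩, ⟨2,2,1,1,4,0,0,986155776⟩, ⟨2,2,1,2,2,1,19829235456,0⟩, ⟨2,2,1,3,0,2,7617058560,0⟩, ⟨2,2,1,4,2,0,0,6699358368⟩, ⟨2,2,1,5,0,1,0,2262722688⟩, ⟨2,2,1,7,0,0,222164208,0⟩, ⟨3,0,2,0,2,2,131010048,0⟩, ⟨3,0,2,1,0,3,0,34922575872⟩, ⟨3,0,2,1,4,0,0,806692608⟩, ⟨3,0,2,2,2,1,7617058560,0⟩, ⟨3,0,2,3,0,2,40016851200,0⟩, ⟨3,0,2,4,2,0,0,3766375584⟩, ⟨3,0,2,5,0,1,0,14548833792⟩, ⟨3,0,2,7,0,0,1658305872,0⟩, ⟨4,2,0,0,2,2,2286004032,0⟩, ⟨4,2,0,1,0,3,3634315776,0⟩,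 ⟨4,2,0,1,4,0,559339488,0⟩, ⟨4,2,0,2,2,1,0,6699358368⟩, ⟨4,2,0,3,0,2,0,3766375584⟩, ⟨4,2,0,4,2,0,2902292532,0⟩, ⟨4,2,0,5,0,1,1180338480,0⟩, ⟨4,2,0,7,0,0,0,115865802⟩, ⟨5,0,1,0,2,2,168521472,0⟩, ⟨5,0,1,1,0,3,11179524096,0⟩, ⟨5,0,1,1,4,0,248355072,0⟩, ⟨5,0,1,2,2,1,0,2262722688⟩, ⟨5,0,1,3,0,2,0,14548833792⟩, ⟨5,0,1,4,2,0,1180338480,0⟩, ⟨5,0,1,5,0,1,5999588352,0⟩, ⟨5,0,1,7,0,0,0,771993504⟩, ⟨7,0,0,0,2,2,0,46679328⟩, ⟨7,0,0,1,0,3,0,1124502912⟩, ⟨7,0,0,1,4,0,0,25052976⟩, ⟨7,0,0,2,2,1,222164208,0⟩, ⟨7,0,0,3,0,2,1658305872,0⟩, ⟨7,0,0,4,2,0,0,115865802⟩, ⟨7,0,0,5,0,1,0,771993504⟩, ⟨7,0,0,7,0,0,113013225,0⟩]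
def T33_11D : ℕ := 6718464
theorem T33_11_ok : checkId T33_11D 3 3 11 15 T33_11 = true := by decide +kernel

end Vale.Agent.helper4.Q4
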