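import Vale.Agent.helper4.Q4TreeM
import Vale.Agent.helper4.Q4Cert
import Vale.Agent.helper4.Q4G.FrChk
import Vale.Agent.helper4.Q4G.M0
import Vale.Agent.helper4.Q4G.M1
import Vale.Agent.helper4.Q4G.M2
import Vale.Agent.helper4.Q4G.M3
import Vale.Agent.helper4.Q4G.M4
import Vale.Agent.helper4.Q4G.M5
import Vale.Agent.helper4.Q4G.M6
import Vale.Agent.helper4.Q4G.M7
import Vale.Agent.helper4.Q4G.M8
import Vale.Agent.helper4.Q4G.M9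
import Vale.Agent.helper4.Q4G.M10
import Vale.Agent.helper4.Q4G.M11
import Vale.Agent.helper4.Q4G.M12
import Vale.Agent.helper4.Q4G.M13_0
import Vale.Agent.helper4.Q4G.M13_1
import Vale.Agent.helper4.Q4G.M14
import Vale.Agent.helper4.Q4G.M15
import Vale.Agent.helper4.Q4G.M16
import Vale.Agent.helper4.Q4G.M17
import Vale.Agent.helper4.Q4G.M18
import Vale.Agent.helper4.Q4G.M19
import Vale.Agent.helper4.Q4G.M20_0
import Vale.Agent.helper4.Q4G.M20_1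
import Vale.Agent.helper4.Q4G.M20_2
import Vale.Agent.helper4.Q4G.M21
import Vale.Agent.helper4.Q4G.M22
import Vale.Agent.helper4.Q4G.M23
import Vale.Agent.helper4.Q4G.M24
import Vale.Agent.helper4.Q4G.M25
import Vale.Agent.helper4.Q4G.M26_0
import Vale.Agent.helper4.Q4G.M26_1
import Vale.Agent.helper4.Q4G.M27
import Vale.Agent.helper4.Q4G.M28
import Vale.Agent.helper4.Q4G.M29
import Vale.Agent.helper4.Q4G.M30
import Vale.Agent.helper4.Q4G.M31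
import Vale.Agent.helper4.Q4G.M32
import Vale.Agent.helper4.Q4G.M33
import Vale.Agent.helper4.Q4G.M34
import Vale.Agent.helper4.Q4G.M35
import Vale.Agent.helper4.Q4G.M36
import Vale.Agent.helper4.Q4G.M37
import Vale.Agent.helper4.Q4G.M38
import Vale.Agent.helper4.Q4G.M39
import Vale.Agent.helper4.Q4G.M40
import Vale.Agent.helper4.Q4G.M41
import Vale.Agent.helper4.Q4G.M42
import Vale.Agent.helper4.Q4G.M43_0
import Vale.Agent.helper4.Q4G.M43_1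
import Vale.Agent.helper4.Q4G.M43_2
import Vale.Agent.helper4.Q4G.M44
import Vale.Agent.helper4.Q4G.M45
import Vale.Agent.helper4.Q4G.M46
import Vale.Agent.helper4.Q4G.M47
import Vale.Agent.helper4.Q4G.M48
import Vale.Agent.helper4.Q4G.M49
import Vale.Agent.helper4.Q4G.M50
import Vale.Agent.helper4.Q4G.M51
import Vale.Agent.helper4.Q4G.M52
import Vale.Agent.helper4.Q4G.M53
import Vale.Agent.helper4.Q4G.M54
import Vale.Agent.helper4.Q4G.M55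
import Vale.Agent.helper4.Q4G.M56
import Vale.Agent.helper4.Q4G.M57
import Vale.Agent.helper4.Q4G.M58
import Vale.Agent.helper4.Q4G.M59
import Vale.Agent.helper4.Q4G.M60
import Vale.Agent.helper4.Q4G.M61
import Vale.Agent.helper4.Q4G.M62
import Vale.Agent.helper4.Q4G.M63
import Vale.Agent.helper4.Q4G.M64
import Vale.Agent.helper4.Q4G.M65
import Vale.Agent.helper4.Q4G.M66_0
import Vale.Agent.helper4.Q4G.M66_1
import Vale.Agent.helper4.Q4G.M66_2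
import Vale.Agent.helper4.Q4G.M66_3
import Vale.Agent.helper4.Q4G.M67
import Vale.Agent.helper4.Q4G.M68
import Vale.Agent.helper4.Q4G.M69
import Vale.Agent.helper4.Q4G.M70
import Vale.Agent.helper4.Q4G.M71
import Vale.Agent.helper4.Q4G.M72_0_0
import Vale.Agent.helper4.Q4G.M72_0_1
import Vale.Agent.helper4.Q4G.M72_0_2
import Vale.Agent.helper4.Q4G.M72_0_3
import Vale.Agent.helper4.Q4G.M72_0_4
import Vale.Agent.helper4.Q4G.M72_1_0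
import Vale.Agent.helper4.Q4G.M72_1_1
import Vale.Agent.helper4.Q4G.M72_1_2
import Vale.Agent.helper4.Q4G.M72_1_3
import Vale.Agent.helper4.Q4G.M72_1_4
import Vale.Agent.helper4.Q4G.M72_2_0
import Vale.Agent.helper4.Q4G.M72_2_1
import Vale.Agent.helper4.Q4G.M72_2_2
import Vale.Agent.helper4.Q4G.M72_2_3
import Vale.Agent.helper4.Q4G.M72_2_4
import Vale.Agent.helper4.Q4G.M72_3
import Vale.Agent.helper4.Q4G.M73_0_0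
import Vale.Agent.helper4.Q4G.M73_0_1
import Vale.Agent.helper4.Q4G.M73_0_2
import Vale.Agent.helper4.Q4G.M73_0_3
import Vale.Agent.helper4.Q4G.M73_0_4
import Vale.Agent.helper4.Q4G.M73_1_0
import Vale.Agent.helper4.Q4G.M73_1_1
import Vale.Agent.helper4.Q4G.M73_1_2
import Vale.Agent.helper4.Q4G.M73_1_3
import Vale.Agent.helper4.Q4G.M73_1_4
import Vale.Agent.helper4.Q4G.M73_2_0
import Vale.Agent.helper4.Q4G.M73_2_1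
import Vale.Agent.helper4.Q4G.M73_2_2
import Vale.Agent.helper4.Q4G.M73_2_3
import Vale.Agent.helper4.Q4G.M73_2_4
import Vale.Agent.helper4.Q4G.M73_3_0
import Vale.Agent.helper4.Q4G.M73_3_1
import Vale.Agent.helper4.Q4G.M73_3_2
import Vale.Agent.helper4.Q4G.M73_3_3
import Vale.Agent.helper4.Q4G.M73_3_4
import Vale.Agent.helper4.Q4G.M73_4
import Vale.Agent.helper4.Q4G.M73_5
import Vale.Agent.helper4.Q4G.M74
import Vale.Agent.helper4.Q4G.PcB17_8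
import Vale.Agent.helper4.Q4G.PcB18_8
import Vale.Agent.helper4.Q4G.PcB18_9
import Vale.Agent.helper4.Q4G.PcB17_7
import Vale.Agent.helper4.Q4G.PcB17_9
import Vale.Agent.helper4.Q4G.PcB16_8
import Vale.Agent.helper4.Q4G.PcB19_10
import Vale.Agent.helper4.Q4G.PcB16_7
import Vale.Agent.helper4.Q4G.PcB19_8
import Vale.Agent.helper4.Q4G.PcB18_10
import Vale.Agent.helper4.Q4G.PcB17_10
import Vale.Agent.helper4.Q4G.PcB17_11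
import Vale.Agent.helper4.Q4G.PcB16_9
import Vale.Agent.helper4.Q4G.PcB20_7
import Vale.Agent.helper4.Q4G.PcB18_11
import Vale.Agent.helper4.Q4G.PcB18_7
import Vale.Agent.helper4.Q4G.PcB19_9
import Vale.Agent.helper4.Q4G.PcB16_10
import Vale.Agent.helper4.Q4G.PcB20_8
import Vale.Agent.helper4.Q4G.PcB21_8
import Vale.Agent.helper4.Q4G.PcB19_12
import Vale.Agent.helper4.Q4G.PcB21_10
import Vale.Agent.helper4.Q4G.PcB17_13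
import Vale.Agent.helper4.Q4G.PcB19_11
import Vale.Agent.helper4.Q4G.PcB21_9
import Vale.Agent.helper4.Q4G.PcB15_8
import Vale.Agent.helper4.Q4G.PcB20_9
import Vale.Agent.helper4.Q4G.PcB19_13
import Vale.Agent.helper4.Q4G.PcB18_12
import Vale.Agent.helper4.Q4G.PcB21_7
import Vale.Agent.helper4.Q4G.PcB17_12
import Vale.Agent.helper4.Q4G.PcB20_10
import Vale.Agent.helper4.Q4G.PcB15_7
import Vale.Agent.helper4.Q4G.PcB16_6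
import Vale.Agent.helper4.Q4G.PcB17_6
import Vale.Agent.helper4.Q4G.PcB16_11
import Vale.Agent.helper4.Q4G.PcB15_9
import Vale.Agent.helper4.Q4G.PcB20_11
import Vale.Agent.helper4.Q4G.PcB21_11
import Vale.Agent.helper4.Q4G.PcB16_12
import Vale.Agent.helper4.Q4G.PcA23_16
import Vale.Agent.helper4.Q4G.PcB18_13
import Vale.Agent.helper4.Q4G.PcB14_8
import Vale.Agent.helper4.Q4G.PcB20_12
import Vale.Agent.helper4.Q4G.PcB20_13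
import Vale.Agent.helper4.Q4G.PcB21_13
import Vale.Agent.helper4.Q4G.PcB15_10
import Vale.Agent.helper4.Q4G.PcB21_12
import Vale.Agent.helper4.Q4G.PcB14_7
import Vale.Agent.helper4.Q4G.PcA22_16
import Vale.Agent.helper4.Q4G.PcB19_7
import Vale.Agent.helper4.Q4G.PcB18_6
import Vale.Agent.helper4.Q4G.PcB17_5
import Vale.Agent.helper4.Q4G.PcA22_15
import Vale.Agent.helper4.Q4G.PcB14_9
import Vale.Agent.helper4.Q4G.PcB15_6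
import Vale.Agent.helper4.Q4G.PcB16_5
import Vale.Agent.helper4.Q4G.PcA22_18
import Vale.Agent.helper4.Q4G.PcB13_9
import Vale.Agent.helper4.Q4G.PcB18_14
import Vale.Agent.helper4.Q4G.PcB19_14
import Vale.Agent.helper4.Q4G.PcB14_6
import Vale.Agent.helper4.Q4G.PcB13_8
import Vale.Agent.helper4.Q4G.PcB13_10
import Vale.Agent.helper4.Q4G.PcA23_15
import Vale.Agent.helper4.Q4G.PcB15_11
import Vale.Agent.helper4.Q4G.PcB21_6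
import Vale.Agent.helper4.Q4G.PcB19_6
import Vale.Agent.helper4.Q4G.PcB15_5
import Vale.Agent.helper4.Q4G.PcB18_5
import Vale.Agent.helper4.Q4G.PcB13_7
import Vale.Agent.helper4.Q4G.PcA23_17
import Vale.Agent.helper4.Q4G.PcB13_6
import Vale.Agent.helper4.Q4G.PcB20_14
import Vale.Agent.helper4.Q4G.PcB16_13
import Vale.Agent.helper4.Q4G.PcA22_14
import Vale.Agent.helper4.Q4G.PcB12_15
import Vale.Agent.helper4.Q4G.PcA23_18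
import Vale.Agent.helper4.Q4G.PcB17_3
import Vale.Agent.helper4.Q4G.PcB20_6
import Vale.Agent.helper4.Q4G.PcB21_15
import Vale.Agent.helper4.Q4G.PcB17_15

/-!
The inequalities for all pairs of messages, from the checks on pairs of intervals of second moments.
-/

set_option linter.unusedSectionVars false
set_option linter.unusedVariables false
set_option maxRecDepth 100000

namespace Vale.Agent.helper4.Q4

open GW (ZZ uu xx Simp)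
open FN


lemma mem_of {l h D : ℕ} {a b x : ℝ} (hD : (0 : ℝ) < D) (h1 : a ≤ x) (h2 : x < b) (ha : (l : ℝ) = a * D) (hb : (h : ℝ) = b * D) :
    Iv.mem ⟨l, h, D⟩ x := by
  constructor
  · show (l : ℝ) ≤ x * D
    rw [ha]
    exact mul_le_mul_of_nonneg_right h1 hD.le
  · show x * D < (h : ℝ)
    rw [hb]
    exact mul_lt_mul_of_pos_right h2 hD

lemma muQ_pos : 0 < muQ.val := by norm_num [muQ, QQ.val]

lemma muQ_lt : muQ.val < 1 := by norm_num [muQ, QQ.val]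

lemma binX1 {x : ℝ} (h0 : 0 ≤ x) (h1 : x < (3073 / 1024 : ℝ)) :
    Iv.mem ⟨0,1,16384⟩ x ∨ Iv.mem ⟨1,4,16384⟩ x ∨ Iv.mem ⟨1,4,4096⟩ x ∨ Iv.mem ⟨1,4,1024⟩ x ∨ Iv.mem ⟨1,4,256⟩ x ∨ Iv.mem ⟨1,2,64⟩ x ∨ Iv.mem ⟨1,2,32⟩ x ∨ Iv.mem ⟨2,3,32⟩ x ∨ Iv.mem ⟨3,4,32⟩ x ∨ Iv.mem ⟨2,3,16⟩ x ∨ Iv.mem ⟨3,4,16⟩ x ∨ Iv.mem ⟨2,3,8⟩ x ∨ Iv.mem ⟨3,4,8⟩ x ∨ Iv.mem ⟨4,5,8⟩ x ∨ Iv.mem ⟨5,6,8⟩ x ∨ Iv.mem ⟨3,4,4⟩ x ∨ Iv.mem ⟨4,5,4⟩ x ∨ Iv.mem ⟨5,6,4⟩ x ∨ Iv.mem ⟨6,7,4⟩ x ∨ Iv.mem ⟨7,8,4⟩ x ∨ Iv.mem ⟨8,9,4⟩ x ∨ Iv.mem ⟨9,10,4⟩ x ∨ Iv.mem ⟨10,11,4⟩ x ∨ Iv.mem ⟨2816,3073,1024⟩ x := by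
  by_cases a0 : x < (1 / 16384 : ℝ)
  · left; exact mem_of (by norm_num) (h0) a0 (by norm_num) (by norm_num)
  right; push Not at a0
  by_cases a1 : x < (1 / 4096 : ℝ)
  · left; exact mem_of (by norm_num) (a0) a1 (by norm_num) (by norm_num)
  right; push Not at a1
  by_cases a2 : x < (1 / 1024 : ℝ)
  · left; exact mem_of (by norm_num) (a1) a2 (by norm_num) (by norm_num)
  right; push Not at a2
  by_cases a3 : x < (1 / 256 : ℝ)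
  · left; exact mem_of (by norm_num) (a2) a3 (by norm_num) (by norm_num)
  right; push Not at a3
  by_cases a4 : x < (1 / 64 : ℝ)
  · left; exact mem_of (by norm_num) (a3) a4 (by norm_num) (by norm_num)
  right; push Not at a4
  by_cases a5 : x < (1 / 32 : ℝ)
  · left; exact mem_of (by norm_num) (a4) a5 (by norm_num) (by norm_num)
  right; push Not at a5
  by_cases a6 : x < (1 / 16 : ℝ)
  · left; exact mem_of (by norm_num) (a5) a6 (by norm_num) (by norm_num)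
  right; push Not at a6
  by_cases a7 : x < (3 / 32 : ℝ)
  · left; exact mem_of (by norm_num) (a6) a7 (by norm_num) (by norm_num)
  right; push Not at a7
  by_cases a8 : x < (1 / 8 : ℝ)
  · left; exact mem_of (by norm_num) (a7) a8 (by norm_num) (by norm_num)
  right; push Not at a8
  by_cases a9 : x < (3 / 16 : ℝ)
  · left; exact mem_of (by norm_num) (a8) a9 (by norm_num) (by norm_num)
  right; push Not at a9
  by_cases a10 : x < (1 / 4 : ℝ)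
  · left; exact mem_of (by norm_num) (a9) a10 (by norm_num) (by norm_num)
  right; push Not at a10
  by_cases a11 : x < (3 / 8 : ℝ)
  · left; exact mem_of (by norm_num) (a10) a11 (by norm_num) (by norm_num)
  right; push Not at a11
  by_cases a12 : x < (1 / 2 : ℝ)
  · left; exact mem_of (by norm_num) (a11) a12 (by norm_num) (by norm_num)
  right; push Not at a12
  by_cases a13 : x < (5 / 8 : ℝ)
  · left; exact mem_of (by norm_num) (a12) a13 (by norm_num) (by norm_num)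
  right; push Not at a13
  by_cases a14 : x < (3 / 4 : ℝ)
  · left; exact mem_of (by norm_num) (a13) a14 (by norm_num) (by norm_num)
  right; push Not at a14
  by_cases a15 : x < (1 / 1 : ℝ)
  · left; exact mem_of (by norm_num) (a14) a15 (by norm_num) (by norm_num)
  right; push Not at a15
  by_cases a16 : x < (5 / 4 : ℝ)
  · left; exact mem_of (by norm_num) (a15) a16 (by norm_num) (by norm_num)
  right; push Not at a16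
  by_cases a17 : x < (3 / 2 : ℝ)
  · left; exact mem_of (by norm_num) (a16) a17 (by norm_num) (by norm_num)
  right; push Not at a17
  by_cases a18 : x < (7 / 4 : ℝ)
  · left; exact mem_of (by norm_num) (a17) a18 (by norm_num) (by norm_num)
  right; push Not at a18
  by_cases a19 : x < (2 / 1 : ℝ)
  · left; exact mem_of (by norm_num) (a18) a19 (by norm_num) (by norm_num)
  right; push Not at a19
  by_cases a20 : x < (9 / 4 : ℝ)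
  · left; exact mem_of (by norm_num) (a19) a20 (by norm_num) (by norm_num)
  right; push Not at a20
  by_cases a21 : x < (5 / 2 : ℝ)
  · left; exact mem_of (by norm_num) (a20) a21 (by norm_num) (by norm_num)
  right; push Not at a21
  by_cases a22 : x < (11 / 4 : ℝ)
  · left; exact mem_of (by norm_num) (a21) a22 (by norm_num) (by norm_num)
  right; push Not at a22
  exact mem_of (by norm_num) (a22) h1 (by norm_num) (by norm_num)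

lemma binA1 {x : ℝ} (h0 : 0 ≤ x) (h1 : x < (1541 / 1024 : ℝ)) :
    Iv.mem ⟨0,1,16384⟩ x ∨ Iv.mem ⟨1,4,16384⟩ x ∨ Iv.mem ⟨1,4,4096⟩ x ∨ Iv.mem ⟨1,4,1024⟩ x ∨ Iv.mem ⟨1,4,256⟩ x ∨ Iv.mem ⟨1,2,64⟩ x ∨ Iv.mem ⟨1,2,32⟩ x ∨ Iv.mem ⟨2,3,32⟩ x ∨ Iv.mem ⟨3,4,32⟩ x ∨ Iv.mem ⟨2,3,16⟩ x ∨ Iv.mem ⟨3,4,16⟩ x ∨ Iv.mem ⟨2,3,8⟩ x ∨ Iv.mem ⟨3,4,8⟩ x ∨ Iv.mem ⟨4,5,8⟩ x ∨ Iv.mem ⟨5,6,8⟩ x ∨ Iv.mem ⟨3,4,4⟩ x ∨ Iv.mem ⟨4,5,4⟩ x ∨ Iv.mem ⟨10,11,8⟩ x ∨ Iv.mem ⟨1408,1541,1024⟩ x := by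
  by_cases a0 : x < (1 / 16384 : ℝ)
  · left; exact mem_of (by norm_num) (h0) a0 (by norm_num) (by norm_num)
  right; push Not at a0
  by_cases a1 : x < (1 / 4096 : ℝ)
  · left; exact mem_of (by norm_num) (a0) a1 (by norm_num) (by norm_num)
  right; push Not at a1
  by_cases a2 : x < (1 / 1024 : ℝ)
  · left; exact mem_of (by norm_num) (a1) a2 (by norm_num) (by norm_num)
  right; push Not at a2
  by_cases a3 : x < (1 / 256 : ℝ)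
  · left; exact mem_of (by norm_num) (a2) a3 (by norm_num) (by norm_num)
  right; push Not at a3
  by_cases a4 : x < (1 / 64 : ℝ)
  · left; exact mem_of (by norm_num) (a3) a4 (by norm_num) (by norm_num)
  right; push Not at a4
  by_cases a5 : x < (1 / 32 : ℝ)
  · left; exact mem_of (by norm_num) (a4) a5 (by norm_num) (by norm_num)
  right; push Not at a5
  by_cases a6 : x < (1 / 16 : ℝ)
  · left; exact mem_of (by norm_num) (a5) a6 (by norm_num) (by norm_num)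
  right; push Not at a6
  by_cases a7 : x < (3 / 32 : ℝ)
  · left; exact mem_of (by norm_num) (a6) a7 (by norm_num) (by norm_num)
  right; push Not at a7
  by_cases a8 : x < (1 / 8 : ℝ)
  · left; exact mem_of (by norm_num) (a7) a8 (by norm_num) (by norm_num)
  right; push Not at a8
  by_cases a9 : x < (3 / 16 : ℝ)
  · left; exact mem_of (by norm_num) (a8) a9 (by norm_num) (by norm_num)
  right; push Not at a9
  by_cases a10 : x < (1 / 4 : ℝ)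
  · left; exact mem_of (by norm_num) (a9) a10 (by norm_num) (by norm_num)
  right; push Not at a10
  by_cases a11 : x < (3 / 8 : ℝ)
  · left; exact mem_of (by norm_num) (a10) a11 (by norm_num) (by norm_num)
  right; push Not at a11
  by_cases a12 : x < (1 / 2 : ℝ)
  · left; exact mem_of (by norm_num) (a11) a12 (by norm_num) (by norm_num)
  right; push Not at a12
  by_cases a13 : x < (5 / 8 : ℝ)
  · left; exact mem_of (by norm_num) (a12) a13 (by norm_num) (by norm_num)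
  right; push Not at a13
  by_cases a14 : x < (3 / 4 : ℝ)
  · left; exact mem_of (by norm_num) (a13) a14 (by norm_num) (by norm_num)
  right; push Not at a14
  by_cases a15 : x < (1 / 1 : ℝ)
  · left; exact mem_of (by norm_num) (a14) a15 (by norm_num) (by norm_num)
  right; push Not at a15
  by_cases a16 : x < (5 / 4 : ℝ)
  · left; exact mem_of (by norm_num) (a15) a16 (by norm_num) (by norm_num)
  right; push Not at a16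
  by_cases a17 : x < (11 / 8 : ℝ)
  · left; exact mem_of (by norm_num) (a16) a17 (by norm_num) (by norm_num)
  right; push Not at a17
  exact mem_of (by norm_num) (a17) h1 (by norm_num) (by norm_num)

lemma binX2 {x : ℝ} (h0 : 0 ≤ x) (h1 : x < (3073 / 1024 : ℝ)) :
    Iv.mem ⟨0,1,64⟩ x ∨ Iv.mem ⟨1,2,64⟩ x ∨ Iv.mem ⟨1,2,32⟩ x ∨ Iv.mem ⟨1,2,16⟩ x ∨ Iv.mem ⟨2,3,16⟩ x ∨ Iv.mem ⟨3,4,16⟩ x ∨ Iv.mem ⟨2,3,8⟩ x ∨ Iv.mem ⟨3,4,8⟩ x ∨ Iv.mem ⟨4,5,8⟩ x ∨ Iv.mem ⟨5,6,8⟩ x ∨ Iv.mem ⟨6,7,8⟩ x ∨ Iv.mem ⟨7,8,8⟩ x ∨ Iv.mem ⟨8,9,8⟩ x ∨ Iv.mem ⟨9,10,8⟩ x ∨ Iv.mem ⟨10,11,8⟩ x ∨ Iv.mem ⟨11,12,8⟩ x ∨ Iv.mem ⟨6,7,4⟩ x ∨ Iv.mem ⟨7,8,4⟩ x ∨ Iv.mem ⟨8,9,4⟩ x ∨ Iv.mem ⟨9,10,4⟩ x ∨ Iv.mem ⟨10,11,4⟩ x ∨ Iv.mem ⟨2816,3073,1024⟩ x := by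
  by_cases a0 : x < (1 / 64 : ℝ)
  · left; exact mem_of (by norm_num) (h0) a0 (by norm_num) (by norm_num)
  right; push Not at a0
  by_cases a1 : x < (1 / 32 : ℝ)
  · left; exact mem_of (by norm_num) (a0) a1 (by norm_num) (by norm_num)
  right; push Not at a1
  by_cases a2 : x < (1 / 16 : ℝ)
  · left; exact mem_of (by norm_num) (a1) a2 (by norm_num) (by norm_num)
  right; push Not at a2
  by_cases a3 : x < (1 / 8 : ℝ)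
  · left; exact mem_of (by norm_num) (a2) a3 (by norm_num) (by norm_num)
  right; push Not at a3
  by_cases a4 : x < (3 / 16 : ℝ)
  · left; exact mem_of (by norm_num) (a3) a4 (by norm_num) (by norm_num)
  right; push Not at a4
  by_cases a5 : x < (1 / 4 : ℝ)
  · left; exact mem_of (by norm_num) (a4) a5 (by norm_num) (by norm_num)
  right; push Not at a5
  by_cases a6 : x < (3 / 8 : ℝ)
  · left; exact mem_of (by norm_num) (a5) a6 (by norm_num) (by norm_num)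
  right; push Not at a6
  by_cases a7 : x < (1 / 2 : ℝ)
  · left; exact mem_of (by norm_num) (a6) a7 (by norm_num) (by norm_num)
  right; push Not at a7
  by_cases a8 : x < (5 / 8 : ℝ)
  · left; exact mem_of (by norm_num) (a7) a8 (by norm_num) (by norm_num)
  right; push Not at a8
  by_cases a9 : x < (3 / 4 : ℝ)
  · left; exact mem_of (by norm_num) (a8) a9 (by norm_num) (by norm_num)
  right; push Not at a9
  by_cases a10 : x < (7 / 8 : ℝ)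
  · left; exact mem_of (by norm_num) (a9) a10 (by norm_num) (by norm_num)
  right; push Not at a10
  by_cases a11 : x < (1 / 1 : ℝ)
  · left; exact mem_of (by norm_num) (a10) a11 (by norm_num) (by norm_num)
  right; push Not at a11
  by_cases a12 : x < (9 / 8 : ℝ)
  · left; exact mem_of (by norm_num) (a11) a12 (by norm_num) (by norm_num)
  right; push Not at a12
  by_cases a13 : x < (5 / 4 : ℝ)
  · left; exact mem_of (by norm_num) (a12) a13 (by norm_num) (by norm_num)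
  right; push Not at a13
  by_cases a14 : x < (11 / 8 : ℝ)
  · left; exact mem_of (by norm_num) (a13) a14 (by norm_num) (by norm_num)
  right; push Not at a14
  by_cases a15 : x < (3 / 2 : ℝ)
  · left; exact mem_of (by norm_num) (a14) a15 (by norm_num) (by norm_num)
  right; push Not at a15
  by_cases a16 : x < (7 / 4 : ℝ)
  · left; exact mem_of (by norm_num) (a15) a16 (by norm_num) (by norm_num)
  right; push Not at a16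
  by_cases a17 : x < (2 / 1 : ℝ)
  · left; exact mem_of (by norm_num) (a16) a17 (by norm_num) (by norm_num)
  right; push Not at a17
  by_cases a18 : x < (9 / 4 : ℝ)
  · left; exact mem_of (by norm_num) (a17) a18 (by norm_num) (by norm_num)
  right; push Not at a18
  by_cases a19 : x < (5 / 2 : ℝ)
  · left; exact mem_of (by norm_num) (a18) a19 (by norm_num) (by norm_num)
  right; push Not at a19
  by_cases a20 : x < (11 / 4 : ℝ)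
  · left; exact mem_of (by norm_num) (a19) a20 (by norm_num) (by norm_num)
  right; push Not at a20
  exact mem_of (by norm_num) (a20) h1 (by norm_num) (by norm_num)

lemma binA2 {x : ℝ} (h0 : 0 ≤ x) (h1 : x < (1541 / 1024 : ℝ)) :
    Iv.mem ⟨0,1,64⟩ x ∨ Iv.mem ⟨1,2,64⟩ x ∨ Iv.mem ⟨1,2,32⟩ x ∨ Iv.mem ⟨1,2,16⟩ x ∨ Iv.mem ⟨2,3,16⟩ x ∨ Iv.mem ⟨3,4,16⟩ x ∨ Iv.mem ⟨2,3,8⟩ x ∨ Iv.mem ⟨3,4,8⟩ x ∨ Iv.mem ⟨4,5,8⟩ x ∨ Iv.mem ⟨5,6,8⟩ x ∨ Iv.mem ⟨6,7,8⟩ x ∨ Iv.mem ⟨7,8,8⟩ x ∨ Iv.mem ⟨8,9,8⟩ x ∨ Iv.mem ⟨9,10,8⟩ x ∨ Iv.mem ⟨10,11,8⟩ x ∨ Iv.mem ⟨1408,1541,1024⟩ x := by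
  by_cases a0 : x < (1 / 64 : ℝ)
  · left; exact mem_of (by norm_num) (h0) a0 (by norm_num) (by norm_num)
  right; push Not at a0
  by_cases a1 : x < (1 / 32 : ℝ)
  · left; exact mem_of (by norm_num) (a0) a1 (by norm_num) (by norm_num)
  right; push Not at a1
  by_cases a2 : x < (1 / 16 : ℝ)
  · left; exact mem_of (by norm_num) (a1) a2 (by norm_num) (by norm_num)
  right; push Not at a2
  by_cases a3 : x < (1 / 8 : ℝ)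
  · left; exact mem_of (by norm_num) (a2) a3 (by norm_num) (by norm_num)
  right; push Not at a3
  by_cases a4 : x < (3 / 16 : ℝ)
  · left; exact mem_of (by norm_num) (a3) a4 (by norm_num) (by norm_num)
  right; push Not at a4
  by_cases a5 : x < (1 / 4 : ℝ)
  · left; exact mem_of (by norm_num) (a4) a5 (by norm_num) (by norm_num)
  right; push Not at a5
  by_cases a6 : x < (3 / 8 : ℝ)
  · left; exact mem_of (by norm_num) (a5) a6 (by norm_num) (by norm_num)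
  right; push Not at a6
  by_cases a7 : x < (1 / 2 : ℝ)
  · left; exact mem_of (by norm_num) (a6) a7 (by norm_num) (by norm_num)
  right; push Not at a7
  by_cases a8 : x < (5 / 8 : ℝ)
  · left; exact mem_of (by norm_num) (a7) a8 (by norm_num) (by norm_num)
  right; push Not at a8
  by_cases a9 : x < (3 / 4 : ℝ)
  · left; exact mem_of (by norm_num) (a8) a9 (by norm_num) (by norm_num)
  right; push Not at a9
  by_cases a10 : x < (7 / 8 : ℝ)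
  · left; exact mem_of (by norm_num) (a9) a10 (by norm_num) (by norm_num)
  right; push Not at a10
  by_cases a11 : x < (1 / 1 : ℝ)
  · left; exact mem_of (by norm_num) (a10) a11 (by norm_num) (by norm_num)
  right; push Not at a11
  by_cases a12 : x < (9 / 8 : ℝ)
  · left; exact mem_of (by norm_num) (a11) a12 (by norm_num) (by norm_num)
  right; push Not at a12
  by_cases a13 : x < (5 / 4 : ℝ)
  · left; exact mem_of (by norm_num) (a12) a13 (by norm_num) (by norm_num)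
  right; push Not at a13
  by_cases a14 : x < (11 / 8 : ℝ)
  · left; exact mem_of (by norm_num) (a13) a14 (by norm_num) (by norm_num)
  right; push Not at a14
  exact mem_of (by norm_num) (a14) h1 (by norm_num) (by norm_num)

theorem r1row0 {c a : Fin 4 → ℝ} (hc : ∑ l, c l = 0) (ha : ∑ l, a l = 0) (hc1 : ∀ l, -1 < c l) (ha1 : ∀ l, -muQ.val ≤ a l)
    (hx : 0 < mom c 2) (hX : 0 < mom a 2) (hF0 : 0 ≤ Fr (mom c 2) (mom c 3) (mom c 4))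
    (hX0 : 0 ≤ mom a 2) (hX1 : mom a 2 < (1541 / 1024 : ℝ)) (m1 : Iv.mem ⟨0,1,16384⟩ (mom c 2)) :
    avgT a (fun b => ZZ c b * xx (uu c b)) ≤ mom c 2 + mom a 2 - 2 / 3 * mom a 2 * GG c
      - GG a * Fr (mom c 2) (mom c 3) (mom c 4) - mom c 2 ^ 2 * mom a 2 ^ 2 / dltD := by
  rcases binA1 hX0 hX1 with m2 | m2 | m2 | m2 | m2 | m2 | m2 | m2 | m2 | m2 | m2 | m2 | m2 | m2 | m2 | m2 | m2 | m2 | m2
  · exact R1_cell chkA0_0 covA0_0 muQ_pos muQ_lt hc ha hc1 ha1 hx hX m1 m2 hF0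
  · exact R1_cell chkA0_1 covA0_1 muQ_pos muQ_lt hc ha hc1 ha1 hx hX m1 m2 hF0
  · exact R1_cell chkA0_2 covA0_2 muQ_pos muQ_lt hc ha hc1 ha1 hx hX m1 m2 hF0
  · exact R1_cell chkA0_3 covA0_3 muQ_pos muQ_lt hc ha hc1 ha1 hx hX m1 m2 hF0
  · exact R1_cell chkA0_4 covA0_4 muQ_pos muQ_lt hc ha hc1 ha1 hx hX m1 m2 hF0
  · exact R1_cell chkA0_5 covA0_5 muQ_pos muQ_lt hc ha hc1 ha1 hx hX m1 m2 hF0
  · exact R1_cell chkA0_6 covA0_6 muQ_pos muQ_lt hc ha hc1 ha1 hx hX m1 m2 hF0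
  · exact R1_cell chkA0_7 covA0_7 muQ_pos muQ_lt hc ha hc1 ha1 hx hX m1 m2 hF0
  · exact R1_cell chkA0_8 covA0_8 muQ_pos muQ_lt hc ha hc1 ha1 hx hX m1 m2 hF0
  · exact R1_cell chkA0_9 covA0_9 muQ_pos muQ_lt hc ha hc1 ha1 hx hX m1 m2 hF0
  · exact R1_cell chkA0_10 covA0_10 muQ_pos muQ_lt hc ha hc1 ha1 hx hX m1 m2 hF0
  · exact R1_cell chkA0_11 covA0_11 muQ_pos muQ_lt hc ha hc1 ha1 hx hX m1 m2 hF0
  · exact R1_cell chkA0_12 covA0_12 muQ_pos muQ_lt hc ha hc1 ha1 hx hX m1 m2 hF0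
  · exact R1_cell chkA0_13 covA0_13 muQ_pos muQ_lt hc ha hc1 ha1 hx hX m1 m2 hF0
  · exact R1_cell chkA0_14 covA0_14 muQ_pos muQ_lt hc ha hc1 ha1 hx hX m1 m2 hF0
  · exact R1_cell chkA0_15 covA0_15 muQ_pos muQ_lt hc ha hc1 ha1 hx hX m1 m2 hF0
  · exact R1_cell chkA0_16 covA0_16 muQ_pos muQ_lt hc ha hc1 ha1 hx hX m1 m2 hF0
  · exact R1_cell chkA0_17 covA0_17 muQ_pos muQ_lt hc ha hc1 ha1 hx hX m1 m2 hF0
  · exact R1_cell chkA0_18 covA0_18 muQ_pos muQ_lt hc ha hc1 ha1 hx hX m1 m2 hF0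

theorem r1row1 {c a : Fin 4 → ℝ} (hc : ∑ l, c l = 0) (ha : ∑ l, a l = 0) (hc1 : ∀ l, -1 < c l) (ha1 : ∀ l, -muQ.val ≤ a l)
    (hx : 0 < mom c 2) (hX : 0 < mom a 2) (hF0 : 0 ≤ Fr (mom c 2) (mom c 3) (mom c 4))
    (hX0 : 0 ≤ mom a 2) (hX1 : mom a 2 < (1541 / 1024 : ℝ)) (m1 : Iv.mem ⟨1,4,16384⟩ (mom c 2)) :
    avgT a (fun b => ZZ c b * xx (uu c b)) ≤ mom c 2 + mom a 2 - 2 / 3 * mom a 2 * GG c
      - GG a * Fr (mom c 2) (mom c 3) (mom c 4) - mom c 2 ^ 2 * mom a 2 ^ 2 / dltD := by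
  rcases binA1 hX0 hX1 with m2 | m2 | m2 | m2 | m2 | m2 | m2 | m2 | m2 | m2 | m2 | m2 | m2 | m2 | m2 | m2 | m2 | m2 | m2
  · exact R1_cell chkA1_0 covA1_0 muQ_pos muQ_lt hc ha hc1 ha1 hx hX m1 m2 hF0
  · exact R1_cell chkA1_1 covA1_1 muQ_pos muQ_lt hc ha hc1 ha1 hx hX m1 m2 hF0
  · exact R1_cell chkA1_2 covA1_2 muQ_pos muQ_lt hc ha hc1 ha1 hx hX m1 m2 hF0
  · exact R1_cell chkA1_3 covA1_3 muQ_pos muQ_lt hc ha hc1 ha1 hx hX m1 m2 hF0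
  · exact R1_cell chkA1_4 covA1_4 muQ_pos muQ_lt hc ha hc1 ha1 hx hX m1 m2 hF0
  · exact R1_cell chkA1_5 covA1_5 muQ_pos muQ_lt hc ha hc1 ha1 hx hX m1 m2 hF0
  · exact R1_cell chkA1_6 covA1_6 muQ_pos muQ_lt hc ha hc1 ha1 hx hX m1 m2 hF0
  · exact R1_cell chkA1_7 covA1_7 muQ_pos muQ_lt hc ha hc1 ha1 hx hX m1 m2 hF0
  · exact R1_cell chkA1_8 covA1_8 muQ_pos muQ_lt hc ha hc1 ha1 hx hX m1 m2 hF0
  · exact R1_cell chkA1_9 covA1_9 muQ_pos muQ_lt hc ha hc1 ha1 hx hX m1 m2 hF0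
  · exact R1_cell chkA1_10 covA1_10 muQ_pos muQ_lt hc ha hc1 ha1 hx hX m1 m2 hF0
  · exact R1_cell chkA1_11 covA1_11 muQ_pos muQ_lt hc ha hc1 ha1 hx hX m1 m2 hF0
  · exact R1_cell chkA1_12 covA1_12 muQ_pos muQ_lt hc ha hc1 ha1 hx hX m1 m2 hF0
  · exact R1_cell chkA1_13 covA1_13 muQ_pos muQ_lt hc ha hc1 ha1 hx hX m1 m2 hF0
  · exact R1_cell chkA1_14 covA1_14 muQ_pos muQ_lt hc ha hc1 ha1 hx hX m1 m2 hF0
  · exact R1_cell chkA1_15 covA1_15 muQ_pos muQ_lt hc ha hc1 ha1 hx hX m1 m2 hF0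
  · exact R1_cell chkA1_16 covA1_16 muQ_pos muQ_lt hc ha hc1 ha1 hx hX m1 m2 hF0
  · exact R1_cell chkA1_17 covA1_17 muQ_pos muQ_lt hc ha hc1 ha1 hx hX m1 m2 hF0
  · exact R1_cell chkA1_18 covA1_18 muQ_pos muQ_lt hc ha hc1 ha1 hx hX m1 m2 hF0

theorem r1row2 {c a : Fin 4 → ℝ} (hc : ∑ l, c l = 0) (ha : ∑ l, a l = 0) (hc1 : ∀ l, -1 < c l) (ha1 : ∀ l, -muQ.val ≤ a l)
    (hx : 0 < mom c 2) (hX : 0 < mom a 2) (hF0 : 0 ≤ Fr (mom c 2) (mom c 3) (mom c 4))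
    (hX0 : 0 ≤ mom a 2) (hX1 : mom a 2 < (1541 / 1024 : ℝ)) (m1 : Iv.mem ⟨1,4,4096⟩ (mom c 2)) :
    avgT a (fun b => ZZ c b * xx (uu c b)) ≤ mom c 2 + mom a 2 - 2 / 3 * mom a 2 * GG c
      - GG a * Fr (mom c 2) (mom c 3) (mom c 4) - mom c 2 ^ 2 * mom a 2 ^ 2 / dltD := by
  rcases binA1 hX0 hX1 with m2 | m2 | m2 | m2 | m2 | m2 | m2 | m2 | m2 | m2 | m2 | m2 | m2 | m2 | m2 | m2 | m2 | m2 | m2
  · exact R1_cell chkA2_0 covA2_0 muQ_pos muQ_lt hc ha hc1 ha1 hx hX m1 m2 hF0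
  · exact R1_cell chkA2_1 covA2_1 muQ_pos muQ_lt hc ha hc1 ha1 hx hX m1 m2 hF0
  · exact R1_cell chkA2_2 covA2_2 muQ_pos muQ_lt hc ha hc1 ha1 hx hX m1 m2 hF0
  · exact R1_cell chkA2_3 covA2_3 muQ_pos muQ_lt hc ha hc1 ha1 hx hX m1 m2 hF0
  · exact R1_cell chkA2_4 covA2_4 muQ_pos muQ_lt hc ha hc1 ha1 hx hX m1 m2 hF0
  · exact R1_cell chkA2_5 covA2_5 muQ_pos muQ_lt hc ha hc1 ha1 hx hX m1 m2 hF0
  · exact R1_cell chkA2_6 covA2_6 muQ_pos muQ_lt hc ha hc1 ha1 hx hX m1 m2 hF0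
  · exact R1_cell chkA2_7 covA2_7 muQ_pos muQ_lt hc ha hc1 ha1 hx hX m1 m2 hF0
  · exact R1_cell chkA2_8 covA2_8 muQ_pos muQ_lt hc ha hc1 ha1 hx hX m1 m2 hF0
  · exact R1_cell chkA2_9 covA2_9 muQ_pos muQ_lt hc ha hc1 ha1 hx hX m1 m2 hF0
  · exact R1_cell chkA2_10 covA2_10 muQ_pos muQ_lt hc ha hc1 ha1 hx hX m1 m2 hF0
  · exact R1_cell chkA2_11 covA2_11 muQ_pos muQ_lt hc ha hc1 ha1 hx hX m1 m2 hF0
  · exact R1_cell chkA2_12 covA2_12 muQ_pos muQ_lt hc ha hc1 ha1 hx hX m1 m2 hF0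
  · exact R1_cell chkA2_13 covA2_13 muQ_pos muQ_lt hc ha hc1 ha1 hx hX m1 m2 hF0
  · exact R1_cell chkA2_14 covA2_14 muQ_pos muQ_lt hc ha hc1 ha1 hx hX m1 m2 hF0
  · exact R1_cell chkA2_15 covA2_15 muQ_pos muQ_lt hc ha hc1 ha1 hx hX m1 m2 hF0
  · exact R1_cell chkA2_16 covA2_16 muQ_pos muQ_lt hc ha hc1 ha1 hx hX m1 m2 hF0
  · exact R1_cell chkA2_17 covA2_17 muQ_pos muQ_lt hc ha hc1 ha1 hx hX m1 m2 hF0
  · exact R1_cell chkA2_18 covA2_18 muQ_pos muQ_lt hc ha hc1 ha1 hx hX m1 m2 hF0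

theorem r1row3 {c a : Fin 4 → ℝ} (hc : ∑ l, c l = 0) (ha : ∑ l, a l = 0) (hc1 : ∀ l, -1 < c l) (ha1 : ∀ l, -muQ.val ≤ a l)
    (hx : 0 < mom c 2) (hX : 0 < mom a 2) (hF0 : 0 ≤ Fr (mom c 2) (mom c 3) (mom c 4))
    (hX0 : 0 ≤ mom a 2) (hX1 : mom a 2 < (1541 / 1024 : ℝ)) (m1 : Iv.mem ⟨1,4,1024⟩ (mom c 2)) :
    avgT a (fun b => ZZ c b * xx (uu c b)) ≤ mom c 2 + mom a 2 - 2 / 3 * mom a 2 * GG c
      - GG a * Fr (mom c 2) (mom c 3) (mom c 4) - mom c 2 ^ 2 * mom a 2 ^ 2 / dltD := by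
  rcases binA1 hX0 hX1 with m2 | m2 | m2 | m2 | m2 | m2 | m2 | m2 | m2 | m2 | m2 | m2 | m2 | m2 | m2 | m2 | m2 | m2 | m2
  · exact R1_cell chkA3_0 covA3_0 muQ_pos muQ_lt hc ha hc1 ha1 hx hX m1 m2 hF0
  · exact R1_cell chkA3_1 covA3_1 muQ_pos muQ_lt hc ha hc1 ha1 hx hX m1 m2 hF0
  · exact R1_cell chkA3_2 covA3_2 muQ_pos muQ_lt hc ha hc1 ha1 hx hX m1 m2 hF0
  · exact R1_cell chkA3_3 covA3_3 muQ_pos muQ_lt hc ha hc1 ha1 hx hX m1 m2 hF0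
  · exact R1_cell chkA3_4 covA3_4 muQ_pos muQ_lt hc ha hc1 ha1 hx hX m1 m2 hF0
  · exact R1_cell chkA3_5 covA3_5 muQ_pos muQ_lt hc ha hc1 ha1 hx hX m1 m2 hF0
  · exact R1_cell chkA3_6 covA3_6 muQ_pos muQ_lt hc ha hc1 ha1 hx hX m1 m2 hF0
  · exact R1_cell chkA3_7 covA3_7 muQ_pos muQ_lt hc ha hc1 ha1 hx hX m1 m2 hF0
  · exact R1_cell chkA3_8 covA3_8 muQ_pos muQ_lt hc ha hc1 ha1 hx hX m1 m2 hF0
  · exact R1_cell chkA3_9 covA3_9 muQ_pos muQ_lt hc ha hc1 ha1 hx hX m1 m2 hF0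
  · exact R1_cell chkA3_10 covA3_10 muQ_pos muQ_lt hc ha hc1 ha1 hx hX m1 m2 hF0
  · exact R1_cell chkA3_11 covA3_11 muQ_pos muQ_lt hc ha hc1 ha1 hx hX m1 m2 hF0
  · exact R1_cell chkA3_12 covA3_12 muQ_pos muQ_lt hc ha hc1 ha1 hx hX m1 m2 hF0
  · exact R1_cell chkA3_13 covA3_13 muQ_pos muQ_lt hc ha hc1 ha1 hx hX m1 m2 hF0
  · exact R1_cell chkA3_14 covA3_14 muQ_pos muQ_lt hc ha hc1 ha1 hx hX m1 m2 hF0
  · exact R1_cell chkA3_15 covA3_15 muQ_pos muQ_lt hc ha hc1 ha1 hx hX m1 m2 hF0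
  · exact R1_cell chkA3_16 covA3_16 muQ_pos muQ_lt hc ha hc1 ha1 hx hX m1 m2 hF0
  · exact R1_cell chkA3_17 covA3_17 muQ_pos muQ_lt hc ha hc1 ha1 hx hX m1 m2 hF0
  · exact R1_cell chkA3_18 covA3_18 muQ_pos muQ_lt hc ha hc1 ha1 hx hX m1 m2 hF0

theorem r1row4 {c a : Fin 4 → ℝ} (hc : ∑ l, c l = 0) (ha : ∑ l, a l = 0) (hc1 : ∀ l, -1 < c l) (ha1 : ∀ l, -muQ.val ≤ a l)
    (hx : 0 < mom c 2) (hX : 0 < mom a 2) (hF0 : 0 ≤ Fr (mom c 2) (mom c 3) (mom c 4))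
    (hX0 : 0 ≤ mom a 2) (hX1 : mom a 2 < (1541 / 1024 : ℝ)) (m1 : Iv.mem ⟨1,4,256⟩ (mom c 2)) :
    avgT a (fun b => ZZ c b * xx (uu c b)) ≤ mom c 2 + mom a 2 - 2 / 3 * mom a 2 * GG c
      - GG a * Fr (mom c 2) (mom c 3) (mom c 4) - mom c 2 ^ 2 * mom a 2 ^ 2 / dltD := by
  rcases binA1 hX0 hX1 with m2 | m2 | m2 | m2 | m2 | m2 | m2 | m2 | m2 | m2 | m2 | m2 | m2 | m2 | m2 | m2 | m2 | m2 | m2
  · exact R1_cell chkA4_0 covA4_0 muQ_pos muQ_lt hc ha hc1 ha1 hx hX m1 m2 hF0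
  · exact R1_cell chkA4_1 covA4_1 muQ_pos muQ_lt hc ha hc1 ha1 hx hX m1 m2 hF0
  · exact R1_cell chkA4_2 covA4_2 muQ_pos muQ_lt hc ha hc1 ha1 hx hX m1 m2 hF0
  · exact R1_cell chkA4_3 covA4_3 muQ_pos muQ_lt hc ha hc1 ha1 hx hX m1 m2 hF0
  · exact R1_cell chkA4_4 covA4_4 muQ_pos muQ_lt hc ha hc1 ha1 hx hX m1 m2 hF0
  · exact R1_cell chkA4_5 covA4_5 muQ_pos muQ_lt hc ha hc1 ha1 hx hX m1 m2 hF0
  · exact R1_cell chkA4_6 covA4_6 muQ_pos muQ_lt hc ha hc1 ha1 hx hX m1 m2 hF0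
  · exact R1_cell chkA4_7 covA4_7 muQ_pos muQ_lt hc ha hc1 ha1 hx hX m1 m2 hF0
  · exact R1_cell chkA4_8 covA4_8 muQ_pos muQ_lt hc ha hc1 ha1 hx hX m1 m2 hF0
  · exact R1_cell chkA4_9 covA4_9 muQ_pos muQ_lt hc ha hc1 ha1 hx hX m1 m2 hF0
  · exact R1_cell chkA4_10 covA4_10 muQ_pos muQ_lt hc ha hc1 ha1 hx hX m1 m2 hF0
  · exact R1_cell chkA4_11 covA4_11 muQ_pos muQ_lt hc ha hc1 ha1 hx hX m1 m2 hF0
  · exact R1_cell chkA4_12 covA4_12 muQ_pos muQ_lt hc ha hc1 ha1 hx hX m1 m2 hF0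
  · exact R1_cell chkA4_13 covA4_13 muQ_pos muQ_lt hc ha hc1 ha1 hx hX m1 m2 hF0
  · exact R1_cell chkA4_14 covA4_14 muQ_pos muQ_lt hc ha hc1 ha1 hx hX m1 m2 hF0
  · exact R1_cell chkA4_15 covA4_15 muQ_pos muQ_lt hc ha hc1 ha1 hx hX m1 m2 hF0
  · exact R1_cell chkA4_16 covA4_16 muQ_pos muQ_lt hc ha hc1 ha1 hx hX m1 m2 hF0
  · exact R1_cell chkA4_17 covA4_17 muQ_pos muQ_lt hc ha hc1 ha1 hx hX m1 m2 hF0
  · exact R1_cell chkA4_18 covA4_18 muQ_pos muQ_lt hc ha hc1 ha1 hx hX m1 m2 hF0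

theorem r1row5 {c a : Fin 4 → ℝ} (hc : ∑ l, c l = 0) (ha : ∑ l, a l = 0) (hc1 : ∀ l, -1 < c l) (ha1 : ∀ l, -muQ.val ≤ a l)
    (hx : 0 < mom c 2) (hX : 0 < mom a 2) (hF0 : 0 ≤ Fr (mom c 2) (mom c 3) (mom c 4))
    (hX0 : 0 ≤ mom a 2) (hX1 : mom a 2 < (1541 / 1024 : ℝ)) (m1 : Iv.mem ⟨1,2,64⟩ (mom c 2)) :
    avgT a (fun b => ZZ c b * xx (uu c b)) ≤ mom c 2 + mom a 2 - 2 / 3 * mom a 2 * GG c
      - GG a * Fr (mom c 2) (mom c 3) (mom c 4) - mom c 2 ^ 2 * mom a 2 ^ 2 / dltD := by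
  rcases binA1 hX0 hX1 with m2 | m2 | m2 | m2 | m2 | m2 | m2 | m2 | m2 | m2 | m2 | m2 | m2 | m2 | m2 | m2 | m2 | m2 | m2
  · exact R1_cell chkA5_0 covA5_0 muQ_pos muQ_lt hc ha hc1 ha1 hx hX m1 m2 hF0
  · exact R1_cell chkA5_1 covA5_1 muQ_pos muQ_lt hc ha hc1 ha1 hx hX m1 m2 hF0
  · exact R1_cell chkA5_2 covA5_2 muQ_pos muQ_lt hc ha hc1 ha1 hx hX m1 m2 hF0
  · exact R1_cell chkA5_3 covA5_3 muQ_pos muQ_lt hc ha hc1 ha1 hx hX m1 m2 hF0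
  · exact R1_cell chkA5_4 covA5_4 muQ_pos muQ_lt hc ha hc1 ha1 hx hX m1 m2 hF0
  · exact R1_cell chkA5_5 covA5_5 muQ_pos muQ_lt hc ha hc1 ha1 hx hX m1 m2 hF0
  · exact R1_cell chkA5_6 covA5_6 muQ_pos muQ_lt hc ha hc1 ha1 hx hX m1 m2 hF0
  · exact R1_cell chkA5_7 covA5_7 muQ_pos muQ_lt hc ha hc1 ha1 hx hX m1 m2 hF0
  · exact R1_cell chkA5_8 covA5_8 muQ_pos muQ_lt hc ha hc1 ha1 hx hX m1 m2 hF0
  · exact R1_cell chkA5_9 covA5_9 muQ_pos muQ_lt hc ha hc1 ha1 hx hX m1 m2 hF0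
  · exact R1_cell chkA5_10 covA5_10 muQ_pos muQ_lt hc ha hc1 ha1 hx hX m1 m2 hF0
  · exact R1_cell chkA5_11 covA5_11 muQ_pos muQ_lt hc ha hc1 ha1 hx hX m1 m2 hF0
  · exact R1_cell chkA5_12 covA5_12 muQ_pos muQ_lt hc ha hc1 ha1 hx hX m1 m2 hF0
  · exact R1_cell chkA5_13 covA5_13 muQ_pos muQ_lt hc ha hc1 ha1 hx hX m1 m2 hF0
  · exact R1_cell chkA5_14 covA5_14 muQ_pos muQ_lt hc ha hc1 ha1 hx hX m1 m2 hF0
  · exact R1_cell chkA5_15 covA5_15 muQ_pos muQ_lt hc ha hc1 ha1 hx hX m1 m2 hF0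
  · exact R1_cell chkA5_16 covA5_16 muQ_pos muQ_lt hc ha hc1 ha1 hx hX m1 m2 hF0
  · exact R1_cell chkA5_17 covA5_17 muQ_pos muQ_lt hc ha hc1 ha1 hx hX m1 m2 hF0
  · exact R1_cell chkA5_18 covA5_18 muQ_pos muQ_lt hc ha hc1 ha1 hx hX m1 m2 hF0

theorem r1row6 {c a : Fin 4 → ℝ} (hc : ∑ l, c l = 0) (ha : ∑ l, a l = 0) (hc1 : ∀ l, -1 < c l) (ha1 : ∀ l, -muQ.val ≤ a l)
    (hx : 0 < mom c 2) (hX : 0 < mom a 2) (hF0 : 0 ≤ Fr (mom c 2) (mom c 3) (mom c 4))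
    (hX0 : 0 ≤ mom a 2) (hX1 : mom a 2 < (1541 / 1024 : ℝ)) (m1 : Iv.mem ⟨1,2,32⟩ (mom c 2)) :
    avgT a (fun b => ZZ c b * xx (uu c b)) ≤ mom c 2 + mom a 2 - 2 / 3 * mom a 2 * GG c
      - GG a * Fr (mom c 2) (mom c 3) (mom c 4) - mom c 2 ^ 2 * mom a 2 ^ 2 / dltD := by
  rcases binA1 hX0 hX1 with m2 | m2 | m2 | m2 | m2 | m2 | m2 | m2 | m2 | m2 | m2 | m2 | m2 | m2 | m2 | m2 | m2 | m2 | m2
  · exact R1_cell chkA6_0 covA6_0 muQ_pos muQ_lt hc ha hc1 ha1 hx hX m1 m2 hF0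
  · exact R1_cell chkA6_1 covA6_1 muQ_pos muQ_lt hc ha hc1 ha1 hx hX m1 m2 hF0
  · exact R1_cell chkA6_2 covA6_2 muQ_pos muQ_lt hc ha hc1 ha1 hx hX m1 m2 hF0
  · exact R1_cell chkA6_3 covA6_3 muQ_pos muQ_lt hc ha hc1 ha1 hx hX m1 m2 hF0
  · exact R1_cell chkA6_4 covA6_4 muQ_pos muQ_lt hc ha hc1 ha1 hx hX m1 m2 hF0
  · exact R1_cell chkA6_5 covA6_5 muQ_pos muQ_lt hc ha hc1 ha1 hx hX m1 m2 hF0
  · exact R1_cell chkA6_6 covA6_6 muQ_pos muQ_lt hc ha hc1 ha1 hx hX m1 m2 hF0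
  · exact R1_cell chkA6_7 covA6_7 muQ_pos muQ_lt hc ha hc1 ha1 hx hX m1 m2 hF0
  · exact R1_cell chkA6_8 covA6_8 muQ_pos muQ_lt hc ha hc1 ha1 hx hX m1 m2 hF0
  · exact R1_cell chkA6_9 covA6_9 muQ_pos muQ_lt hc ha hc1 ha1 hx hX m1 m2 hF0
  · exact R1_cell chkA6_10 covA6_10 muQ_pos muQ_lt hc ha hc1 ha1 hx hX m1 m2 hF0
  · exact R1_cell chkA6_11 covA6_11 muQ_pos muQ_lt hc ha hc1 ha1 hx hX m1 m2 hF0
  · exact R1_cell chkA6_12 covA6_12 muQ_pos muQ_lt hc ha hc1 ha1 hx hX m1 m2 hF0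
  · exact R1_cell chkA6_13 covA6_13 muQ_pos muQ_lt hc ha hc1 ha1 hx hX m1 m2 hF0
  · exact R1_cell chkA6_14 covA6_14 muQ_pos muQ_lt hc ha hc1 ha1 hx hX m1 m2 hF0
  · exact R1_cell chkA6_15 covA6_15 muQ_pos muQ_lt hc ha hc1 ha1 hx hX m1 m2 hF0
  · exact R1_cell chkA6_16 covA6_16 muQ_pos muQ_lt hc ha hc1 ha1 hx hX m1 m2 hF0
  · exact R1_cell chkA6_17 covA6_17 muQ_pos muQ_lt hc ha hc1 ha1 hx hX m1 m2 hF0
  · exact R1_cell chkA6_18 covA6_18 muQ_pos muQ_lt hc ha hc1 ha1 hx hX m1 m2 hF0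

theorem r1row7 {c a : Fin 4 → ℝ} (hc : ∑ l, c l = 0) (ha : ∑ l, a l = 0) (hc1 : ∀ l, -1 < c l) (ha1 : ∀ l, -muQ.val ≤ a l)
    (hx : 0 < mom c 2) (hX : 0 < mom a 2) (hF0 : 0 ≤ Fr (mom c 2) (mom c 3) (mom c 4))
    (hX0 : 0 ≤ mom a 2) (hX1 : mom a 2 < (1541 / 1024 : ℝ)) (m1 : Iv.mem ⟨2,3,32⟩ (mom c 2)) :
    avgT a (fun b => ZZ c b * xx (uu c b)) ≤ mom c 2 + mom a 2 - 2 / 3 * mom a 2 * GG c
      - GG a * Fr (mom c 2) (mom c 3) (mom c 4) - mom c 2 ^ 2 * mom a 2 ^ 2 / dltD := by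
  rcases binA1 hX0 hX1 with m2 | m2 | m2 | m2 | m2 | m2 | m2 | m2 | m2 | m2 | m2 | m2 | m2 | m2 | m2 | m2 | m2 | m2 | m2
  · exact R1_cell chkA7_0 covA7_0 muQ_pos muQ_lt hc ha hc1 ha1 hx hX m1 m2 hF0
  · exact R1_cell chkA7_1 covA7_1 muQ_pos muQ_lt hc ha hc1 ha1 hx hX m1 m2 hF0
  · exact R1_cell chkA7_2 covA7_2 muQ_pos muQ_lt hc ha hc1 ha1 hx hX m1 m2 hF0
  · exact R1_cell chkA7_3 covA7_3 muQ_pos muQ_lt hc ha hc1 ha1 hx hX m1 m2 hF0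
  · exact R1_cell chkA7_4 covA7_4 muQ_pos muQ_lt hc ha hc1 ha1 hx hX m1 m2 hF0
  · exact R1_cell chkA7_5 covA7_5 muQ_pos muQ_lt hc ha hc1 ha1 hx hX m1 m2 hF0
  · exact R1_cell chkA7_6 covA7_6 muQ_pos muQ_lt hc ha hc1 ha1 hx hX m1 m2 hF0
  · exact R1_cell chkA7_7 covA7_7 muQ_pos muQ_lt hc ha hc1 ha1 hx hX m1 m2 hF0
  · exact R1_cell chkA7_8 covA7_8 muQ_pos muQ_lt hc ha hc1 ha1 hx hX m1 m2 hF0
  · exact R1_cell chkA7_9 covA7_9 muQ_pos muQ_lt hc ha hc1 ha1 hx hX m1 m2 hF0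
  · exact R1_cell chkA7_10 covA7_10 muQ_pos muQ_lt hc ha hc1 ha1 hx hX m1 m2 hF0
  · exact R1_cell chkA7_11 covA7_11 muQ_pos muQ_lt hc ha hc1 ha1 hx hX m1 m2 hF0
  · exact R1_cell chkA7_12 covA7_12 muQ_pos muQ_lt hc ha hc1 ha1 hx hX m1 m2 hF0
  · exact R1_cell chkA7_13 covA7_13 muQ_pos muQ_lt hc ha hc1 ha1 hx hX m1 m2 hF0
  · exact R1_cell chkA7_14 covA7_14 muQ_pos muQ_lt hc ha hc1 ha1 hx hX m1 m2 hF0
  · exact R1_cell chkA7_15 covA7_15 muQ_pos muQ_lt hc ha hc1 ha1 hx hX m1 m2 hF0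
  · exact R1_cell chkA7_16 covA7_16 muQ_pos muQ_lt hc ha hc1 ha1 hx hX m1 m2 hF0
  · exact R1_cell chkA7_17 covA7_17 muQ_pos muQ_lt hc ha hc1 ha1 hx hX m1 m2 hF0
  · exact R1_cell chkA7_18 covA7_18 muQ_pos muQ_lt hc ha hc1 ha1 hx hX m1 m2 hF0

theorem r1row8 {c a : Fin 4 → ℝ} (hc : ∑ l, c l = 0) (ha : ∑ l, a l = 0) (hc1 : ∀ l, -1 < c l) (ha1 : ∀ l, -muQ.val ≤ a l)
    (hx : 0 < mom c 2) (hX : 0 < mom a 2) (hF0 : 0 ≤ Fr (mom c 2) (mom c 3) (mom c 4))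
    (hX0 : 0 ≤ mom a 2) (hX1 : mom a 2 < (1541 / 1024 : ℝ)) (m1 : Iv.mem ⟨3,4,32⟩ (mom c 2)) :
    avgT a (fun b => ZZ c b * xx (uu c b)) ≤ mom c 2 + mom a 2 - 2 / 3 * mom a 2 * GG c
      - GG a * Fr (mom c 2) (mom c 3) (mom c 4) - mom c 2 ^ 2 * mom a 2 ^ 2 / dltD := by
  rcases binA1 hX0 hX1 with m2 | m2 | m2 | m2 | m2 | m2 | m2 | m2 | m2 | m2 | m2 | m2 | m2 | m2 | m2 | m2 | m2 | m2 | m2
  · exact R1_cell chkA8_0 covA8_0 muQ_pos muQ_lt hc ha hc1 ha1 hx hX m1 m2 hF0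
  · exact R1_cell chkA8_1 covA8_1 muQ_pos muQ_lt hc ha hc1 ha1 hx hX m1 m2 hF0
  · exact R1_cell chkA8_2 covA8_2 muQ_pos muQ_lt hc ha hc1 ha1 hx hX m1 m2 hF0
  · exact R1_cell chkA8_3 covA8_3 muQ_pos muQ_lt hc ha hc1 ha1 hx hX m1 m2 hF0
  · exact R1_cell chkA8_4 covA8_4 muQ_pos muQ_lt hc ha hc1 ha1 hx hX m1 m2 hF0
  · exact R1_cell chkA8_5 covA8_5 muQ_pos muQ_lt hc ha hc1 ha1 hx hX m1 m2 hF0
  · exact R1_cell chkA8_6 covA8_6 muQ_pos muQ_lt hc ha hc1 ha1 hx hX m1 m2 hF0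
  · exact R1_cell chkA8_7 covA8_7 muQ_pos muQ_lt hc ha hc1 ha1 hx hX m1 m2 hF0
  · exact R1_cell chkA8_8 covA8_8 muQ_pos muQ_lt hc ha hc1 ha1 hx hX m1 m2 hF0
  · exact R1_cell chkA8_9 covA8_9 muQ_pos muQ_lt hc ha hc1 ha1 hx hX m1 m2 hF0
  · exact R1_cell chkA8_10 covA8_10 muQ_pos muQ_lt hc ha hc1 ha1 hx hX m1 m2 hF0
  · exact R1_cell chkA8_11 covA8_11 muQ_pos muQ_lt hc ha hc1 ha1 hx hX m1 m2 hF0
  · exact R1_cell chkA8_12 covA8_12 muQ_pos muQ_lt hc ha hc1 ha1 hx hX m1 m2 hF0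
  · exact R1_cell chkA8_13 covA8_13 muQ_pos muQ_lt hc ha hc1 ha1 hx hX m1 m2 hF0
  · exact R1_cell chkA8_14 covA8_14 muQ_pos muQ_lt hc ha hc1 ha1 hx hX m1 m2 hF0
  · exact R1_cell chkA8_15 covA8_15 muQ_pos muQ_lt hc ha hc1 ha1 hx hX m1 m2 hF0
  · exact R1_cell chkA8_16 covA8_16 muQ_pos muQ_lt hc ha hc1 ha1 hx hX m1 m2 hF0
  · exact R1_cell chkA8_17 covA8_17 muQ_pos muQ_lt hc ha hc1 ha1 hx hX m1 m2 hF0
  · exact R1_cell chkA8_18 covA8_18 muQ_pos muQ_lt hc ha hc1 ha1 hx hX m1 m2 hF0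

theorem r1row9 {c a : Fin 4 → ℝ} (hc : ∑ l, c l = 0) (ha : ∑ l, a l = 0) (hc1 : ∀ l, -1 < c l) (ha1 : ∀ l, -muQ.val ≤ a l)
    (hx : 0 < mom c 2) (hX : 0 < mom a 2) (hF0 : 0 ≤ Fr (mom c 2) (mom c 3) (mom c 4))
    (hX0 : 0 ≤ mom a 2) (hX1 : mom a 2 < (1541 / 1024 : ℝ)) (m1 : Iv.mem ⟨2,3,16⟩ (mom c 2)) :
    avgT a (fun b => ZZ c b * xx (uu c b)) ≤ mom c 2 + mom a 2 - 2 / 3 * mom a 2 * GG c
      - GG a * Fr (mom c 2) (mom c 3) (mom c 4) - mom c 2 ^ 2 * mom a 2 ^ 2 / dltD := by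
  rcases binA1 hX0 hX1 with m2 | m2 | m2 | m2 | m2 | m2 | m2 | m2 | m2 | m2 | m2 | m2 | m2 | m2 | m2 | m2 | m2 | m2 | m2
  · exact R1_cell chkA9_0 covA9_0 muQ_pos muQ_lt hc ha hc1 ha1 hx hX m1 m2 hF0
  · exact R1_cell chkA9_1 covA9_1 muQ_pos muQ_lt hc ha hc1 ha1 hx hX m1 m2 hF0
  · exact R1_cell chkA9_2 covA9_2 muQ_pos muQ_lt hc ha hc1 ha1 hx hX m1 m2 hF0
  · exact R1_cell chkA9_3 covA9_3 muQ_pos muQ_lt hc ha hc1 ha1 hx hX m1 m2 hF0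
  · exact R1_cell chkA9_4 covA9_4 muQ_pos muQ_lt hc ha hc1 ha1 hx hX m1 m2 hF0
  · exact R1_cell chkA9_5 covA9_5 muQ_pos muQ_lt hc ha hc1 ha1 hx hX m1 m2 hF0
  · exact R1_cell chkA9_6 covA9_6 muQ_pos muQ_lt hc ha hc1 ha1 hx hX m1 m2 hF0
  · exact R1_cell chkA9_7 covA9_7 muQ_pos muQ_lt hc ha hc1 ha1 hx hX m1 m2 hF0
  · exact R1_cell chkA9_8 covA9_8 muQ_pos muQ_lt hc ha hc1 ha1 hx hX m1 m2 hF0
  · exact R1_cell chkA9_9 covA9_9 muQ_pos muQ_lt hc ha hc1 ha1 hx hX m1 m2 hF0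
  · exact R1_cell chkA9_10 covA9_10 muQ_pos muQ_lt hc ha hc1 ha1 hx hX m1 m2 hF0
  · exact R1_cell chkA9_11 covA9_11 muQ_pos muQ_lt hc ha hc1 ha1 hx hX m1 m2 hF0
  · exact R1_cell chkA9_12 covA9_12 muQ_pos muQ_lt hc ha hc1 ha1 hx hX m1 m2 hF0
  · exact R1_cell chkA9_13 covA9_13 muQ_pos muQ_lt hc ha hc1 ha1 hx hX m1 m2 hF0
  · exact R1_cell chkA9_14 covA9_14 muQ_pos muQ_lt hc ha hc1 ha1 hx hX m1 m2 hF0
  · exact R1_cell chkA9_15 covA9_15 muQ_pos muQ_lt hc ha hc1 ha1 hx hX m1 m2 hF0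
  · exact R1_cell chkA9_16 covA9_16 muQ_pos muQ_lt hc ha hc1 ha1 hx hX m1 m2 hF0
  · exact R1_cell chkA9_17 covA9_17 muQ_pos muQ_lt hc ha hc1 ha1 hx hX m1 m2 hF0
  · exact R1_cell chkA9_18 covA9_18 muQ_pos muQ_lt hc ha hc1 ha1 hx hX m1 m2 hF0

theorem r1row10 {c a : Fin 4 → ℝ} (hc : ∑ l, c l = 0) (ha : ∑ l, a l = 0) (hc1 : ∀ l, -1 < c l) (ha1 : ∀ l, -muQ.val ≤ a l)
    (hx : 0 < mom c 2) (hX : 0 < mom a 2) (hF0 : 0 ≤ Fr (mom c 2) (mom c 3) (mom c 4))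
    (hX0 : 0 ≤ mom a 2) (hX1 : mom a 2 < (1541 / 1024 : ℝ)) (m1 : Iv.mem ⟨3,4,16⟩ (mom c 2)) :
    avgT a (fun b => ZZ c b * xx (uu c b)) ≤ mom c 2 + mom a 2 - 2 / 3 * mom a 2 * GG c
      - GG a * Fr (mom c 2) (mom c 3) (mom c 4) - mom c 2 ^ 2 * mom a 2 ^ 2 / dltD := by
  rcases binA1 hX0 hX1 with m2 | m2 | m2 | m2 | m2 | m2 | m2 | m2 | m2 | m2 | m2 | m2 | m2 | m2 | m2 | m2 | m2 | m2 | m2
  · exact R1_cell chkA10_0 covA10_0 muQ_pos muQ_lt hc ha hc1 ha1 hx hX m1 m2 hF0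
  · exact R1_cell chkA10_1 covA10_1 muQ_pos muQ_lt hc ha hc1 ha1 hx hX m1 m2 hF0
  · exact R1_cell chkA10_2 covA10_2 muQ_pos muQ_lt hc ha hc1 ha1 hx hX m1 m2 hF0
  · exact R1_cell chkA10_3 covA10_3 muQ_pos muQ_lt hc ha hc1 ha1 hx hX m1 m2 hF0
  · exact R1_cell chkA10_4 covA10_4 muQ_pos muQ_lt hc ha hc1 ha1 hx hX m1 m2 hF0
  · exact R1_cell chkA10_5 covA10_5 muQ_pos muQ_lt hc ha hc1 ha1 hx hX m1 m2 hF0
  · exact R1_cell chkA10_6 covA10_6 muQ_pos muQ_lt hc ha hc1 ha1 hx hX m1 m2 hF0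
  · exact R1_cell chkA10_7 covA10_7 muQ_pos muQ_lt hc ha hc1 ha1 hx hX m1 m2 hF0
  · exact R1_cell chkA10_8 covA10_8 muQ_pos muQ_lt hc ha hc1 ha1 hx hX m1 m2 hF0
  · exact R1_cell chkA10_9 covA10_9 muQ_pos muQ_lt hc ha hc1 ha1 hx hX m1 m2 hF0
  · exact R1_cell chkA10_10 covA10_10 muQ_pos muQ_lt hc ha hc1 ha1 hx hX m1 m2 hF0
  · exact R1_cell chkA10_11 covA10_11 muQ_pos muQ_lt hc ha hc1 ha1 hx hX m1 m2 hF0
  · exact R1_cell chkA10_12 covA10_12 muQ_pos muQ_lt hc ha hc1 ha1 hx hX m1 m2 hF0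
  · exact R1_cell chkA10_13 covA10_13 muQ_pos muQ_lt hc ha hc1 ha1 hx hX m1 m2 hF0
  · exact R1_cell chkA10_14 covA10_14 muQ_pos muQ_lt hc ha hc1 ha1 hx hX m1 m2 hF0
  · exact R1_cell chkA10_15 covA10_15 muQ_pos muQ_lt hc ha hc1 ha1 hx hX m1 m2 hF0
  · exact R1_cell chkA10_16 covA10_16 muQ_pos muQ_lt hc ha hc1 ha1 hx hX m1 m2 hF0
  · exact R1_cell chkA10_17 covA10_17 muQ_pos muQ_lt hc ha hc1 ha1 hx hX m1 m2 hF0
  · exact R1_cell chkA10_18 covA10_18 muQ_pos muQ_lt hc ha hc1 ha1 hx hX m1 m2 hF0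

theorem r1row11 {c a : Fin 4 → ℝ} (hc : ∑ l, c l = 0) (ha : ∑ l, a l = 0) (hc1 : ∀ l, -1 < c l) (ha1 : ∀ l, -muQ.val ≤ a l)
    (hx : 0 < mom c 2) (hX : 0 < mom a 2) (hF0 : 0 ≤ Fr (mom c 2) (mom c 3) (mom c 4))
    (hX0 : 0 ≤ mom a 2) (hX1 : mom a 2 < (1541 / 1024 : ℝ)) (m1 : Iv.mem ⟨2,3,8⟩ (mom c 2)) :
    avgT a (fun b => ZZ c b * xx (uu c b)) ≤ mom c 2 + mom a 2 - 2 / 3 * mom a 2 * GG c
      - GG a * Fr (mom c 2) (mom c 3) (mom c 4) - mom c 2 ^ 2 * mom a 2 ^ 2 / dltD := by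
  rcases binA1 hX0 hX1 with m2 | m2 | m2 | m2 | m2 | m2 | m2 | m2 | m2 | m2 | m2 | m2 | m2 | m2 | m2 | m2 | m2 | m2 | m2
  · exact R1_cell chkA11_0 covA11_0 muQ_pos muQ_lt hc ha hc1 ha1 hx hX m1 m2 hF0
  · exact R1_cell chkA11_1 covA11_1 muQ_pos muQ_lt hc ha hc1 ha1 hx hX m1 m2 hF0
  · exact R1_cell chkA11_2 covA11_2 muQ_pos muQ_lt hc ha hc1 ha1 hx hX m1 m2 hF0
  · exact R1_cell chkA11_3 covA11_3 muQ_pos muQ_lt hc ha hc1 ha1 hx hX m1 m2 hF0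
  · exact R1_cell chkA11_4 covA11_4 muQ_pos muQ_lt hc ha hc1 ha1 hx hX m1 m2 hF0
  · exact R1_cell chkA11_5 covA11_5 muQ_pos muQ_lt hc ha hc1 ha1 hx hX m1 m2 hF0
  · exact R1_cell chkA11_6 covA11_6 muQ_pos muQ_lt hc ha hc1 ha1 hx hX m1 m2 hF0
  · exact R1_cell chkA11_7 covA11_7 muQ_pos muQ_lt hc ha hc1 ha1 hx hX m1 m2 hF0
  · exact R1_cell chkA11_8 covA11_8 muQ_pos muQ_lt hc ha hc1 ha1 hx hX m1 m2 hF0
  · exact R1_cell chkA11_9 covA11_9 muQ_pos muQ_lt hc ha hc1 ha1 hx hX m1 m2 hF0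
  · exact R1_cell chkA11_10 covA11_10 muQ_pos muQ_lt hc ha hc1 ha1 hx hX m1 m2 hF0
  · exact R1_cell chkA11_11 covA11_11 muQ_pos muQ_lt hc ha hc1 ha1 hx hX m1 m2 hF0
  · exact R1_cell chkA11_12 covA11_12 muQ_pos muQ_lt hc ha hc1 ha1 hx hX m1 m2 hF0
  · exact R1_cell chkA11_13 covA11_13 muQ_pos muQ_lt hc ha hc1 ha1 hx hX m1 m2 hF0
  · exact R1_cell chkA11_14 covA11_14 muQ_pos muQ_lt hc ha hc1 ha1 hx hX m1 m2 hF0
  · exact R1_cell chkA11_15 covA11_15 muQ_pos muQ_lt hc ha hc1 ha1 hx hX m1 m2 hF0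
  · exact R1_cell chkA11_16 covA11_16 muQ_pos muQ_lt hc ha hc1 ha1 hx hX m1 m2 hF0
  · exact R1_cell chkA11_17 covA11_17 muQ_pos muQ_lt hc ha hc1 ha1 hx hX m1 m2 hF0
  · exact R1_cell chkA11_18 covA11_18 muQ_pos muQ_lt hc ha hc1 ha1 hx hX m1 m2 hF0

theorem r1row12 {c a : Fin 4 → ℝ} (hc : ∑ l, c l = 0) (ha : ∑ l, a l = 0) (hc1 : ∀ l, -1 < c l) (ha1 : ∀ l, -muQ.val ≤ a l)
    (hx : 0 < mom c 2) (hX : 0 < mom a 2) (hF0 : 0 ≤ Fr (mom c 2) (mom c 3) (mom c 4))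
    (hX0 : 0 ≤ mom a 2) (hX1 : mom a 2 < (1541 / 1024 : ℝ)) (m1 : Iv.mem ⟨3,4,8⟩ (mom c 2)) :
    avgT a (fun b => ZZ c b * xx (uu c b)) ≤ mom c 2 + mom a 2 - 2 / 3 * mom a 2 * GG c
      - GG a * Fr (mom c 2) (mom c 3) (mom c 4) - mom c 2 ^ 2 * mom a 2 ^ 2 / dltD := by
  rcases binA1 hX0 hX1 with m2 | m2 | m2 | m2 | m2 | m2 | m2 | m2 | m2 | m2 | m2 | m2 | m2 | m2 | m2 | m2 | m2 | m2 | m2
  · exact R1_cell chkA12_0 covA12_0 muQ_pos muQ_lt hc ha hc1 ha1 hx hX m1 m2 hF0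
  · exact R1_cell chkA12_1 covA12_1 muQ_pos muQ_lt hc ha hc1 ha1 hx hX m1 m2 hF0
  · exact R1_cell chkA12_2 covA12_2 muQ_pos muQ_lt hc ha hc1 ha1 hx hX m1 m2 hF0
  · exact R1_cell chkA12_3 covA12_3 muQ_pos muQ_lt hc ha hc1 ha1 hx hX m1 m2 hF0
  · exact R1_cell chkA12_4 covA12_4 muQ_pos muQ_lt hc ha hc1 ha1 hx hX m1 m2 hF0
  · exact R1_cell chkA12_5 covA12_5 muQ_pos muQ_lt hc ha hc1 ha1 hx hX m1 m2 hF0
  · exact R1_cell chkA12_6 covA12_6 muQ_pos muQ_lt hc ha hc1 ha1 hx hX m1 m2 hF0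
  · exact R1_cell chkA12_7 covA12_7 muQ_pos muQ_lt hc ha hc1 ha1 hx hX m1 m2 hF0
  · exact R1_cell chkA12_8 covA12_8 muQ_pos muQ_lt hc ha hc1 ha1 hx hX m1 m2 hF0
  · exact R1_cell chkA12_9 covA12_9 muQ_pos muQ_lt hc ha hc1 ha1 hx hX m1 m2 hF0
  · exact R1_cell chkA12_10 covA12_10 muQ_pos muQ_lt hc ha hc1 ha1 hx hX m1 m2 hF0
  · exact R1_cell chkA12_11 covA12_11 muQ_pos muQ_lt hc ha hc1 ha1 hx hX m1 m2 hF0
  · exact R1_cell chkA12_12 covA12_12 muQ_pos muQ_lt hc ha hc1 ha1 hx hX m1 m2 hF0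
  · exact R1_cell chkA12_13 covA12_13 muQ_pos muQ_lt hc ha hc1 ha1 hx hX m1 m2 hF0
  · exact R1_cell chkA12_14 covA12_14 muQ_pos muQ_lt hc ha hc1 ha1 hx hX m1 m2 hF0
  · exact R1_cell chkA12_15 covA12_15 muQ_pos muQ_lt hc ha hc1 ha1 hx hX m1 m2 hF0
  · exact R1_cell chkA12_16 covA12_16 muQ_pos muQ_lt hc ha hc1 ha1 hx hX m1 m2 hF0
  · exact R1_cell chkA12_17 covA12_17 muQ_pos muQ_lt hc ha hc1 ha1 hx hX m1 m2 hF0
  · exact R1_cell chkA12_18 covA12_18 muQ_pos muQ_lt hc ha hc1 ha1 hx hX m1 m2 hF0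

theorem r1row13 {c a : Fin 4 → ℝ} (hc : ∑ l, c l = 0) (ha : ∑ l, a l = 0) (hc1 : ∀ l, -1 < c l) (ha1 : ∀ l, -muQ.val ≤ a l)
    (hx : 0 < mom c 2) (hX : 0 < mom a 2) (hF0 : 0 ≤ Fr (mom c 2) (mom c 3) (mom c 4))
    (hX0 : 0 ≤ mom a 2) (hX1 : mom a 2 < (1541 / 1024 : ℝ)) (m1 : Iv.mem ⟨4,5,8⟩ (mom c 2)) :
    avgT a (fun b => ZZ c b * xx (uu c b)) ≤ mom c 2 + mom a 2 - 2 / 3 * mom a 2 * GG c
      - GG a * Fr (mom c 2) (mom c 3) (mom c 4) - mom c 2 ^ 2 * mom a 2 ^ 2 / dltD := by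
  rcases binA1 hX0 hX1 with m2 | m2 | m2 | m2 | m2 | m2 | m2 | m2 | m2 | m2 | m2 | m2 | m2 | m2 | m2 | m2 | m2 | m2 | m2
  · exact R1_cell chkA13_0 covA13_0 muQ_pos muQ_lt hc ha hc1 ha1 hx hX m1 m2 hF0
  · exact R1_cell chkA13_1 covA13_1 muQ_pos muQ_lt hc ha hc1 ha1 hx hX m1 m2 hF0
  · exact R1_cell chkA13_2 covA13_2 muQ_pos muQ_lt hc ha hc1 ha1 hx hX m1 m2 hF0
  · exact R1_cell chkA13_3 covA13_3 muQ_pos muQ_lt hc ha hc1 ha1 hx hX m1 m2 hF0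
  · exact R1_cell chkA13_4 covA13_4 muQ_pos muQ_lt hc ha hc1 ha1 hx hX m1 m2 hF0
  · exact R1_cell chkA13_5 covA13_5 muQ_pos muQ_lt hc ha hc1 ha1 hx hX m1 m2 hF0
  · exact R1_cell chkA13_6 covA13_6 muQ_pos muQ_lt hc ha hc1 ha1 hx hX m1 m2 hF0
  · exact R1_cell chkA13_7 covA13_7 muQ_pos muQ_lt hc ha hc1 ha1 hx hX m1 m2 hF0
  · exact R1_cell chkA13_8 covA13_8 muQ_pos muQ_lt hc ha hc1 ha1 hx hX m1 m2 hF0
  · exact R1_cell chkA13_9 covA13_9 muQ_pos muQ_lt hc ha hc1 ha1 hx hX m1 m2 hF0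
  · exact R1_cell chkA13_10 covA13_10 muQ_pos muQ_lt hc ha hc1 ha1 hx hX m1 m2 hF0
  · exact R1_cell chkA13_11 covA13_11 muQ_pos muQ_lt hc ha hc1 ha1 hx hX m1 m2 hF0
  · exact R1_cell chkA13_12 covA13_12 muQ_pos muQ_lt hc ha hc1 ha1 hx hX m1 m2 hF0
  · exact R1_cell chkA13_13 covA13_13 muQ_pos muQ_lt hc ha hc1 ha1 hx hX m1 m2 hF0
  · exact R1_cell chkA13_14 covA13_14 muQ_pos muQ_lt hc ha hc1 ha1 hx hX m1 m2 hF0
  · exact R1_cell chkA13_15 covA13_15 muQ_pos muQ_lt hc ha hc1 ha1 hx hX m1 m2 hF0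
  · exact R1_cell chkA13_16 covA13_16 muQ_pos muQ_lt hc ha hc1 ha1 hx hX m1 m2 hF0
  · exact R1_cell chkA13_17 covA13_17 muQ_pos muQ_lt hc ha hc1 ha1 hx hX m1 m2 hF0
  · exact R1_cell chkA13_18 covA13_18 muQ_pos muQ_lt hc ha hc1 ha1 hx hX m1 m2 hF0

theorem r1row14 {c a : Fin 4 → ℝ} (hc : ∑ l, c l = 0) (ha : ∑ l, a l = 0) (hc1 : ∀ l, -1 < c l) (ha1 : ∀ l, -muQ.val ≤ a l)
    (hx : 0 < mom c 2) (hX : 0 < mom a 2) (hF0 : 0 ≤ Fr (mom c 2) (mom c 3) (mom c 4))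
    (hX0 : 0 ≤ mom a 2) (hX1 : mom a 2 < (1541 / 1024 : ℝ)) (m1 : Iv.mem ⟨5,6,8⟩ (mom c 2)) :
    avgT a (fun b => ZZ c b * xx (uu c b)) ≤ mom c 2 + mom a 2 - 2 / 3 * mom a 2 * GG c
      - GG a * Fr (mom c 2) (mom c 3) (mom c 4) - mom c 2 ^ 2 * mom a 2 ^ 2 / dltD := by
  rcases binA1 hX0 hX1 with m2 | m2 | m2 | m2 | m2 | m2 | m2 | m2 | m2 | m2 | m2 | m2 | m2 | m2 | m2 | m2 | m2 | m2 | m2
  · exact R1_cell chkA14_0 covA14_0 muQ_pos muQ_lt hc ha hc1 ha1 hx hX m1 m2 hF0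
  · exact R1_cell chkA14_1 covA14_1 muQ_pos muQ_lt hc ha hc1 ha1 hx hX m1 m2 hF0
  · exact R1_cell chkA14_2 covA14_2 muQ_pos muQ_lt hc ha hc1 ha1 hx hX m1 m2 hF0
  · exact R1_cell chkA14_3 covA14_3 muQ_pos muQ_lt hc ha hc1 ha1 hx hX m1 m2 hF0
  · exact R1_cell chkA14_4 covA14_4 muQ_pos muQ_lt hc ha hc1 ha1 hx hX m1 m2 hF0
  · exact R1_cell chkA14_5 covA14_5 muQ_pos muQ_lt hc ha hc1 ha1 hx hX m1 m2 hF0
  · exact R1_cell chkA14_6 covA14_6 muQ_pos muQ_lt hc ha hc1 ha1 hx hX m1 m2 hF0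
  · exact R1_cell chkA14_7 covA14_7 muQ_pos muQ_lt hc ha hc1 ha1 hx hX m1 m2 hF0
  · exact R1_cell chkA14_8 covA14_8 muQ_pos muQ_lt hc ha hc1 ha1 hx hX m1 m2 hF0
  · exact R1_cell chkA14_9 covA14_9 muQ_pos muQ_lt hc ha hc1 ha1 hx hX m1 m2 hF0
  · exact R1_cell chkA14_10 covA14_10 muQ_pos muQ_lt hc ha hc1 ha1 hx hX m1 m2 hF0
  · exact R1_cell chkA14_11 covA14_11 muQ_pos muQ_lt hc ha hc1 ha1 hx hX m1 m2 hF0
  · exact R1_cell chkA14_12 covA14_12 muQ_pos muQ_lt hc ha hc1 ha1 hx hX m1 m2 hF0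
  · exact R1_cell chkA14_13 covA14_13 muQ_pos muQ_lt hc ha hc1 ha1 hx hX m1 m2 hF0
  · exact R1_cell chkA14_14 covA14_14 muQ_pos muQ_lt hc ha hc1 ha1 hx hX m1 m2 hF0
  · exact R1_cell chkA14_15 covA14_15 muQ_pos muQ_lt hc ha hc1 ha1 hx hX m1 m2 hF0
  · exact R1_cell chkA14_16 covA14_16 muQ_pos muQ_lt hc ha hc1 ha1 hx hX m1 m2 hF0
  · exact R1_cell chkA14_17 covA14_17 muQ_pos muQ_lt hc ha hc1 ha1 hx hX m1 m2 hF0
  · exact R1_cell chkA14_18 covA14_18 muQ_pos muQ_lt hc ha hc1 ha1 hx hX m1 m2 hF0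

theorem r1row15 {c a : Fin 4 → ℝ} (hc : ∑ l, c l = 0) (ha : ∑ l, a l = 0) (hc1 : ∀ l, -1 < c l) (ha1 : ∀ l, -muQ.val ≤ a l)
    (hx : 0 < mom c 2) (hX : 0 < mom a 2) (hF0 : 0 ≤ Fr (mom c 2) (mom c 3) (mom c 4))
    (hX0 : 0 ≤ mom a 2) (hX1 : mom a 2 < (1541 / 1024 : ℝ)) (m1 : Iv.mem ⟨3,4,4⟩ (mom c 2)) :
    avgT a (fun b => ZZ c b * xx (uu c b)) ≤ mom c 2 + mom a 2 - 2 / 3 * mom a 2 * GG c
      - GG a * Fr (mom c 2) (mom c 3) (mom c 4) - mom c 2 ^ 2 * mom a 2 ^ 2 / dltD := by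
  rcases binA1 hX0 hX1 with m2 | m2 | m2 | m2 | m2 | m2 | m2 | m2 | m2 | m2 | m2 | m2 | m2 | m2 | m2 | m2 | m2 | m2 | m2
  · exact R1_cell chkA15_0 covA15_0 muQ_pos muQ_lt hc ha hc1 ha1 hx hX m1 m2 hF0
  · exact R1_cell chkA15_1 covA15_1 muQ_pos muQ_lt hc ha hc1 ha1 hx hX m1 m2 hF0
  · exact R1_cell chkA15_2 covA15_2 muQ_pos muQ_lt hc ha hc1 ha1 hx hX m1 m2 hF0
  · exact R1_cell chkA15_3 covA15_3 muQ_pos muQ_lt hc ha hc1 ha1 hx hX m1 m2 hF0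
  · exact R1_cell chkA15_4 covA15_4 muQ_pos muQ_lt hc ha hc1 ha1 hx hX m1 m2 hF0
  · exact R1_cell chkA15_5 covA15_5 muQ_pos muQ_lt hc ha hc1 ha1 hx hX m1 m2 hF0
  · exact R1_cell chkA15_6 covA15_6 muQ_pos muQ_lt hc ha hc1 ha1 hx hX m1 m2 hF0
  · exact R1_cell chkA15_7 covA15_7 muQ_pos muQ_lt hc ha hc1 ha1 hx hX m1 m2 hF0
  · exact R1_cell chkA15_8 covA15_8 muQ_pos muQ_lt hc ha hc1 ha1 hx hX m1 m2 hF0
  · exact R1_cell chkA15_9 covA15_9 muQ_pos muQ_lt hc ha hc1 ha1 hx hX m1 m2 hF0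
  · exact R1_cell chkA15_10 covA15_10 muQ_pos muQ_lt hc ha hc1 ha1 hx hX m1 m2 hF0
  · exact R1_cell chkA15_11 covA15_11 muQ_pos muQ_lt hc ha hc1 ha1 hx hX m1 m2 hF0
  · exact R1_cell chkA15_12 covA15_12 muQ_pos muQ_lt hc ha hc1 ha1 hx hX m1 m2 hF0
  · exact R1_cell chkA15_13 covA15_13 muQ_pos muQ_lt hc ha hc1 ha1 hx hX m1 m2 hF0
  · exact R1_cell chkA15_14 covA15_14 muQ_pos muQ_lt hc ha hc1 ha1 hx hX m1 m2 hF0
  · exact R1_cell chkA15_15 covA15_15 muQ_pos muQ_lt hc ha hc1 ha1 hx hX m1 m2 hF0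
  · exact R1_cell chkA15_16 covA15_16 muQ_pos muQ_lt hc ha hc1 ha1 hx hX m1 m2 hF0
  · exact R1_cell chkA15_17 covA15_17 muQ_pos muQ_lt hc ha hc1 ha1 hx hX m1 m2 hF0
  · exact R1_cell chkA15_18 covA15_18 muQ_pos muQ_lt hc ha hc1 ha1 hx hX m1 m2 hF0

theorem r1row16 {c a : Fin 4 → ℝ} (hc : ∑ l, c l = 0) (ha : ∑ l, a l = 0) (hc1 : ∀ l, -1 < c l) (ha1 : ∀ l, -muQ.val ≤ a l)
    (hx : 0 < mom c 2) (hX : 0 < mom a 2) (hF0 : 0 ≤ Fr (mom c 2) (mom c 3) (mom c 4))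
    (hX0 : 0 ≤ mom a 2) (hX1 : mom a 2 < (1541 / 1024 : ℝ)) (m1 : Iv.mem ⟨4,5,4⟩ (mom c 2)) :
    avgT a (fun b => ZZ c b * xx (uu c b)) ≤ mom c 2 + mom a 2 - 2 / 3 * mom a 2 * GG c
      - GG a * Fr (mom c 2) (mom c 3) (mom c 4) - mom c 2 ^ 2 * mom a 2 ^ 2 / dltD := by
  rcases binA1 hX0 hX1 with m2 | m2 | m2 | m2 | m2 | m2 | m2 | m2 | m2 | m2 | m2 | m2 | m2 | m2 | m2 | m2 | m2 | m2 | m2
  · exact R1_cell chkA16_0 covA16_0 muQ_pos muQ_lt hc ha hc1 ha1 hx hX m1 m2 hF0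
  · exact R1_cell chkA16_1 covA16_1 muQ_pos muQ_lt hc ha hc1 ha1 hx hX m1 m2 hF0
  · exact R1_cell chkA16_2 covA16_2 muQ_pos muQ_lt hc ha hc1 ha1 hx hX m1 m2 hF0
  · exact R1_cell chkA16_3 covA16_3 muQ_pos muQ_lt hc ha hc1 ha1 hx hX m1 m2 hF0
  · exact R1_cell chkA16_4 covA16_4 muQ_pos muQ_lt hc ha hc1 ha1 hx hX m1 m2 hF0
  · exact R1_cell chkA16_5 covA16_5 muQ_pos muQ_lt hc ha hc1 ha1 hx hX m1 m2 hF0
  · exact R1_cell chkA16_6 covA16_6 muQ_pos muQ_lt hc ha hc1 ha1 hx hX m1 m2 hF0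
  · exact R1_cell chkA16_7 covA16_7 muQ_pos muQ_lt hc ha hc1 ha1 hx hX m1 m2 hF0
  · exact R1_cell chkA16_8 covA16_8 muQ_pos muQ_lt hc ha hc1 ha1 hx hX m1 m2 hF0
  · exact R1_cell chkA16_9 covA16_9 muQ_pos muQ_lt hc ha hc1 ha1 hx hX m1 m2 hF0
  · exact R1_cell chkA16_10 covA16_10 muQ_pos muQ_lt hc ha hc1 ha1 hx hX m1 m2 hF0
  · exact R1_cell chkA16_11 covA16_11 muQ_pos muQ_lt hc ha hc1 ha1 hx hX m1 m2 hF0
  · exact R1_cell chkA16_12 covA16_12 muQ_pos muQ_lt hc ha hc1 ha1 hx hX m1 m2 hF0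
  · exact R1_cell chkA16_13 covA16_13 muQ_pos muQ_lt hc ha hc1 ha1 hx hX m1 m2 hF0
  · exact R1_cell chkA16_14 covA16_14 muQ_pos muQ_lt hc ha hc1 ha1 hx hX m1 m2 hF0
  · exact R1_cell chkA16_15 covA16_15 muQ_pos muQ_lt hc ha hc1 ha1 hx hX m1 m2 hF0
  · exact R1_cell chkA16_16 covA16_16 muQ_pos muQ_lt hc ha hc1 ha1 hx hX m1 m2 hF0
  · exact R1_cell chkA16_17 covA16_17 muQ_pos muQ_lt hc ha hc1 ha1 hx hX m1 m2 hF0
  · exact R1_cell chkA16_18 covA16_18 muQ_pos muQ_lt hc ha hc1 ha1 hx hX m1 m2 hF0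

theorem r1row17 {c a : Fin 4 → ℝ} (hc : ∑ l, c l = 0) (ha : ∑ l, a l = 0) (hc1 : ∀ l, -1 < c l) (ha1 : ∀ l, -muQ.val ≤ a l)
    (hx : 0 < mom c 2) (hX : 0 < mom a 2) (hF0 : 0 ≤ Fr (mom c 2) (mom c 3) (mom c 4))
    (hX0 : 0 ≤ mom a 2) (hX1 : mom a 2 < (1541 / 1024 : ℝ)) (m1 : Iv.mem ⟨5,6,4⟩ (mom c 2)) :
    avgT a (fun b => ZZ c b * xx (uu c b)) ≤ mom c 2 + mom a 2 - 2 / 3 * mom a 2 * GG c
      - GG a * Fr (mom c 2) (mom c 3) (mom c 4) - mom c 2 ^ 2 * mom a 2 ^ 2 / dltD := by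
  rcases binA1 hX0 hX1 with m2 | m2 | m2 | m2 | m2 | m2 | m2 | m2 | m2 | m2 | m2 | m2 | m2 | m2 | m2 | m2 | m2 | m2 | m2
  · exact R1_cell chkA17_0 covA17_0 muQ_pos muQ_lt hc ha hc1 ha1 hx hX m1 m2 hF0
  · exact R1_cell chkA17_1 covA17_1 muQ_pos muQ_lt hc ha hc1 ha1 hx hX m1 m2 hF0
  · exact R1_cell chkA17_2 covA17_2 muQ_pos muQ_lt hc ha hc1 ha1 hx hX m1 m2 hF0
  · exact R1_cell chkA17_3 covA17_3 muQ_pos muQ_lt hc ha hc1 ha1 hx hX m1 m2 hF0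
  · exact R1_cell chkA17_4 covA17_4 muQ_pos muQ_lt hc ha hc1 ha1 hx hX m1 m2 hF0
  · exact R1_cell chkA17_5 covA17_5 muQ_pos muQ_lt hc ha hc1 ha1 hx hX m1 m2 hF0
  · exact R1_cell chkA17_6 covA17_6 muQ_pos muQ_lt hc ha hc1 ha1 hx hX m1 m2 hF0
  · exact R1_cell chkA17_7 covA17_7 muQ_pos muQ_lt hc ha hc1 ha1 hx hX m1 m2 hF0
  · exact R1_cell chkA17_8 covA17_8 muQ_pos muQ_lt hc ha hc1 ha1 hx hX m1 m2 hF0
  · exact R1_cell chkA17_9 covA17_9 muQ_pos muQ_lt hc ha hc1 ha1 hx hX m1 m2 hF0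
  · exact R1_cell chkA17_10 covA17_10 muQ_pos muQ_lt hc ha hc1 ha1 hx hX m1 m2 hF0
  · exact R1_cell chkA17_11 covA17_11 muQ_pos muQ_lt hc ha hc1 ha1 hx hX m1 m2 hF0
  · exact R1_cell chkA17_12 covA17_12 muQ_pos muQ_lt hc ha hc1 ha1 hx hX m1 m2 hF0
  · exact R1_cell chkA17_13 covA17_13 muQ_pos muQ_lt hc ha hc1 ha1 hx hX m1 m2 hF0
  · exact R1_cell chkA17_14 covA17_14 muQ_pos muQ_lt hc ha hc1 ha1 hx hX m1 m2 hF0
  · exact R1_cell chkA17_15 covA17_15 muQ_pos muQ_lt hc ha hc1 ha1 hx hX m1 m2 hF0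
  · exact R1_cell chkA17_16 covA17_16 muQ_pos muQ_lt hc ha hc1 ha1 hx hX m1 m2 hF0
  · exact R1_cell chkA17_17 covA17_17 muQ_pos muQ_lt hc ha hc1 ha1 hx hX m1 m2 hF0
  · exact R1_cell chkA17_18 covA17_18 muQ_pos muQ_lt hc ha hc1 ha1 hx hX m1 m2 hF0

theorem r1row18 {c a : Fin 4 → ℝ} (hc : ∑ l, c l = 0) (ha : ∑ l, a l = 0) (hc1 : ∀ l, -1 < c l) (ha1 : ∀ l, -muQ.val ≤ a l)
    (hx : 0 < mom c 2) (hX : 0 < mom a 2) (hF0 : 0 ≤ Fr (mom c 2) (mom c 3) (mom c 4))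
    (hX0 : 0 ≤ mom a 2) (hX1 : mom a 2 < (1541 / 1024 : ℝ)) (m1 : Iv.mem ⟨6,7,4⟩ (mom c 2)) :
    avgT a (fun b => ZZ c b * xx (uu c b)) ≤ mom c 2 + mom a 2 - 2 / 3 * mom a 2 * GG c
      - GG a * Fr (mom c 2) (mom c 3) (mom c 4) - mom c 2 ^ 2 * mom a 2 ^ 2 / dltD := by
  rcases binA1 hX0 hX1 with m2 | m2 | m2 | m2 | m2 | m2 | m2 | m2 | m2 | m2 | m2 | m2 | m2 | m2 | m2 | m2 | m2 | m2 | m2
  · exact R1_cell chkA18_0 covA18_0 muQ_pos muQ_lt hc ha hc1 ha1 hx hX m1 m2 hF0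
  · exact R1_cell chkA18_1 covA18_1 muQ_pos muQ_lt hc ha hc1 ha1 hx hX m1 m2 hF0
  · exact R1_cell chkA18_2 covA18_2 muQ_pos muQ_lt hc ha hc1 ha1 hx hX m1 m2 hF0
  · exact R1_cell chkA18_3 covA18_3 muQ_pos muQ_lt hc ha hc1 ha1 hx hX m1 m2 hF0
  · exact R1_cell chkA18_4 covA18_4 muQ_pos muQ_lt hc ha hc1 ha1 hx hX m1 m2 hF0
  · exact R1_cell chkA18_5 covA18_5 muQ_pos muQ_lt hc ha hc1 ha1 hx hX m1 m2 hF0
  · exact R1_cell chkA18_6 covA18_6 muQ_pos muQ_lt hc ha hc1 ha1 hx hX m1 m2 hF0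
  · exact R1_cell chkA18_7 covA18_7 muQ_pos muQ_lt hc ha hc1 ha1 hx hX m1 m2 hF0
  · exact R1_cell chkA18_8 covA18_8 muQ_pos muQ_lt hc ha hc1 ha1 hx hX m1 m2 hF0
  · exact R1_cell chkA18_9 covA18_9 muQ_pos muQ_lt hc ha hc1 ha1 hx hX m1 m2 hF0
  · exact R1_cell chkA18_10 covA18_10 muQ_pos muQ_lt hc ha hc1 ha1 hx hX m1 m2 hF0
  · exact R1_cell chkA18_11 covA18_11 muQ_pos muQ_lt hc ha hc1 ha1 hx hX m1 m2 hF0
  · exact R1_cell chkA18_12 covA18_12 muQ_pos muQ_lt hc ha hc1 ha1 hx hX m1 m2 hF0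
  · exact R1_cell chkA18_13 covA18_13 muQ_pos muQ_lt hc ha hc1 ha1 hx hX m1 m2 hF0
  · exact R1_cell chkA18_14 covA18_14 muQ_pos muQ_lt hc ha hc1 ha1 hx hX m1 m2 hF0
  · exact R1_cell chkA18_15 covA18_15 muQ_pos muQ_lt hc ha hc1 ha1 hx hX m1 m2 hF0
  · exact R1_cell chkA18_16 covA18_16 muQ_pos muQ_lt hc ha hc1 ha1 hx hX m1 m2 hF0
  · exact R1_cell chkA18_17 covA18_17 muQ_pos muQ_lt hc ha hc1 ha1 hx hX m1 m2 hF0
  · exact R1_cell chkA18_18 covA18_18 muQ_pos muQ_lt hc ha hc1 ha1 hx hX m1 m2 hF0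

theorem r1row19 {c a : Fin 4 → ℝ} (hc : ∑ l, c l = 0) (ha : ∑ l, a l = 0) (hc1 : ∀ l, -1 < c l) (ha1 : ∀ l, -muQ.val ≤ a l)
    (hx : 0 < mom c 2) (hX : 0 < mom a 2) (hF0 : 0 ≤ Fr (mom c 2) (mom c 3) (mom c 4))
    (hX0 : 0 ≤ mom a 2) (hX1 : mom a 2 < (1541 / 1024 : ℝ)) (m1 : Iv.mem ⟨7,8,4⟩ (mom c 2)) :
    avgT a (fun b => ZZ c b * xx (uu c b)) ≤ mom c 2 + mom a 2 - 2 / 3 * mom a 2 * GG c
      - GG a * Fr (mom c 2) (mom c 3) (mom c 4) - mom c 2 ^ 2 * mom a 2 ^ 2 / dltD := by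
  rcases binA1 hX0 hX1 with m2 | m2 | m2 | m2 | m2 | m2 | m2 | m2 | m2 | m2 | m2 | m2 | m2 | m2 | m2 | m2 | m2 | m2 | m2
  · exact R1_cell chkA19_0 covA19_0 muQ_pos muQ_lt hc ha hc1 ha1 hx hX m1 m2 hF0
  · exact R1_cell chkA19_1 covA19_1 muQ_pos muQ_lt hc ha hc1 ha1 hx hX m1 m2 hF0
  · exact R1_cell chkA19_2 covA19_2 muQ_pos muQ_lt hc ha hc1 ha1 hx hX m1 m2 hF0
  · exact R1_cell chkA19_3 covA19_3 muQ_pos muQ_lt hc ha hc1 ha1 hx hX m1 m2 hF0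
  · exact R1_cell chkA19_4 covA19_4 muQ_pos muQ_lt hc ha hc1 ha1 hx hX m1 m2 hF0
  · exact R1_cell chkA19_5 covA19_5 muQ_pos muQ_lt hc ha hc1 ha1 hx hX m1 m2 hF0
  · exact R1_cell chkA19_6 covA19_6 muQ_pos muQ_lt hc ha hc1 ha1 hx hX m1 m2 hF0
  · exact R1_cell chkA19_7 covA19_7 muQ_pos muQ_lt hc ha hc1 ha1 hx hX m1 m2 hF0
  · exact R1_cell chkA19_8 covA19_8 muQ_pos muQ_lt hc ha hc1 ha1 hx hX m1 m2 hF0
  · exact R1_cell chkA19_9 covA19_9 muQ_pos muQ_lt hc ha hc1 ha1 hx hX m1 m2 hF0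
  · exact R1_cell chkA19_10 covA19_10 muQ_pos muQ_lt hc ha hc1 ha1 hx hX m1 m2 hF0
  · exact R1_cell chkA19_11 covA19_11 muQ_pos muQ_lt hc ha hc1 ha1 hx hX m1 m2 hF0
  · exact R1_cell chkA19_12 covA19_12 muQ_pos muQ_lt hc ha hc1 ha1 hx hX m1 m2 hF0
  · exact R1_cell chkA19_13 covA19_13 muQ_pos muQ_lt hc ha hc1 ha1 hx hX m1 m2 hF0
  · exact R1_cell chkA19_14 covA19_14 muQ_pos muQ_lt hc ha hc1 ha1 hx hX m1 m2 hF0
  · exact R1_cell chkA19_15 covA19_15 muQ_pos muQ_lt hc ha hc1 ha1 hx hX m1 m2 hF0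
  · exact R1_cell chkA19_16 covA19_16 muQ_pos muQ_lt hc ha hc1 ha1 hx hX m1 m2 hF0
  · exact R1_cell chkA19_17 covA19_17 muQ_pos muQ_lt hc ha hc1 ha1 hx hX m1 m2 hF0
  · exact R1_cell chkA19_18 covA19_18 muQ_pos muQ_lt hc ha hc1 ha1 hx hX m1 m2 hF0

theorem r1row20 {c a : Fin 4 → ℝ} (hc : ∑ l, c l = 0) (ha : ∑ l, a l = 0) (hc1 : ∀ l, -1 < c l) (ha1 : ∀ l, -muQ.val ≤ a l)
    (hx : 0 < mom c 2) (hX : 0 < mom a 2) (hF0 : 0 ≤ Fr (mom c 2) (mom c 3) (mom c 4))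
    (hX0 : 0 ≤ mom a 2) (hX1 : mom a 2 < (1541 / 1024 : ℝ)) (m1 : Iv.mem ⟨8,9,4⟩ (mom c 2)) :
    avgT a (fun b => ZZ c b * xx (uu c b)) ≤ mom c 2 + mom a 2 - 2 / 3 * mom a 2 * GG c
      - GG a * Fr (mom c 2) (mom c 3) (mom c 4) - mom c 2 ^ 2 * mom a 2 ^ 2 / dltD := by
  rcases binA1 hX0 hX1 with m2 | m2 | m2 | m2 | m2 | m2 | m2 | m2 | m2 | m2 | m2 | m2 | m2 | m2 | m2 | m2 | m2 | m2 | m2
  · exact R1_cell chkA20_0 covA20_0 muQ_pos muQ_lt hc ha hc1 ha1 hx hX m1 m2 hF0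
  · exact R1_cell chkA20_1 covA20_1 muQ_pos muQ_lt hc ha hc1 ha1 hx hX m1 m2 hF0
  · exact R1_cell chkA20_2 covA20_2 muQ_pos muQ_lt hc ha hc1 ha1 hx hX m1 m2 hF0
  · exact R1_cell chkA20_3 covA20_3 muQ_pos muQ_lt hc ha hc1 ha1 hx hX m1 m2 hF0
  · exact R1_cell chkA20_4 covA20_4 muQ_pos muQ_lt hc ha hc1 ha1 hx hX m1 m2 hF0
  · exact R1_cell chkA20_5 covA20_5 muQ_pos muQ_lt hc ha hc1 ha1 hx hX m1 m2 hF0
  · exact R1_cell chkA20_6 covA20_6 muQ_pos muQ_lt hc ha hc1 ha1 hx hX m1 m2 hF0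
  · exact R1_cell chkA20_7 covA20_7 muQ_pos muQ_lt hc ha hc1 ha1 hx hX m1 m2 hF0
  · exact R1_cell chkA20_8 covA20_8 muQ_pos muQ_lt hc ha hc1 ha1 hx hX m1 m2 hF0
  · exact R1_cell chkA20_9 covA20_9 muQ_pos muQ_lt hc ha hc1 ha1 hx hX m1 m2 hF0
  · exact R1_cell chkA20_10 covA20_10 muQ_pos muQ_lt hc ha hc1 ha1 hx hX m1 m2 hF0
  · exact R1_cell chkA20_11 covA20_11 muQ_pos muQ_lt hc ha hc1 ha1 hx hX m1 m2 hF0
  · exact R1_cell chkA20_12 covA20_12 muQ_pos muQ_lt hc ha hc1 ha1 hx hX m1 m2 hF0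
  · exact R1_cell chkA20_13 covA20_13 muQ_pos muQ_lt hc ha hc1 ha1 hx hX m1 m2 hF0
  · exact R1_cell chkA20_14 covA20_14 muQ_pos muQ_lt hc ha hc1 ha1 hx hX m1 m2 hF0
  · exact R1_cell chkA20_15 covA20_15 muQ_pos muQ_lt hc ha hc1 ha1 hx hX m1 m2 hF0
  · exact R1_cell chkA20_16 covA20_16 muQ_pos muQ_lt hc ha hc1 ha1 hx hX m1 m2 hF0
  · exact R1_cell chkA20_17 covA20_17 muQ_pos muQ_lt hc ha hc1 ha1 hx hX m1 m2 hF0
  · exact R1_cell chkA20_18 covA20_18 muQ_pos muQ_lt hc ha hc1 ha1 hx hX m1 m2 hF0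

theorem r1row21 {c a : Fin 4 → ℝ} (hc : ∑ l, c l = 0) (ha : ∑ l, a l = 0) (hc1 : ∀ l, -1 < c l) (ha1 : ∀ l, -muQ.val ≤ a l)
    (hx : 0 < mom c 2) (hX : 0 < mom a 2) (hF0 : 0 ≤ Fr (mom c 2) (mom c 3) (mom c 4))
    (hX0 : 0 ≤ mom a 2) (hX1 : mom a 2 < (1541 / 1024 : ℝ)) (m1 : Iv.mem ⟨9,10,4⟩ (mom c 2)) :
    avgT a (fun b => ZZ c b * xx (uu c b)) ≤ mom c 2 + mom a 2 - 2 / 3 * mom a 2 * GG c
      - GG a * Fr (mom c 2) (mom c 3) (mom c 4) - mom c 2 ^ 2 * mom a 2 ^ 2 / dltD := by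
  rcases binA1 hX0 hX1 with m2 | m2 | m2 | m2 | m2 | m2 | m2 | m2 | m2 | m2 | m2 | m2 | m2 | m2 | m2 | m2 | m2 | m2 | m2
  · exact R1_cell chkA21_0 covA21_0 muQ_pos muQ_lt hc ha hc1 ha1 hx hX m1 m2 hF0
  · exact R1_cell chkA21_1 covA21_1 muQ_pos muQ_lt hc ha hc1 ha1 hx hX m1 m2 hF0
  · exact R1_cell chkA21_2 covA21_2 muQ_pos muQ_lt hc ha hc1 ha1 hx hX m1 m2 hF0
  · exact R1_cell chkA21_3 covA21_3 muQ_pos muQ_lt hc ha hc1 ha1 hx hX m1 m2 hF0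
  · exact R1_cell chkA21_4 covA21_4 muQ_pos muQ_lt hc ha hc1 ha1 hx hX m1 m2 hF0
  · exact R1_cell chkA21_5 covA21_5 muQ_pos muQ_lt hc ha hc1 ha1 hx hX m1 m2 hF0
  · exact R1_cell chkA21_6 covA21_6 muQ_pos muQ_lt hc ha hc1 ha1 hx hX m1 m2 hF0
  · exact R1_cell chkA21_7 covA21_7 muQ_pos muQ_lt hc ha hc1 ha1 hx hX m1 m2 hF0
  · exact R1_cell chkA21_8 covA21_8 muQ_pos muQ_lt hc ha hc1 ha1 hx hX m1 m2 hF0
  · exact R1_cell chkA21_9 covA21_9 muQ_pos muQ_lt hc ha hc1 ha1 hx hX m1 m2 hF0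
  · exact R1_cell chkA21_10 covA21_10 muQ_pos muQ_lt hc ha hc1 ha1 hx hX m1 m2 hF0
  · exact R1_cell chkA21_11 covA21_11 muQ_pos muQ_lt hc ha hc1 ha1 hx hX m1 m2 hF0
  · exact R1_cell chkA21_12 covA21_12 muQ_pos muQ_lt hc ha hc1 ha1 hx hX m1 m2 hF0
  · exact R1_cell chkA21_13 covA21_13 muQ_pos muQ_lt hc ha hc1 ha1 hx hX m1 m2 hF0
  · exact R1_cell chkA21_14 covA21_14 muQ_pos muQ_lt hc ha hc1 ha1 hx hX m1 m2 hF0
  · exact R1_cell chkA21_15 covA21_15 muQ_pos muQ_lt hc ha hc1 ha1 hx hX m1 m2 hF0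
  · exact R1_cell chkA21_16 covA21_16 muQ_pos muQ_lt hc ha hc1 ha1 hx hX m1 m2 hF0
  · exact R1_cell chkA21_17 covA21_17 muQ_pos muQ_lt hc ha hc1 ha1 hx hX m1 m2 hF0
  · exact R1_cell chkA21_18 covA21_18 muQ_pos muQ_lt hc ha hc1 ha1 hx hX m1 m2 hF0

theorem r1row22 {c a : Fin 4 → ℝ} (hc : ∑ l, c l = 0) (ha : ∑ l, a l = 0) (hc1 : ∀ l, -1 < c l) (ha1 : ∀ l, -muQ.val ≤ a l)
    (hx : 0 < mom c 2) (hX : 0 < mom a 2) (hF0 : 0 ≤ Fr (mom c 2) (mom c 3) (mom c 4))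
    (hX0 : 0 ≤ mom a 2) (hX1 : mom a 2 < (1541 / 1024 : ℝ)) (m1 : Iv.mem ⟨10,11,4⟩ (mom c 2)) :
    avgT a (fun b => ZZ c b * xx (uu c b)) ≤ mom c 2 + mom a 2 - 2 / 3 * mom a 2 * GG c
      - GG a * Fr (mom c 2) (mom c 3) (mom c 4) - mom c 2 ^ 2 * mom a 2 ^ 2 / dltD := by
  rcases binA1 hX0 hX1 with m2 | m2 | m2 | m2 | m2 | m2 | m2 | m2 | m2 | m2 | m2 | m2 | m2 | m2 | m2 | m2 | m2 | m2 | m2
  · exact R1_cell chkA22_0 covA22_0 muQ_pos muQ_lt hc ha hc1 ha1 hx hX m1 m2 hF0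
  · exact R1_cell chkA22_1 covA22_1 muQ_pos muQ_lt hc ha hc1 ha1 hx hX m1 m2 hF0
  · exact R1_cell chkA22_2 covA22_2 muQ_pos muQ_lt hc ha hc1 ha1 hx hX m1 m2 hF0
  · exact R1_cell chkA22_3 covA22_3 muQ_pos muQ_lt hc ha hc1 ha1 hx hX m1 m2 hF0
  · exact R1_cell chkA22_4 covA22_4 muQ_pos muQ_lt hc ha hc1 ha1 hx hX m1 m2 hF0
  · exact R1_cell chkA22_5 covA22_5 muQ_pos muQ_lt hc ha hc1 ha1 hx hX m1 m2 hF0
  · exact R1_cell chkA22_6 covA22_6 muQ_pos muQ_lt hc ha hc1 ha1 hx hX m1 m2 hF0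
  · exact R1_cell chkA22_7 covA22_7 muQ_pos muQ_lt hc ha hc1 ha1 hx hX m1 m2 hF0
  · exact R1_cell chkA22_8 covA22_8 muQ_pos muQ_lt hc ha hc1 ha1 hx hX m1 m2 hF0
  · exact R1_cell chkA22_9 covA22_9 muQ_pos muQ_lt hc ha hc1 ha1 hx hX m1 m2 hF0
  · exact R1_cell chkA22_10 covA22_10 muQ_pos muQ_lt hc ha hc1 ha1 hx hX m1 m2 hF0
  · exact R1_cell chkA22_11 covA22_11 muQ_pos muQ_lt hc ha hc1 ha1 hx hX m1 m2 hF0
  · exact R1_cell chkA22_12 covA22_12 muQ_pos muQ_lt hc ha hc1 ha1 hx hX m1 m2 hF0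
  · exact R1_cell chkA22_13 covA22_13 muQ_pos muQ_lt hc ha hc1 ha1 hx hX m1 m2 hF0
  · exact R1_cell chkA22_14 covA22_14 muQ_pos muQ_lt hc ha hc1 ha1 hx hX m1 m2 hF0
  · exact R1_cell chkA22_15 covA22_15 muQ_pos muQ_lt hc ha hc1 ha1 hx hX m1 m2 hF0
  · exact R1_cell chkA22_16 covA22_16 muQ_pos muQ_lt hc ha hc1 ha1 hx hX m1 m2 hF0
  · exact R1_cell chkA22_17 covA22_17 muQ_pos muQ_lt hc ha hc1 ha1 hx hX m1 m2 hF0
  · exact R1_cell chkA22_18 covA22_18 muQ_pos muQ_lt hc ha hc1 ha1 hx hX m1 m2 hF0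

theorem r1row23 {c a : Fin 4 → ℝ} (hc : ∑ l, c l = 0) (ha : ∑ l, a l = 0) (hc1 : ∀ l, -1 < c l) (ha1 : ∀ l, -muQ.val ≤ a l)
    (hx : 0 < mom c 2) (hX : 0 < mom a 2) (hF0 : 0 ≤ Fr (mom c 2) (mom c 3) (mom c 4))
    (hX0 : 0 ≤ mom a 2) (hX1 : mom a 2 < (1541 / 1024 : ℝ)) (m1 : Iv.mem ⟨2816,3073,1024⟩ (mom c 2)) :
    avgT a (fun b => ZZ c b * xx (uu c b)) ≤ mom c 2 + mom a 2 - 2 / 3 * mom a 2 * GG c
      - GG a * Fr (mom c 2) (mom c 3) (mom c 4) - mom c 2 ^ 2 * mom a 2 ^ 2 / dltD := by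
  have h11 : 11 / 4 ≤ mom c 2 := by
    have := m1.1
    simp only at this
    push_cast at this
    linarith
  rcases binA1 hX0 hX1 with m2 | m2 | m2 | m2 | m2 | m2 | m2 | m2 | m2 | m2 | m2 | m2 | m2 | m2 | m2 | m2 | m2 | m2 | m2
  · exact R1_cellT chkA23_0 covA23_0 muQ_pos muQ_lt hc ha hc1 ha1 hx hX m1 m2 hF0 (GG_top hc hc1 h11)
  · exact R1_cellT chkA23_1 covA23_1 muQ_pos muQ_lt hc ha hc1 ha1 hx hX m1 m2 hF0 (GG_top hc hc1 h11)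
  · exact R1_cellT chkA23_2 covA23_2 muQ_pos muQ_lt hc ha hc1 ha1 hx hX m1 m2 hF0 (GG_top hc hc1 h11)
  · exact R1_cellT chkA23_3 covA23_3 muQ_pos muQ_lt hc ha hc1 ha1 hx hX m1 m2 hF0 (GG_top hc hc1 h11)
  · exact R1_cellT chkA23_4 covA23_4 muQ_pos muQ_lt hc ha hc1 ha1 hx hX m1 m2 hF0 (GG_top hc hc1 h11)
  · exact R1_cellT chkA23_5 covA23_5 muQ_pos muQ_lt hc ha hc1 ha1 hx hX m1 m2 hF0 (GG_top hc hc1 h11)
  · exact R1_cellT chkA23_6 covA23_6 muQ_pos muQ_lt hc ha hc1 ha1 hx hX m1 m2 hF0 (GG_top hc hc1 h11)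
  · exact R1_cellT chkA23_7 covA23_7 muQ_pos muQ_lt hc ha hc1 ha1 hx hX m1 m2 hF0 (GG_top hc hc1 h11)
  · exact R1_cellT chkA23_8 covA23_8 muQ_pos muQ_lt hc ha hc1 ha1 hx hX m1 m2 hF0 (GG_top hc hc1 h11)
  · exact R1_cellT chkA23_9 covA23_9 muQ_pos muQ_lt hc ha hc1 ha1 hx hX m1 m2 hF0 (GG_top hc hc1 h11)
  · exact R1_cellT chkA23_10 covA23_10 muQ_pos muQ_lt hc ha hc1 ha1 hx hX m1 m2 hF0 (GG_top hc hc1 h11)
  · exact R1_cellT chkA23_11 covA23_11 muQ_pos muQ_lt hc ha hc1 ha1 hx hX m1 m2 hF0 (GG_top hc hc1 h11)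
  · exact R1_cellT chkA23_12 covA23_12 muQ_pos muQ_lt hc ha hc1 ha1 hx hX m1 m2 hF0 (GG_top hc hc1 h11)
  · exact R1_cellT chkA23_13 covA23_13 muQ_pos muQ_lt hc ha hc1 ha1 hx hX m1 m2 hF0 (GG_top hc hc1 h11)
  · exact R1_cellT chkA23_14 covA23_14 muQ_pos muQ_lt hc ha hc1 ha1 hx hX m1 m2 hF0 (GG_top hc hc1 h11)
  · exact R1_cellT chkA23_15 covA23_15 muQ_pos muQ_lt hc ha hc1 ha1 hx hX m1 m2 hF0 (GG_top hc hc1 h11)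
  · exact R1_cellT chkA23_16 covA23_16 muQ_pos muQ_lt hc ha hc1 ha1 hx hX m1 m2 hF0 (GG_top hc hc1 h11)
  · exact R1_cellT chkA23_17 covA23_17 muQ_pos muQ_lt hc ha hc1 ha1 hx hX m1 m2 hF0 (GG_top hc hc1 h11)
  · exact R1_cellT chkA23_18 covA23_18 muQ_pos muQ_lt hc ha hc1 ha1 hx hX m1 m2 hF0 (GG_top hc hc1 h11)

theorem r2row0 {c a : Fin 4 → ℝ} (hc : ∑ l, c l = 0) (ha : ∑ l, a l = 0) (hc1 : ∀ l, -1 < c l) (ha1 : ∀ l, -muQ.val ≤ a l)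
    (hx : 0 < mom c 2) (hX : 0 < mom a 2) (hX0 : 0 ≤ mom a 2) (hX1 : mom a 2 < (1541 / 1024 : ℝ)) (m1 : Iv.mem ⟨0,1,64⟩ (mom c 2)) :
    (1 - rr (mom a 2)) * GG c + hr (mom c 2) * GG a ≤ avgT a (fun b => ZZ c b * GG (uu c b)) := by
  rcases binA2 hX0 hX1 with m2 | m2 | m2 | m2 | m2 | m2 | m2 | m2 | m2 | m2 | m2 | m2 | m2 | m2 | m2 | m2
  · exact R2_cell chkB0_0 covB0_0 muQ_pos muQ_lt hc ha hc1 ha1 hx hX m1 m2 (rr_nonneg (mom2_nonneg a)) (hr_le_one (mom2_nonneg c))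
  · exact R2_cell chkB0_1 covB0_1 muQ_pos muQ_lt hc ha hc1 ha1 hx hX m1 m2 (rr_nonneg (mom2_nonneg a)) (hr_le_one (mom2_nonneg c))
  · exact R2_cell chkB0_2 covB0_2 muQ_pos muQ_lt hc ha hc1 ha1 hx hX m1 m2 (rr_nonneg (mom2_nonneg a)) (hr_le_one (mom2_nonneg c))
  · exact R2_cell chkB0_3 covB0_3 muQ_pos muQ_lt hc ha hc1 ha1 hx hX m1 m2 (rr_nonneg (mom2_nonneg a)) (hr_le_one (mom2_nonneg c))
  · exact R2_cell chkB0_4 covB0_4 muQ_pos muQ_lt hc ha hc1 ha1 hx hX m1 m2 (rr_nonneg (mom2_nonneg a)) (hr_le_one (mom2_nonneg c))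
  · exact R2_cell chkB0_5 covB0_5 muQ_pos muQ_lt hc ha hc1 ha1 hx hX m1 m2 (rr_nonneg (mom2_nonneg a)) (hr_le_one (mom2_nonneg c))
  · exact R2_cell chkB0_6 covB0_6 muQ_pos muQ_lt hc ha hc1 ha1 hx hX m1 m2 (rr_nonneg (mom2_nonneg a)) (hr_le_one (mom2_nonneg c))
  · exact R2_cell chkB0_7 covB0_7 muQ_pos muQ_lt hc ha hc1 ha1 hx hX m1 m2 (rr_nonneg (mom2_nonneg a)) (hr_le_one (mom2_nonneg c))
  · exact R2_cell chkB0_8 covB0_8 muQ_pos muQ_lt hc ha hc1 ha1 hx hX m1 m2 (rr_nonneg (mom2_nonneg a)) (hr_le_one (mom2_nonneg c))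
  · exact R2_cell chkB0_9 covB0_9 muQ_pos muQ_lt hc ha hc1 ha1 hx hX m1 m2 (rr_nonneg (mom2_nonneg a)) (hr_le_one (mom2_nonneg c))
  · exact R2_cell chkB0_10 covB0_10 muQ_pos muQ_lt hc ha hc1 ha1 hx hX m1 m2 (rr_nonneg (mom2_nonneg a)) (hr_le_one (mom2_nonneg c))
  · exact R2_cell chkB0_11 covB0_11 muQ_pos muQ_lt hc ha hc1 ha1 hx hX m1 m2 (rr_nonneg (mom2_nonneg a)) (hr_le_one (mom2_nonneg c))
  · exact R2_cell chkB0_12 covB0_12 muQ_pos muQ_lt hc ha hc1 ha1 hx hX m1 m2 (rr_nonneg (mom2_nonneg a)) (hr_le_one (mom2_nonneg c))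
  · exact R2_cell chkB0_13 covB0_13 muQ_pos muQ_lt hc ha hc1 ha1 hx hX m1 m2 (rr_nonneg (mom2_nonneg a)) (hr_le_one (mom2_nonneg c))
  · exact R2_cell chkB0_14 covB0_14 muQ_pos muQ_lt hc ha hc1 ha1 hx hX m1 m2 (rr_nonneg (mom2_nonneg a)) (hr_le_one (mom2_nonneg c))
  · exact R2_cell chkB0_15 covB0_15 muQ_pos muQ_lt hc ha hc1 ha1 hx hX m1 m2 (rr_nonneg (mom2_nonneg a)) (hr_le_one (mom2_nonneg c))

theorem r2row1 {c a : Fin 4 → ℝ} (hc : ∑ l, c l = 0) (ha : ∑ l, a l = 0) (hc1 : ∀ l, -1 < c l) (ha1 : ∀ l, -muQ.val ≤ a l)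
    (hx : 0 < mom c 2) (hX : 0 < mom a 2) (hX0 : 0 ≤ mom a 2) (hX1 : mom a 2 < (1541 / 1024 : ℝ)) (m1 : Iv.mem ⟨1,2,64⟩ (mom c 2)) :
    (1 - rr (mom a 2)) * GG c + hr (mom c 2) * GG a ≤ avgT a (fun b => ZZ c b * GG (uu c b)) := by
  rcases binA2 hX0 hX1 with m2 | m2 | m2 | m2 | m2 | m2 | m2 | m2 | m2 | m2 | m2 | m2 | m2 | m2 | m2 | m2
  · exact R2_cell chkB1_0 covB1_0 muQ_pos muQ_lt hc ha hc1 ha1 hx hX m1 m2 (rr_nonneg (mom2_nonneg a)) (hr_le_one (mom2_nonneg c))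
  · exact R2_cell chkB1_1 covB1_1 muQ_pos muQ_lt hc ha hc1 ha1 hx hX m1 m2 (rr_nonneg (mom2_nonneg a)) (hr_le_one (mom2_nonneg c))
  · exact R2_cell chkB1_2 covB1_2 muQ_pos muQ_lt hc ha hc1 ha1 hx hX m1 m2 (rr_nonneg (mom2_nonneg a)) (hr_le_one (mom2_nonneg c))
  · exact R2_cell chkB1_3 covB1_3 muQ_pos muQ_lt hc ha hc1 ha1 hx hX m1 m2 (rr_nonneg (mom2_nonneg a)) (hr_le_one (mom2_nonneg c))
  · exact R2_cell chkB1_4 covB1_4 muQ_pos muQ_lt hc ha hc1 ha1 hx hX m1 m2 (rr_nonneg (mom2_nonneg a)) (hr_le_one (mom2_nonneg c))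
  · exact R2_cell chkB1_5 covB1_5 muQ_pos muQ_lt hc ha hc1 ha1 hx hX m1 m2 (rr_nonneg (mom2_nonneg a)) (hr_le_one (mom2_nonneg c))
  · exact R2_cell chkB1_6 covB1_6 muQ_pos muQ_lt hc ha hc1 ha1 hx hX m1 m2 (rr_nonneg (mom2_nonneg a)) (hr_le_one (mom2_nonneg c))
  · exact R2_cell chkB1_7 covB1_7 muQ_pos muQ_lt hc ha hc1 ha1 hx hX m1 m2 (rr_nonneg (mom2_nonneg a)) (hr_le_one (mom2_nonneg c))
  · exact R2_cell chkB1_8 covB1_8 muQ_pos muQ_lt hc ha hc1 ha1 hx hX m1 m2 (rr_nonneg (mom2_nonneg a)) (hr_le_one (mom2_nonneg c))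
  · exact R2_cell chkB1_9 covB1_9 muQ_pos muQ_lt hc ha hc1 ha1 hx hX m1 m2 (rr_nonneg (mom2_nonneg a)) (hr_le_one (mom2_nonneg c))
  · exact R2_cell chkB1_10 covB1_10 muQ_pos muQ_lt hc ha hc1 ha1 hx hX m1 m2 (rr_nonneg (mom2_nonneg a)) (hr_le_one (mom2_nonneg c))
  · exact R2_cell chkB1_11 covB1_11 muQ_pos muQ_lt hc ha hc1 ha1 hx hX m1 m2 (rr_nonneg (mom2_nonneg a)) (hr_le_one (mom2_nonneg c))
  · exact R2_cell chkB1_12 covB1_12 muQ_pos muQ_lt hc ha hc1 ha1 hx hX m1 m2 (rr_nonneg (mom2_nonneg a)) (hr_le_one (mom2_nonneg c))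
  · exact R2_cell chkB1_13 covB1_13 muQ_pos muQ_lt hc ha hc1 ha1 hx hX m1 m2 (rr_nonneg (mom2_nonneg a)) (hr_le_one (mom2_nonneg c))
  · exact R2_cell chkB1_14 covB1_14 muQ_pos muQ_lt hc ha hc1 ha1 hx hX m1 m2 (rr_nonneg (mom2_nonneg a)) (hr_le_one (mom2_nonneg c))
  · exact R2_cell chkB1_15 covB1_15 muQ_pos muQ_lt hc ha hc1 ha1 hx hX m1 m2 (rr_nonneg (mom2_nonneg a)) (hr_le_one (mom2_nonneg c))

theorem r2row2 {c a : Fin 4 → ℝ} (hc : ∑ l, c l = 0) (ha : ∑ l, a l = 0) (hc1 : ∀ l, -1 < c l) (ha1 : ∀ l, -muQ.val ≤ a l)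
    (hx : 0 < mom c 2) (hX : 0 < mom a 2) (hX0 : 0 ≤ mom a 2) (hX1 : mom a 2 < (1541 / 1024 : ℝ)) (m1 : Iv.mem ⟨1,2,32⟩ (mom c 2)) :
    (1 - rr (mom a 2)) * GG c + hr (mom c 2) * GG a ≤ avgT a (fun b => ZZ c b * GG (uu c b)) := by
  rcases binA2 hX0 hX1 with m2 | m2 | m2 | m2 | m2 | m2 | m2 | m2 | m2 | m2 | m2 | m2 | m2 | m2 | m2 | m2
  · exact R2_cell chkB2_0 covB2_0 muQ_pos muQ_lt hc ha hc1 ha1 hx hX m1 m2 (rr_nonneg (mom2_nonneg a)) (hr_le_one (mom2_nonneg c))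
  · exact R2_cell chkB2_1 covB2_1 muQ_pos muQ_lt hc ha hc1 ha1 hx hX m1 m2 (rr_nonneg (mom2_nonneg a)) (hr_le_one (mom2_nonneg c))
  · exact R2_cell chkB2_2 covB2_2 muQ_pos muQ_lt hc ha hc1 ha1 hx hX m1 m2 (rr_nonneg (mom2_nonneg a)) (hr_le_one (mom2_nonneg c))
  · exact R2_cell chkB2_3 covB2_3 muQ_pos muQ_lt hc ha hc1 ha1 hx hX m1 m2 (rr_nonneg (mom2_nonneg a)) (hr_le_one (mom2_nonneg c))
  · exact R2_cell chkB2_4 covB2_4 muQ_pos muQ_lt hc ha hc1 ha1 hx hX m1 m2 (rr_nonneg (mom2_nonneg a)) (hr_le_one (mom2_nonneg c))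
  · exact R2_cell chkB2_5 covB2_5 muQ_pos muQ_lt hc ha hc1 ha1 hx hX m1 m2 (rr_nonneg (mom2_nonneg a)) (hr_le_one (mom2_nonneg c))
  · exact R2_cell chkB2_6 covB2_6 muQ_pos muQ_lt hc ha hc1 ha1 hx hX m1 m2 (rr_nonneg (mom2_nonneg a)) (hr_le_one (mom2_nonneg c))
  · exact R2_cell chkB2_7 covB2_7 muQ_pos muQ_lt hc ha hc1 ha1 hx hX m1 m2 (rr_nonneg (mom2_nonneg a)) (hr_le_one (mom2_nonneg c))
  · exact R2_cell chkB2_8 covB2_8 muQ_pos muQ_lt hc ha hc1 ha1 hx hX m1 m2 (rr_nonneg (mom2_nonneg a)) (hr_le_one (mom2_nonneg c))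
  · exact R2_cell chkB2_9 covB2_9 muQ_pos muQ_lt hc ha hc1 ha1 hx hX m1 m2 (rr_nonneg (mom2_nonneg a)) (hr_le_one (mom2_nonneg c))
  · exact R2_cell chkB2_10 covB2_10 muQ_pos muQ_lt hc ha hc1 ha1 hx hX m1 m2 (rr_nonneg (mom2_nonneg a)) (hr_le_one (mom2_nonneg c))
  · exact R2_cell chkB2_11 covB2_11 muQ_pos muQ_lt hc ha hc1 ha1 hx hX m1 m2 (rr_nonneg (mom2_nonneg a)) (hr_le_one (mom2_nonneg c))
  · exact R2_cell chkB2_12 covB2_12 muQ_pos muQ_lt hc ha hc1 ha1 hx hX m1 m2 (rr_nonneg (mom2_nonneg a)) (hr_le_one (mom2_nonneg c))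
  · exact R2_cell chkB2_13 covB2_13 muQ_pos muQ_lt hc ha hc1 ha1 hx hX m1 m2 (rr_nonneg (mom2_nonneg a)) (hr_le_one (mom2_nonneg c))
  · exact R2_cell chkB2_14 covB2_14 muQ_pos muQ_lt hc ha hc1 ha1 hx hX m1 m2 (rr_nonneg (mom2_nonneg a)) (hr_le_one (mom2_nonneg c))
  · exact R2_cell chkB2_15 covB2_15 muQ_pos muQ_lt hc ha hc1 ha1 hx hX m1 m2 (rr_nonneg (mom2_nonneg a)) (hr_le_one (mom2_nonneg c))

theorem r2row3 {c a : Fin 4 → ℝ} (hc : ∑ l, c l = 0) (ha : ∑ l, a l = 0) (hc1 : ∀ l, -1 < c l) (ha1 : ∀ l, -muQ.val ≤ a l)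
    (hx : 0 < mom c 2) (hX : 0 < mom a 2) (hX0 : 0 ≤ mom a 2) (hX1 : mom a 2 < (1541 / 1024 : ℝ)) (m1 : Iv.mem ⟨1,2,16⟩ (mom c 2)) :
    (1 - rr (mom a 2)) * GG c + hr (mom c 2) * GG a ≤ avgT a (fun b => ZZ c b * GG (uu c b)) := by
  rcases binA2 hX0 hX1 with m2 | m2 | m2 | m2 | m2 | m2 | m2 | m2 | m2 | m2 | m2 | m2 | m2 | m2 | m2 | m2
  · exact R2_cell chkB3_0 covB3_0 muQ_pos muQ_lt hc ha hc1 ha1 hx hX m1 m2 (rr_nonneg (mom2_nonneg a)) (hr_le_one (mom2_nonneg c))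
  · exact R2_cell chkB3_1 covB3_1 muQ_pos muQ_lt hc ha hc1 ha1 hx hX m1 m2 (rr_nonneg (mom2_nonneg a)) (hr_le_one (mom2_nonneg c))
  · exact R2_cell chkB3_2 covB3_2 muQ_pos muQ_lt hc ha hc1 ha1 hx hX m1 m2 (rr_nonneg (mom2_nonneg a)) (hr_le_one (mom2_nonneg c))
  · exact R2_cell chkB3_3 covB3_3 muQ_pos muQ_lt hc ha hc1 ha1 hx hX m1 m2 (rr_nonneg (mom2_nonneg a)) (hr_le_one (mom2_nonneg c))
  · exact R2_cell chkB3_4 covB3_4 muQ_pos muQ_lt hc ha hc1 ha1 hx hX m1 m2 (rr_nonneg (mom2_nonneg a)) (hr_le_one (mom2_nonneg c))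
  · exact R2_cell chkB3_5 covB3_5 muQ_pos muQ_lt hc ha hc1 ha1 hx hX m1 m2 (rr_nonneg (mom2_nonneg a)) (hr_le_one (mom2_nonneg c))
  · exact R2_cell chkB3_6 covB3_6 muQ_pos muQ_lt hc ha hc1 ha1 hx hX m1 m2 (rr_nonneg (mom2_nonneg a)) (hr_le_one (mom2_nonneg c))
  · exact R2_cell chkB3_7 covB3_7 muQ_pos muQ_lt hc ha hc1 ha1 hx hX m1 m2 (rr_nonneg (mom2_nonneg a)) (hr_le_one (mom2_nonneg c))
  · exact R2_cell chkB3_8 covB3_8 muQ_pos muQ_lt hc ha hc1 ha1 hx hX m1 m2 (rr_nonneg (mom2_nonneg a)) (hr_le_one (mom2_nonneg c))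
  · exact R2_cell chkB3_9 covB3_9 muQ_pos muQ_lt hc ha hc1 ha1 hx hX m1 m2 (rr_nonneg (mom2_nonneg a)) (hr_le_one (mom2_nonneg c))
  · exact R2_cell chkB3_10 covB3_10 muQ_pos muQ_lt hc ha hc1 ha1 hx hX m1 m2 (rr_nonneg (mom2_nonneg a)) (hr_le_one (mom2_nonneg c))
  · exact R2_cell chkB3_11 covB3_11 muQ_pos muQ_lt hc ha hc1 ha1 hx hX m1 m2 (rr_nonneg (mom2_nonneg a)) (hr_le_one (mom2_nonneg c))
  · exact R2_cell chkB3_12 covB3_12 muQ_pos muQ_lt hc ha hc1 ha1 hx hX m1 m2 (rr_nonneg (mom2_nonneg a)) (hr_le_one (mom2_nonneg c))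
  · exact R2_cell chkB3_13 covB3_13 muQ_pos muQ_lt hc ha hc1 ha1 hx hX m1 m2 (rr_nonneg (mom2_nonneg a)) (hr_le_one (mom2_nonneg c))
  · exact R2_cell chkB3_14 covB3_14 muQ_pos muQ_lt hc ha hc1 ha1 hx hX m1 m2 (rr_nonneg (mom2_nonneg a)) (hr_le_one (mom2_nonneg c))
  · exact R2_cell chkB3_15 covB3_15 muQ_pos muQ_lt hc ha hc1 ha1 hx hX m1 m2 (rr_nonneg (mom2_nonneg a)) (hr_le_one (mom2_nonneg c))

theorem r2row4 {c a : Fin 4 → ℝ} (hc : ∑ l, c l = 0) (ha : ∑ l, a l = 0) (hc1 : ∀ l, -1 < c l) (ha1 : ∀ l, -muQ.val ≤ a l)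
    (hx : 0 < mom c 2) (hX : 0 < mom a 2) (hX0 : 0 ≤ mom a 2) (hX1 : mom a 2 < (1541 / 1024 : ℝ)) (m1 : Iv.mem ⟨2,3,16⟩ (mom c 2)) :
    (1 - rr (mom a 2)) * GG c + hr (mom c 2) * GG a ≤ avgT a (fun b => ZZ c b * GG (uu c b)) := by
  rcases binA2 hX0 hX1 with m2 | m2 | m2 | m2 | m2 | m2 | m2 | m2 | m2 | m2 | m2 | m2 | m2 | m2 | m2 | m2
  · exact R2_cell chkB4_0 covB4_0 muQ_pos muQ_lt hc ha hc1 ha1 hx hX m1 m2 (rr_nonneg (mom2_nonneg a)) (hr_le_one (mom2_nonneg c))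
  · exact R2_cell chkB4_1 covB4_1 muQ_pos muQ_lt hc ha hc1 ha1 hx hX m1 m2 (rr_nonneg (mom2_nonneg a)) (hr_le_one (mom2_nonneg c))
  · exact R2_cell chkB4_2 covB4_2 muQ_pos muQ_lt hc ha hc1 ha1 hx hX m1 m2 (rr_nonneg (mom2_nonneg a)) (hr_le_one (mom2_nonneg c))
  · exact R2_cell chkB4_3 covB4_3 muQ_pos muQ_lt hc ha hc1 ha1 hx hX m1 m2 (rr_nonneg (mom2_nonneg a)) (hr_le_one (mom2_nonneg c))
  · exact R2_cell chkB4_4 covB4_4 muQ_pos muQ_lt hc ha hc1 ha1 hx hX m1 m2 (rr_nonneg (mom2_nonneg a)) (hr_le_one (mom2_nonneg c))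
  · exact R2_cell chkB4_5 covB4_5 muQ_pos muQ_lt hc ha hc1 ha1 hx hX m1 m2 (rr_nonneg (mom2_nonneg a)) (hr_le_one (mom2_nonneg c))
  · exact R2_cell chkB4_6 covB4_6 muQ_pos muQ_lt hc ha hc1 ha1 hx hX m1 m2 (rr_nonneg (mom2_nonneg a)) (hr_le_one (mom2_nonneg c))
  · exact R2_cell chkB4_7 covB4_7 muQ_pos muQ_lt hc ha hc1 ha1 hx hX m1 m2 (rr_nonneg (mom2_nonneg a)) (hr_le_one (mom2_nonneg c))
  · exact R2_cell chkB4_8 covB4_8 muQ_pos muQ_lt hc ha hc1 ha1 hx hX m1 m2 (rr_nonneg (mom2_nonneg a)) (hr_le_one (mom2_nonneg c))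
  · exact R2_cell chkB4_9 covB4_9 muQ_pos muQ_lt hc ha hc1 ha1 hx hX m1 m2 (rr_nonneg (mom2_nonneg a)) (hr_le_one (mom2_nonneg c))
  · exact R2_cell chkB4_10 covB4_10 muQ_pos muQ_lt hc ha hc1 ha1 hx hX m1 m2 (rr_nonneg (mom2_nonneg a)) (hr_le_one (mom2_nonneg c))
  · exact R2_cell chkB4_11 covB4_11 muQ_pos muQ_lt hc ha hc1 ha1 hx hX m1 m2 (rr_nonneg (mom2_nonneg a)) (hr_le_one (mom2_nonneg c))
  · exact R2_cell chkB4_12 covB4_12 muQ_pos muQ_lt hc ha hc1 ha1 hx hX m1 m2 (rr_nonneg (mom2_nonneg a)) (hr_le_one (mom2_nonneg c))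
  · exact R2_cell chkB4_13 covB4_13 muQ_pos muQ_lt hc ha hc1 ha1 hx hX m1 m2 (rr_nonneg (mom2_nonneg a)) (hr_le_one (mom2_nonneg c))
  · exact R2_cell chkB4_14 covB4_14 muQ_pos muQ_lt hc ha hc1 ha1 hx hX m1 m2 (rr_nonneg (mom2_nonneg a)) (hr_le_one (mom2_nonneg c))
  · exact R2_cell chkB4_15 covB4_15 muQ_pos muQ_lt hc ha hc1 ha1 hx hX m1 m2 (rr_nonneg (mom2_nonneg a)) (hr_le_one (mom2_nonneg c))

theorem r2row5 {c a : Fin 4 → ℝ} (hc : ∑ l, c l = 0) (ha : ∑ l, a l = 0) (hc1 : ∀ l, -1 < c l) (ha1 : ∀ l, -muQ.val ≤ a l)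
    (hx : 0 < mom c 2) (hX : 0 < mom a 2) (hX0 : 0 ≤ mom a 2) (hX1 : mom a 2 < (1541 / 1024 : ℝ)) (m1 : Iv.mem ⟨3,4,16⟩ (mom c 2)) :
    (1 - rr (mom a 2)) * GG c + hr (mom c 2) * GG a ≤ avgT a (fun b => ZZ c b * GG (uu c b)) := by
  rcases binA2 hX0 hX1 with m2 | m2 | m2 | m2 | m2 | m2 | m2 | m2 | m2 | m2 | m2 | m2 | m2 | m2 | m2 | m2
  · exact R2_cell chkB5_0 covB5_0 muQ_pos muQ_lt hc ha hc1 ha1 hx hX m1 m2 (rr_nonneg (mom2_nonneg a)) (hr_le_one (mom2_nonneg c))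
  · exact R2_cell chkB5_1 covB5_1 muQ_pos muQ_lt hc ha hc1 ha1 hx hX m1 m2 (rr_nonneg (mom2_nonneg a)) (hr_le_one (mom2_nonneg c))
  · exact R2_cell chkB5_2 covB5_2 muQ_pos muQ_lt hc ha hc1 ha1 hx hX m1 m2 (rr_nonneg (mom2_nonneg a)) (hr_le_one (mom2_nonneg c))
  · exact R2_cell chkB5_3 covB5_3 muQ_pos muQ_lt hc ha hc1 ha1 hx hX m1 m2 (rr_nonneg (mom2_nonneg a)) (hr_le_one (mom2_nonneg c))
  · exact R2_cell chkB5_4 covB5_4 muQ_pos muQ_lt hc ha hc1 ha1 hx hX m1 m2 (rr_nonneg (mom2_nonneg a)) (hr_le_one (mom2_nonneg c))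
  · exact R2_cell chkB5_5 covB5_5 muQ_pos muQ_lt hc ha hc1 ha1 hx hX m1 m2 (rr_nonneg (mom2_nonneg a)) (hr_le_one (mom2_nonneg c))
  · exact R2_cell chkB5_6 covB5_6 muQ_pos muQ_lt hc ha hc1 ha1 hx hX m1 m2 (rr_nonneg (mom2_nonneg a)) (hr_le_one (mom2_nonneg c))
  · exact R2_cell chkB5_7 covB5_7 muQ_pos muQ_lt hc ha hc1 ha1 hx hX m1 m2 (rr_nonneg (mom2_nonneg a)) (hr_le_one (mom2_nonneg c))
  · exact R2_cell chkB5_8 covB5_8 muQ_pos muQ_lt hc ha hc1 ha1 hx hX m1 m2 (rr_nonneg (mom2_nonneg a)) (hr_le_one (mom2_nonneg c))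
  · exact R2_cell chkB5_9 covB5_9 muQ_pos muQ_lt hc ha hc1 ha1 hx hX m1 m2 (rr_nonneg (mom2_nonneg a)) (hr_le_one (mom2_nonneg c))
  · exact R2_cell chkB5_10 covB5_10 muQ_pos muQ_lt hc ha hc1 ha1 hx hX m1 m2 (rr_nonneg (mom2_nonneg a)) (hr_le_one (mom2_nonneg c))
  · exact R2_cell chkB5_11 covB5_11 muQ_pos muQ_lt hc ha hc1 ha1 hx hX m1 m2 (rr_nonneg (mom2_nonneg a)) (hr_le_one (mom2_nonneg c))
  · exact R2_cell chkB5_12 covB5_12 muQ_pos muQ_lt hc ha hc1 ha1 hx hX m1 m2 (rr_nonneg (mom2_nonneg a)) (hr_le_one (mom2_nonneg c))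
  · exact R2_cell chkB5_13 covB5_13 muQ_pos muQ_lt hc ha hc1 ha1 hx hX m1 m2 (rr_nonneg (mom2_nonneg a)) (hr_le_one (mom2_nonneg c))
  · exact R2_cell chkB5_14 covB5_14 muQ_pos muQ_lt hc ha hc1 ha1 hx hX m1 m2 (rr_nonneg (mom2_nonneg a)) (hr_le_one (mom2_nonneg c))
  · exact R2_cell chkB5_15 covB5_15 muQ_pos muQ_lt hc ha hc1 ha1 hx hX m1 m2 (rr_nonneg (mom2_nonneg a)) (hr_le_one (mom2_nonneg c))

theorem r2row6 {c a : Fin 4 → ℝ} (hc : ∑ l, c l = 0) (ha : ∑ l, a l = 0) (hc1 : ∀ l, -1 < c l) (ha1 : ∀ l, -muQ.val ≤ a l)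
    (hx : 0 < mom c 2) (hX : 0 < mom a 2) (hX0 : 0 ≤ mom a 2) (hX1 : mom a 2 < (1541 / 1024 : ℝ)) (m1 : Iv.mem ⟨2,3,8⟩ (mom c 2)) :
    (1 - rr (mom a 2)) * GG c + hr (mom c 2) * GG a ≤ avgT a (fun b => ZZ c b * GG (uu c b)) := by
  rcases binA2 hX0 hX1 with m2 | m2 | m2 | m2 | m2 | m2 | m2 | m2 | m2 | m2 | m2 | m2 | m2 | m2 | m2 | m2
  · exact R2_cell chkB6_0 covB6_0 muQ_pos muQ_lt hc ha hc1 ha1 hx hX m1 m2 (rr_nonneg (mom2_nonneg a)) (hr_le_one (mom2_nonneg c))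
  · exact R2_cell chkB6_1 covB6_1 muQ_pos muQ_lt hc ha hc1 ha1 hx hX m1 m2 (rr_nonneg (mom2_nonneg a)) (hr_le_one (mom2_nonneg c))
  · exact R2_cell chkB6_2 covB6_2 muQ_pos muQ_lt hc ha hc1 ha1 hx hX m1 m2 (rr_nonneg (mom2_nonneg a)) (hr_le_one (mom2_nonneg c))
  · exact R2_cell chkB6_3 covB6_3 muQ_pos muQ_lt hc ha hc1 ha1 hx hX m1 m2 (rr_nonneg (mom2_nonneg a)) (hr_le_one (mom2_nonneg c))
  · exact R2_cell chkB6_4 covB6_4 muQ_pos muQ_lt hc ha hc1 ha1 hx hX m1 m2 (rr_nonneg (mom2_nonneg a)) (hr_le_one (mom2_nonneg c))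
  · exact R2_cell chkB6_5 covB6_5 muQ_pos muQ_lt hc ha hc1 ha1 hx hX m1 m2 (rr_nonneg (mom2_nonneg a)) (hr_le_one (mom2_nonneg c))
  · exact R2_cell chkB6_6 covB6_6 muQ_pos muQ_lt hc ha hc1 ha1 hx hX m1 m2 (rr_nonneg (mom2_nonneg a)) (hr_le_one (mom2_nonneg c))
  · exact R2_cell chkB6_7 covB6_7 muQ_pos muQ_lt hc ha hc1 ha1 hx hX m1 m2 (rr_nonneg (mom2_nonneg a)) (hr_le_one (mom2_nonneg c))
  · exact R2_cell chkB6_8 covB6_8 muQ_pos muQ_lt hc ha hc1 ha1 hx hX m1 m2 (rr_nonneg (mom2_nonneg a)) (hr_le_one (mom2_nonneg c))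
  · exact R2_cell chkB6_9 covB6_9 muQ_pos muQ_lt hc ha hc1 ha1 hx hX m1 m2 (rr_nonneg (mom2_nonneg a)) (hr_le_one (mom2_nonneg c))
  · exact R2_cell chkB6_10 covB6_10 muQ_pos muQ_lt hc ha hc1 ha1 hx hX m1 m2 (rr_nonneg (mom2_nonneg a)) (hr_le_one (mom2_nonneg c))
  · exact R2_cell chkB6_11 covB6_11 muQ_pos muQ_lt hc ha hc1 ha1 hx hX m1 m2 (rr_nonneg (mom2_nonneg a)) (hr_le_one (mom2_nonneg c))
  · exact R2_cell chkB6_12 covB6_12 muQ_pos muQ_lt hc ha hc1 ha1 hx hX m1 m2 (rr_nonneg (mom2_nonneg a)) (hr_le_one (mom2_nonneg c))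
  · exact R2_cell chkB6_13 covB6_13 muQ_pos muQ_lt hc ha hc1 ha1 hx hX m1 m2 (rr_nonneg (mom2_nonneg a)) (hr_le_one (mom2_nonneg c))
  · exact R2_cell chkB6_14 covB6_14 muQ_pos muQ_lt hc ha hc1 ha1 hx hX m1 m2 (rr_nonneg (mom2_nonneg a)) (hr_le_one (mom2_nonneg c))
  · exact R2_cell chkB6_15 covB6_15 muQ_pos muQ_lt hc ha hc1 ha1 hx hX m1 m2 (rr_nonneg (mom2_nonneg a)) (hr_le_one (mom2_nonneg c))

theorem r2row7 {c a : Fin 4 → ℝ} (hc : ∑ l, c l = 0) (ha : ∑ l, a l = 0) (hc1 : ∀ l, -1 < c l) (ha1 : ∀ l, -muQ.val ≤ a l)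
    (hx : 0 < mom c 2) (hX : 0 < mom a 2) (hX0 : 0 ≤ mom a 2) (hX1 : mom a 2 < (1541 / 1024 : ℝ)) (m1 : Iv.mem ⟨3,4,8⟩ (mom c 2)) :
    (1 - rr (mom a 2)) * GG c + hr (mom c 2) * GG a ≤ avgT a (fun b => ZZ c b * GG (uu c b)) := by
  rcases binA2 hX0 hX1 with m2 | m2 | m2 | m2 | m2 | m2 | m2 | m2 | m2 | m2 | m2 | m2 | m2 | m2 | m2 | m2
  · exact R2_cell chkB7_0 covB7_0 muQ_pos muQ_lt hc ha hc1 ha1 hx hX m1 m2 (rr_nonneg (mom2_nonneg a)) (hr_le_one (mom2_nonneg c))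
  · exact R2_cell chkB7_1 covB7_1 muQ_pos muQ_lt hc ha hc1 ha1 hx hX m1 m2 (rr_nonneg (mom2_nonneg a)) (hr_le_one (mom2_nonneg c))
  · exact R2_cell chkB7_2 covB7_2 muQ_pos muQ_lt hc ha hc1 ha1 hx hX m1 m2 (rr_nonneg (mom2_nonneg a)) (hr_le_one (mom2_nonneg c))
  · exact R2_cell chkB7_3 covB7_3 muQ_pos muQ_lt hc ha hc1 ha1 hx hX m1 m2 (rr_nonneg (mom2_nonneg a)) (hr_le_one (mom2_nonneg c))
  · exact R2_cell chkB7_4 covB7_4 muQ_pos muQ_lt hc ha hc1 ha1 hx hX m1 m2 (rr_nonneg (mom2_nonneg a)) (hr_le_one (mom2_nonneg c))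
  · exact R2_cell chkB7_5 covB7_5 muQ_pos muQ_lt hc ha hc1 ha1 hx hX m1 m2 (rr_nonneg (mom2_nonneg a)) (hr_le_one (mom2_nonneg c))
  · exact R2_cell chkB7_6 covB7_6 muQ_pos muQ_lt hc ha hc1 ha1 hx hX m1 m2 (rr_nonneg (mom2_nonneg a)) (hr_le_one (mom2_nonneg c))
  · exact R2_cell chkB7_7 covB7_7 muQ_pos muQ_lt hc ha hc1 ha1 hx hX m1 m2 (rr_nonneg (mom2_nonneg a)) (hr_le_one (mom2_nonneg c))
  · exact R2_cell chkB7_8 covB7_8 muQ_pos muQ_lt hc ha hc1 ha1 hx hX m1 m2 (rr_nonneg (mom2_nonneg a)) (hr_le_one (mom2_nonneg c))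
  · exact R2_cell chkB7_9 covB7_9 muQ_pos muQ_lt hc ha hc1 ha1 hx hX m1 m2 (rr_nonneg (mom2_nonneg a)) (hr_le_one (mom2_nonneg c))
  · exact R2_cell chkB7_10 covB7_10 muQ_pos muQ_lt hc ha hc1 ha1 hx hX m1 m2 (rr_nonneg (mom2_nonneg a)) (hr_le_one (mom2_nonneg c))
  · exact R2_cell chkB7_11 covB7_11 muQ_pos muQ_lt hc ha hc1 ha1 hx hX m1 m2 (rr_nonneg (mom2_nonneg a)) (hr_le_one (mom2_nonneg c))
  · exact R2_cell chkB7_12 covB7_12 muQ_pos muQ_lt hc ha hc1 ha1 hx hX m1 m2 (rr_nonneg (mom2_nonneg a)) (hr_le_one (mom2_nonneg c))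
  · exact R2_cell chkB7_13 covB7_13 muQ_pos muQ_lt hc ha hc1 ha1 hx hX m1 m2 (rr_nonneg (mom2_nonneg a)) (hr_le_one (mom2_nonneg c))
  · exact R2_cell chkB7_14 covB7_14 muQ_pos muQ_lt hc ha hc1 ha1 hx hX m1 m2 (rr_nonneg (mom2_nonneg a)) (hr_le_one (mom2_nonneg c))
  · exact R2_cell chkB7_15 covB7_15 muQ_pos muQ_lt hc ha hc1 ha1 hx hX m1 m2 (rr_nonneg (mom2_nonneg a)) (hr_le_one (mom2_nonneg c))

theorem r2row8 {c a : Fin 4 → ℝ} (hc : ∑ l, c l = 0) (ha : ∑ l, a l = 0) (hc1 : ∀ l, -1 < c l) (ha1 : ∀ l, -muQ.val ≤ a l)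
    (hx : 0 < mom c 2) (hX : 0 < mom a 2) (hX0 : 0 ≤ mom a 2) (hX1 : mom a 2 < (1541 / 1024 : ℝ)) (m1 : Iv.mem ⟨4,5,8⟩ (mom c 2)) :
    (1 - rr (mom a 2)) * GG c + hr (mom c 2) * GG a ≤ avgT a (fun b => ZZ c b * GG (uu c b)) := by
  rcases binA2 hX0 hX1 with m2 | m2 | m2 | m2 | m2 | m2 | m2 | m2 | m2 | m2 | m2 | m2 | m2 | m2 | m2 | m2
  · exact R2_cell chkB8_0 covB8_0 muQ_pos muQ_lt hc ha hc1 ha1 hx hX m1 m2 (rr_nonneg (mom2_nonneg a)) (hr_le_one (mom2_nonneg c))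
  · exact R2_cell chkB8_1 covB8_1 muQ_pos muQ_lt hc ha hc1 ha1 hx hX m1 m2 (rr_nonneg (mom2_nonneg a)) (hr_le_one (mom2_nonneg c))
  · exact R2_cell chkB8_2 covB8_2 muQ_pos muQ_lt hc ha hc1 ha1 hx hX m1 m2 (rr_nonneg (mom2_nonneg a)) (hr_le_one (mom2_nonneg c))
  · exact R2_cell chkB8_3 covB8_3 muQ_pos muQ_lt hc ha hc1 ha1 hx hX m1 m2 (rr_nonneg (mom2_nonneg a)) (hr_le_one (mom2_nonneg c))
  · exact R2_cell chkB8_4 covB8_4 muQ_pos muQ_lt hc ha hc1 ha1 hx hX m1 m2 (rr_nonneg (mom2_nonneg a)) (hr_le_one (mom2_nonneg c))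
  · exact R2_cell chkB8_5 covB8_5 muQ_pos muQ_lt hc ha hc1 ha1 hx hX m1 m2 (rr_nonneg (mom2_nonneg a)) (hr_le_one (mom2_nonneg c))
  · exact R2_cell chkB8_6 covB8_6 muQ_pos muQ_lt hc ha hc1 ha1 hx hX m1 m2 (rr_nonneg (mom2_nonneg a)) (hr_le_one (mom2_nonneg c))
  · exact R2_cell chkB8_7 covB8_7 muQ_pos muQ_lt hc ha hc1 ha1 hx hX m1 m2 (rr_nonneg (mom2_nonneg a)) (hr_le_one (mom2_nonneg c))
  · exact R2_cell chkB8_8 covB8_8 muQ_pos muQ_lt hc ha hc1 ha1 hx hX m1 m2 (rr_nonneg (mom2_nonneg a)) (hr_le_one (mom2_nonneg c))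
  · exact R2_cell chkB8_9 covB8_9 muQ_pos muQ_lt hc ha hc1 ha1 hx hX m1 m2 (rr_nonneg (mom2_nonneg a)) (hr_le_one (mom2_nonneg c))
  · exact R2_cell chkB8_10 covB8_10 muQ_pos muQ_lt hc ha hc1 ha1 hx hX m1 m2 (rr_nonneg (mom2_nonneg a)) (hr_le_one (mom2_nonneg c))
  · exact R2_cell chkB8_11 covB8_11 muQ_pos muQ_lt hc ha hc1 ha1 hx hX m1 m2 (rr_nonneg (mom2_nonneg a)) (hr_le_one (mom2_nonneg c))
  · exact R2_cell chkB8_12 covB8_12 muQ_pos muQ_lt hc ha hc1 ha1 hx hX m1 m2 (rr_nonneg (mom2_nonneg a)) (hr_le_one (mom2_nonneg c))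
  · exact R2_cell chkB8_13 covB8_13 muQ_pos muQ_lt hc ha hc1 ha1 hx hX m1 m2 (rr_nonneg (mom2_nonneg a)) (hr_le_one (mom2_nonneg c))
  · exact R2_cell chkB8_14 covB8_14 muQ_pos muQ_lt hc ha hc1 ha1 hx hX m1 m2 (rr_nonneg (mom2_nonneg a)) (hr_le_one (mom2_nonneg c))
  · exact R2_cell chkB8_15 covB8_15 muQ_pos muQ_lt hc ha hc1 ha1 hx hX m1 m2 (rr_nonneg (mom2_nonneg a)) (hr_le_one (mom2_nonneg c))

theorem r2row9 {c a : Fin 4 → ℝ} (hc : ∑ l, c l = 0) (ha : ∑ l, a l = 0) (hc1 : ∀ l, -1 < c l) (ha1 : ∀ l, -muQ.val ≤ a l)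
    (hx : 0 < mom c 2) (hX : 0 < mom a 2) (hX0 : 0 ≤ mom a 2) (hX1 : mom a 2 < (1541 / 1024 : ℝ)) (m1 : Iv.mem ⟨5,6,8⟩ (mom c 2)) :
    (1 - rr (mom a 2)) * GG c + hr (mom c 2) * GG a ≤ avgT a (fun b => ZZ c b * GG (uu c b)) := by
  rcases binA2 hX0 hX1 with m2 | m2 | m2 | m2 | m2 | m2 | m2 | m2 | m2 | m2 | m2 | m2 | m2 | m2 | m2 | m2
  · exact R2_cell chkB9_0 covB9_0 muQ_pos muQ_lt hc ha hc1 ha1 hx hX m1 m2 (rr_nonneg (mom2_nonneg a)) (hr_le_one (mom2_nonneg c))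
  · exact R2_cell chkB9_1 covB9_1 muQ_pos muQ_lt hc ha hc1 ha1 hx hX m1 m2 (rr_nonneg (mom2_nonneg a)) (hr_le_one (mom2_nonneg c))
  · exact R2_cell chkB9_2 covB9_2 muQ_pos muQ_lt hc ha hc1 ha1 hx hX m1 m2 (rr_nonneg (mom2_nonneg a)) (hr_le_one (mom2_nonneg c))
  · exact R2_cell chkB9_3 covB9_3 muQ_pos muQ_lt hc ha hc1 ha1 hx hX m1 m2 (rr_nonneg (mom2_nonneg a)) (hr_le_one (mom2_nonneg c))
  · exact R2_cell chkB9_4 covB9_4 muQ_pos muQ_lt hc ha hc1 ha1 hx hX m1 m2 (rr_nonneg (mom2_nonneg a)) (hr_le_one (mom2_nonneg c))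
  · exact R2_cell chkB9_5 covB9_5 muQ_pos muQ_lt hc ha hc1 ha1 hx hX m1 m2 (rr_nonneg (mom2_nonneg a)) (hr_le_one (mom2_nonneg c))
  · exact R2_cell chkB9_6 covB9_6 muQ_pos muQ_lt hc ha hc1 ha1 hx hX m1 m2 (rr_nonneg (mom2_nonneg a)) (hr_le_one (mom2_nonneg c))
  · exact R2_cell chkB9_7 covB9_7 muQ_pos muQ_lt hc ha hc1 ha1 hx hX m1 m2 (rr_nonneg (mom2_nonneg a)) (hr_le_one (mom2_nonneg c))
  · exact R2_cell chkB9_8 covB9_8 muQ_pos muQ_lt hc ha hc1 ha1 hx hX m1 m2 (rr_nonneg (mom2_nonneg a)) (hr_le_one (mom2_nonneg c))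
  · exact R2_cell chkB9_9 covB9_9 muQ_pos muQ_lt hc ha hc1 ha1 hx hX m1 m2 (rr_nonneg (mom2_nonneg a)) (hr_le_one (mom2_nonneg c))
  · exact R2_cell chkB9_10 covB9_10 muQ_pos muQ_lt hc ha hc1 ha1 hx hX m1 m2 (rr_nonneg (mom2_nonneg a)) (hr_le_one (mom2_nonneg c))
  · exact R2_cell chkB9_11 covB9_11 muQ_pos muQ_lt hc ha hc1 ha1 hx hX m1 m2 (rr_nonneg (mom2_nonneg a)) (hr_le_one (mom2_nonneg c))
  · exact R2_cell chkB9_12 covB9_12 muQ_pos muQ_lt hc ha hc1 ha1 hx hX m1 m2 (rr_nonneg (mom2_nonneg a)) (hr_le_one (mom2_nonneg c))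
  · exact R2_cell chkB9_13 covB9_13 muQ_pos muQ_lt hc ha hc1 ha1 hx hX m1 m2 (rr_nonneg (mom2_nonneg a)) (hr_le_one (mom2_nonneg c))
  · exact R2_cell chkB9_14 covB9_14 muQ_pos muQ_lt hc ha hc1 ha1 hx hX m1 m2 (rr_nonneg (mom2_nonneg a)) (hr_le_one (mom2_nonneg c))
  · exact R2_cell chkB9_15 covB9_15 muQ_pos muQ_lt hc ha hc1 ha1 hx hX m1 m2 (rr_nonneg (mom2_nonneg a)) (hr_le_one (mom2_nonneg c))

theorem r2row10 {c a : Fin 4 → ℝ} (hc : ∑ l, c l = 0) (ha : ∑ l, a l = 0) (hc1 : ∀ l, -1 < c l) (ha1 : ∀ l, -muQ.val ≤ a l)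
    (hx : 0 < mom c 2) (hX : 0 < mom a 2) (hX0 : 0 ≤ mom a 2) (hX1 : mom a 2 < (1541 / 1024 : ℝ)) (m1 : Iv.mem ⟨6,7,8⟩ (mom c 2)) :
    (1 - rr (mom a 2)) * GG c + hr (mom c 2) * GG a ≤ avgT a (fun b => ZZ c b * GG (uu c b)) := by
  rcases binA2 hX0 hX1 with m2 | m2 | m2 | m2 | m2 | m2 | m2 | m2 | m2 | m2 | m2 | m2 | m2 | m2 | m2 | m2
  · exact R2_cell chkB10_0 covB10_0 muQ_pos muQ_lt hc ha hc1 ha1 hx hX m1 m2 (rr_nonneg (mom2_nonneg a)) (hr_le_one (mom2_nonneg c))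
  · exact R2_cell chkB10_1 covB10_1 muQ_pos muQ_lt hc ha hc1 ha1 hx hX m1 m2 (rr_nonneg (mom2_nonneg a)) (hr_le_one (mom2_nonneg c))
  · exact R2_cell chkB10_2 covB10_2 muQ_pos muQ_lt hc ha hc1 ha1 hx hX m1 m2 (rr_nonneg (mom2_nonneg a)) (hr_le_one (mom2_nonneg c))
  · exact R2_cell chkB10_3 covB10_3 muQ_pos muQ_lt hc ha hc1 ha1 hx hX m1 m2 (rr_nonneg (mom2_nonneg a)) (hr_le_one (mom2_nonneg c))
  · exact R2_cell chkB10_4 covB10_4 muQ_pos muQ_lt hc ha hc1 ha1 hx hX m1 m2 (rr_nonneg (mom2_nonneg a)) (hr_le_one (mom2_nonneg c))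
  · exact R2_cell chkB10_5 covB10_5 muQ_pos muQ_lt hc ha hc1 ha1 hx hX m1 m2 (rr_nonneg (mom2_nonneg a)) (hr_le_one (mom2_nonneg c))
  · exact R2_cell chkB10_6 covB10_6 muQ_pos muQ_lt hc ha hc1 ha1 hx hX m1 m2 (rr_nonneg (mom2_nonneg a)) (hr_le_one (mom2_nonneg c))
  · exact R2_cell chkB10_7 covB10_7 muQ_pos muQ_lt hc ha hc1 ha1 hx hX m1 m2 (rr_nonneg (mom2_nonneg a)) (hr_le_one (mom2_nonneg c))
  · exact R2_cell chkB10_8 covB10_8 muQ_pos muQ_lt hc ha hc1 ha1 hx hX m1 m2 (rr_nonneg (mom2_nonneg a)) (hr_le_one (mom2_nonneg c))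
  · exact R2_cell chkB10_9 covB10_9 muQ_pos muQ_lt hc ha hc1 ha1 hx hX m1 m2 (rr_nonneg (mom2_nonneg a)) (hr_le_one (mom2_nonneg c))
  · exact R2_cell chkB10_10 covB10_10 muQ_pos muQ_lt hc ha hc1 ha1 hx hX m1 m2 (rr_nonneg (mom2_nonneg a)) (hr_le_one (mom2_nonneg c))
  · exact R2_cell chkB10_11 covB10_11 muQ_pos muQ_lt hc ha hc1 ha1 hx hX m1 m2 (rr_nonneg (mom2_nonneg a)) (hr_le_one (mom2_nonneg c))
  · exact R2_cell chkB10_12 covB10_12 muQ_pos muQ_lt hc ha hc1 ha1 hx hX m1 m2 (rr_nonneg (mom2_nonneg a)) (hr_le_one (mom2_nonneg c))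
  · exact R2_cell chkB10_13 covB10_13 muQ_pos muQ_lt hc ha hc1 ha1 hx hX m1 m2 (rr_nonneg (mom2_nonneg a)) (hr_le_one (mom2_nonneg c))
  · exact R2_cell chkB10_14 covB10_14 muQ_pos muQ_lt hc ha hc1 ha1 hx hX m1 m2 (rr_nonneg (mom2_nonneg a)) (hr_le_one (mom2_nonneg c))
  · exact R2_cell chkB10_15 covB10_15 muQ_pos muQ_lt hc ha hc1 ha1 hx hX m1 m2 (rr_nonneg (mom2_nonneg a)) (hr_le_one (mom2_nonneg c))

theorem r2row11 {c a : Fin 4 → ℝ} (hc : ∑ l, c l = 0) (ha : ∑ l, a l = 0) (hc1 : ∀ l, -1 < c l) (ha1 : ∀ l, -muQ.val ≤ a l)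
    (hx : 0 < mom c 2) (hX : 0 < mom a 2) (hX0 : 0 ≤ mom a 2) (hX1 : mom a 2 < (1541 / 1024 : ℝ)) (m1 : Iv.mem ⟨7,8,8⟩ (mom c 2)) :
    (1 - rr (mom a 2)) * GG c + hr (mom c 2) * GG a ≤ avgT a (fun b => ZZ c b * GG (uu c b)) := by
  rcases binA2 hX0 hX1 with m2 | m2 | m2 | m2 | m2 | m2 | m2 | m2 | m2 | m2 | m2 | m2 | m2 | m2 | m2 | m2
  · exact R2_cell chkB11_0 covB11_0 muQ_pos muQ_lt hc ha hc1 ha1 hx hX m1 m2 (rr_nonneg (mom2_nonneg a)) (hr_le_one (mom2_nonneg c))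
  · exact R2_cell chkB11_1 covB11_1 muQ_pos muQ_lt hc ha hc1 ha1 hx hX m1 m2 (rr_nonneg (mom2_nonneg a)) (hr_le_one (mom2_nonneg c))
  · exact R2_cell chkB11_2 covB11_2 muQ_pos muQ_lt hc ha hc1 ha1 hx hX m1 m2 (rr_nonneg (mom2_nonneg a)) (hr_le_one (mom2_nonneg c))
  · exact R2_cell chkB11_3 covB11_3 muQ_pos muQ_lt hc ha hc1 ha1 hx hX m1 m2 (rr_nonneg (mom2_nonneg a)) (hr_le_one (mom2_nonneg c))
  · exact R2_cell chkB11_4 covB11_4 muQ_pos muQ_lt hc ha hc1 ha1 hx hX m1 m2 (rr_nonneg (mom2_nonneg a)) (hr_le_one (mom2_nonneg c))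
  · exact R2_cell chkB11_5 covB11_5 muQ_pos muQ_lt hc ha hc1 ha1 hx hX m1 m2 (rr_nonneg (mom2_nonneg a)) (hr_le_one (mom2_nonneg c))
  · exact R2_cell chkB11_6 covB11_6 muQ_pos muQ_lt hc ha hc1 ha1 hx hX m1 m2 (rr_nonneg (mom2_nonneg a)) (hr_le_one (mom2_nonneg c))
  · exact R2_cell chkB11_7 covB11_7 muQ_pos muQ_lt hc ha hc1 ha1 hx hX m1 m2 (rr_nonneg (mom2_nonneg a)) (hr_le_one (mom2_nonneg c))
  · exact R2_cell chkB11_8 covB11_8 muQ_pos muQ_lt hc ha hc1 ha1 hx hX m1 m2 (rr_nonneg (mom2_nonneg a)) (hr_le_one (mom2_nonneg c))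
  · exact R2_cell chkB11_9 covB11_9 muQ_pos muQ_lt hc ha hc1 ha1 hx hX m1 m2 (rr_nonneg (mom2_nonneg a)) (hr_le_one (mom2_nonneg c))
  · exact R2_cell chkB11_10 covB11_10 muQ_pos muQ_lt hc ha hc1 ha1 hx hX m1 m2 (rr_nonneg (mom2_nonneg a)) (hr_le_one (mom2_nonneg c))
  · exact R2_cell chkB11_11 covB11_11 muQ_pos muQ_lt hc ha hc1 ha1 hx hX m1 m2 (rr_nonneg (mom2_nonneg a)) (hr_le_one (mom2_nonneg c))
  · exact R2_cell chkB11_12 covB11_12 muQ_pos muQ_lt hc ha hc1 ha1 hx hX m1 m2 (rr_nonneg (mom2_nonneg a)) (hr_le_one (mom2_nonneg c))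
  · exact R2_cell chkB11_13 covB11_13 muQ_pos muQ_lt hc ha hc1 ha1 hx hX m1 m2 (rr_nonneg (mom2_nonneg a)) (hr_le_one (mom2_nonneg c))
  · exact R2_cell chkB11_14 covB11_14 muQ_pos muQ_lt hc ha hc1 ha1 hx hX m1 m2 (rr_nonneg (mom2_nonneg a)) (hr_le_one (mom2_nonneg c))
  · exact R2_cell chkB11_15 covB11_15 muQ_pos muQ_lt hc ha hc1 ha1 hx hX m1 m2 (rr_nonneg (mom2_nonneg a)) (hr_le_one (mom2_nonneg c))

theorem r2row12 {c a : Fin 4 → ℝ} (hc : ∑ l, c l = 0) (ha : ∑ l, a l = 0) (hc1 : ∀ l, -1 < c l) (ha1 : ∀ l, -muQ.val ≤ a l)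
    (hx : 0 < mom c 2) (hX : 0 < mom a 2) (hX0 : 0 ≤ mom a 2) (hX1 : mom a 2 < (1541 / 1024 : ℝ)) (m1 : Iv.mem ⟨8,9,8⟩ (mom c 2)) :
    (1 - rr (mom a 2)) * GG c + hr (mom c 2) * GG a ≤ avgT a (fun b => ZZ c b * GG (uu c b)) := by
  rcases binA2 hX0 hX1 with m2 | m2 | m2 | m2 | m2 | m2 | m2 | m2 | m2 | m2 | m2 | m2 | m2 | m2 | m2 | m2
  · exact R2_cell chkB12_0 covB12_0 muQ_pos muQ_lt hc ha hc1 ha1 hx hX m1 m2 (rr_nonneg (mom2_nonneg a)) (hr_le_one (mom2_nonneg c))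
  · exact R2_cell chkB12_1 covB12_1 muQ_pos muQ_lt hc ha hc1 ha1 hx hX m1 m2 (rr_nonneg (mom2_nonneg a)) (hr_le_one (mom2_nonneg c))
  · exact R2_cell chkB12_2 covB12_2 muQ_pos muQ_lt hc ha hc1 ha1 hx hX m1 m2 (rr_nonneg (mom2_nonneg a)) (hr_le_one (mom2_nonneg c))
  · exact R2_cell chkB12_3 covB12_3 muQ_pos muQ_lt hc ha hc1 ha1 hx hX m1 m2 (rr_nonneg (mom2_nonneg a)) (hr_le_one (mom2_nonneg c))
  · exact R2_cell chkB12_4 covB12_4 muQ_pos muQ_lt hc ha hc1 ha1 hx hX m1 m2 (rr_nonneg (mom2_nonneg a)) (hr_le_one (mom2_nonneg c))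
  · exact R2_cell chkB12_5 covB12_5 muQ_pos muQ_lt hc ha hc1 ha1 hx hX m1 m2 (rr_nonneg (mom2_nonneg a)) (hr_le_one (mom2_nonneg c))
  · exact R2_cell chkB12_6 covB12_6 muQ_pos muQ_lt hc ha hc1 ha1 hx hX m1 m2 (rr_nonneg (mom2_nonneg a)) (hr_le_one (mom2_nonneg c))
  · exact R2_cell chkB12_7 covB12_7 muQ_pos muQ_lt hc ha hc1 ha1 hx hX m1 m2 (rr_nonneg (mom2_nonneg a)) (hr_le_one (mom2_nonneg c))
  · exact R2_cell chkB12_8 covB12_8 muQ_pos muQ_lt hc ha hc1 ha1 hx hX m1 m2 (rr_nonneg (mom2_nonneg a)) (hr_le_one (mom2_nonneg c))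
  · exact R2_cell chkB12_9 covB12_9 muQ_pos muQ_lt hc ha hc1 ha1 hx hX m1 m2 (rr_nonneg (mom2_nonneg a)) (hr_le_one (mom2_nonneg c))
  · exact R2_cell chkB12_10 covB12_10 muQ_pos muQ_lt hc ha hc1 ha1 hx hX m1 m2 (rr_nonneg (mom2_nonneg a)) (hr_le_one (mom2_nonneg c))
  · exact R2_cell chkB12_11 covB12_11 muQ_pos muQ_lt hc ha hc1 ha1 hx hX m1 m2 (rr_nonneg (mom2_nonneg a)) (hr_le_one (mom2_nonneg c))
  · exact R2_cell chkB12_12 covB12_12 muQ_pos muQ_lt hc ha hc1 ha1 hx hX m1 m2 (rr_nonneg (mom2_nonneg a)) (hr_le_one (mom2_nonneg c))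
  · exact R2_cell chkB12_13 covB12_13 muQ_pos muQ_lt hc ha hc1 ha1 hx hX m1 m2 (rr_nonneg (mom2_nonneg a)) (hr_le_one (mom2_nonneg c))
  · exact R2_cell chkB12_14 covB12_14 muQ_pos muQ_lt hc ha hc1 ha1 hx hX m1 m2 (rr_nonneg (mom2_nonneg a)) (hr_le_one (mom2_nonneg c))
  · exact R2_cell chkB12_15 covB12_15 muQ_pos muQ_lt hc ha hc1 ha1 hx hX m1 m2 (rr_nonneg (mom2_nonneg a)) (hr_le_one (mom2_nonneg c))

theorem r2row13 {c a : Fin 4 → ℝ} (hc : ∑ l, c l = 0) (ha : ∑ l, a l = 0) (hc1 : ∀ l, -1 < c l) (ha1 : ∀ l, -muQ.val ≤ a l)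
    (hx : 0 < mom c 2) (hX : 0 < mom a 2) (hX0 : 0 ≤ mom a 2) (hX1 : mom a 2 < (1541 / 1024 : ℝ)) (m1 : Iv.mem ⟨9,10,8⟩ (mom c 2)) :
    (1 - rr (mom a 2)) * GG c + hr (mom c 2) * GG a ≤ avgT a (fun b => ZZ c b * GG (uu c b)) := by
  rcases binA2 hX0 hX1 with m2 | m2 | m2 | m2 | m2 | m2 | m2 | m2 | m2 | m2 | m2 | m2 | m2 | m2 | m2 | m2
  · exact R2_cell chkB13_0 covB13_0 muQ_pos muQ_lt hc ha hc1 ha1 hx hX m1 m2 (rr_nonneg (mom2_nonneg a)) (hr_le_one (mom2_nonneg c))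
  · exact R2_cell chkB13_1 covB13_1 muQ_pos muQ_lt hc ha hc1 ha1 hx hX m1 m2 (rr_nonneg (mom2_nonneg a)) (hr_le_one (mom2_nonneg c))
  · exact R2_cell chkB13_2 covB13_2 muQ_pos muQ_lt hc ha hc1 ha1 hx hX m1 m2 (rr_nonneg (mom2_nonneg a)) (hr_le_one (mom2_nonneg c))
  · exact R2_cell chkB13_3 covB13_3 muQ_pos muQ_lt hc ha hc1 ha1 hx hX m1 m2 (rr_nonneg (mom2_nonneg a)) (hr_le_one (mom2_nonneg c))
  · exact R2_cell chkB13_4 covB13_4 muQ_pos muQ_lt hc ha hc1 ha1 hx hX m1 m2 (rr_nonneg (mom2_nonneg a)) (hr_le_one (mom2_nonneg c))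
  · exact R2_cell chkB13_5 covB13_5 muQ_pos muQ_lt hc ha hc1 ha1 hx hX m1 m2 (rr_nonneg (mom2_nonneg a)) (hr_le_one (mom2_nonneg c))
  · exact R2_cell chkB13_6 covB13_6 muQ_pos muQ_lt hc ha hc1 ha1 hx hX m1 m2 (rr_nonneg (mom2_nonneg a)) (hr_le_one (mom2_nonneg c))
  · exact R2_cell chkB13_7 covB13_7 muQ_pos muQ_lt hc ha hc1 ha1 hx hX m1 m2 (rr_nonneg (mom2_nonneg a)) (hr_le_one (mom2_nonneg c))
  · exact R2_cell chkB13_8 covB13_8 muQ_pos muQ_lt hc ha hc1 ha1 hx hX m1 m2 (rr_nonneg (mom2_nonneg a)) (hr_le_one (mom2_nonneg c))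
  · exact R2_cell chkB13_9 covB13_9 muQ_pos muQ_lt hc ha hc1 ha1 hx hX m1 m2 (rr_nonneg (mom2_nonneg a)) (hr_le_one (mom2_nonneg c))
  · exact R2_cell chkB13_10 covB13_10 muQ_pos muQ_lt hc ha hc1 ha1 hx hX m1 m2 (rr_nonneg (mom2_nonneg a)) (hr_le_one (mom2_nonneg c))
  · exact R2_cell chkB13_11 covB13_11 muQ_pos muQ_lt hc ha hc1 ha1 hx hX m1 m2 (rr_nonneg (mom2_nonneg a)) (hr_le_one (mom2_nonneg c))
  · exact R2_cell chkB13_12 covB13_12 muQ_pos muQ_lt hc ha hc1 ha1 hx hX m1 m2 (rr_nonneg (mom2_nonneg a)) (hr_le_one (mom2_nonneg c))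
  · exact R2_cell chkB13_13 covB13_13 muQ_pos muQ_lt hc ha hc1 ha1 hx hX m1 m2 (rr_nonneg (mom2_nonneg a)) (hr_le_one (mom2_nonneg c))
  · exact R2_cell chkB13_14 covB13_14 muQ_pos muQ_lt hc ha hc1 ha1 hx hX m1 m2 (rr_nonneg (mom2_nonneg a)) (hr_le_one (mom2_nonneg c))
  · exact R2_cell chkB13_15 covB13_15 muQ_pos muQ_lt hc ha hc1 ha1 hx hX m1 m2 (rr_nonneg (mom2_nonneg a)) (hr_le_one (mom2_nonneg c))

theorem r2row14 {c a : Fin 4 → ℝ} (hc : ∑ l, c l = 0) (ha : ∑ l, a l = 0) (hc1 : ∀ l, -1 < c l) (ha1 : ∀ l, -muQ.val ≤ a l)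
    (hx : 0 < mom c 2) (hX : 0 < mom a 2) (hX0 : 0 ≤ mom a 2) (hX1 : mom a 2 < (1541 / 1024 : ℝ)) (m1 : Iv.mem ⟨10,11,8⟩ (mom c 2)) :
    (1 - rr (mom a 2)) * GG c + hr (mom c 2) * GG a ≤ avgT a (fun b => ZZ c b * GG (uu c b)) := by
  rcases binA2 hX0 hX1 with m2 | m2 | m2 | m2 | m2 | m2 | m2 | m2 | m2 | m2 | m2 | m2 | m2 | m2 | m2 | m2
  · exact R2_cell chkB14_0 covB14_0 muQ_pos muQ_lt hc ha hc1 ha1 hx hX m1 m2 (rr_nonneg (mom2_nonneg a)) (hr_le_one (mom2_nonneg c))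
  · exact R2_cell chkB14_1 covB14_1 muQ_pos muQ_lt hc ha hc1 ha1 hx hX m1 m2 (rr_nonneg (mom2_nonneg a)) (hr_le_one (mom2_nonneg c))
  · exact R2_cell chkB14_2 covB14_2 muQ_pos muQ_lt hc ha hc1 ha1 hx hX m1 m2 (rr_nonneg (mom2_nonneg a)) (hr_le_one (mom2_nonneg c))
  · exact R2_cell chkB14_3 covB14_3 muQ_pos muQ_lt hc ha hc1 ha1 hx hX m1 m2 (rr_nonneg (mom2_nonneg a)) (hr_le_one (mom2_nonneg c))
  · exact R2_cell chkB14_4 covB14_4 muQ_pos muQ_lt hc ha hc1 ha1 hx hX m1 m2 (rr_nonneg (mom2_nonneg a)) (hr_le_one (mom2_nonneg c))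
  · exact R2_cell chkB14_5 covB14_5 muQ_pos muQ_lt hc ha hc1 ha1 hx hX m1 m2 (rr_nonneg (mom2_nonneg a)) (hr_le_one (mom2_nonneg c))
  · exact R2_cell chkB14_6 covB14_6 muQ_pos muQ_lt hc ha hc1 ha1 hx hX m1 m2 (rr_nonneg (mom2_nonneg a)) (hr_le_one (mom2_nonneg c))
  · exact R2_cell chkB14_7 covB14_7 muQ_pos muQ_lt hc ha hc1 ha1 hx hX m1 m2 (rr_nonneg (mom2_nonneg a)) (hr_le_one (mom2_nonneg c))
  · exact R2_cell chkB14_8 covB14_8 muQ_pos muQ_lt hc ha hc1 ha1 hx hX m1 m2 (rr_nonneg (mom2_nonneg a)) (hr_le_one (mom2_nonneg c))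
  · exact R2_cell chkB14_9 covB14_9 muQ_pos muQ_lt hc ha hc1 ha1 hx hX m1 m2 (rr_nonneg (mom2_nonneg a)) (hr_le_one (mom2_nonneg c))
  · exact R2_cell chkB14_10 covB14_10 muQ_pos muQ_lt hc ha hc1 ha1 hx hX m1 m2 (rr_nonneg (mom2_nonneg a)) (hr_le_one (mom2_nonneg c))
  · exact R2_cell chkB14_11 covB14_11 muQ_pos muQ_lt hc ha hc1 ha1 hx hX m1 m2 (rr_nonneg (mom2_nonneg a)) (hr_le_one (mom2_nonneg c))
  · exact R2_cell chkB14_12 covB14_12 muQ_pos muQ_lt hc ha hc1 ha1 hx hX m1 m2 (rr_nonneg (mom2_nonneg a)) (hr_le_one (mom2_nonneg c))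
  · exact R2_cell chkB14_13 covB14_13 muQ_pos muQ_lt hc ha hc1 ha1 hx hX m1 m2 (rr_nonneg (mom2_nonneg a)) (hr_le_one (mom2_nonneg c))
  · exact R2_cell chkB14_14 covB14_14 muQ_pos muQ_lt hc ha hc1 ha1 hx hX m1 m2 (rr_nonneg (mom2_nonneg a)) (hr_le_one (mom2_nonneg c))
  · exact R2_cell chkB14_15 covB14_15 muQ_pos muQ_lt hc ha hc1 ha1 hx hX m1 m2 (rr_nonneg (mom2_nonneg a)) (hr_le_one (mom2_nonneg c))

theorem r2row15 {c a : Fin 4 → ℝ} (hc : ∑ l, c l = 0) (ha : ∑ l, a l = 0) (hc1 : ∀ l, -1 < c l) (ha1 : ∀ l, -muQ.val ≤ a l)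
    (hx : 0 < mom c 2) (hX : 0 < mom a 2) (hX0 : 0 ≤ mom a 2) (hX1 : mom a 2 < (1541 / 1024 : ℝ)) (m1 : Iv.mem ⟨11,12,8⟩ (mom c 2)) :
    (1 - rr (mom a 2)) * GG c + hr (mom c 2) * GG a ≤ avgT a (fun b => ZZ c b * GG (uu c b)) := by
  rcases binA2 hX0 hX1 with m2 | m2 | m2 | m2 | m2 | m2 | m2 | m2 | m2 | m2 | m2 | m2 | m2 | m2 | m2 | m2
  · exact R2_cell chkB15_0 covB15_0 muQ_pos muQ_lt hc ha hc1 ha1 hx hX m1 m2 (rr_nonneg (mom2_nonneg a)) (hr_le_one (mom2_nonneg c))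
  · exact R2_cell chkB15_1 covB15_1 muQ_pos muQ_lt hc ha hc1 ha1 hx hX m1 m2 (rr_nonneg (mom2_nonneg a)) (hr_le_one (mom2_nonneg c))
  · exact R2_cell chkB15_2 covB15_2 muQ_pos muQ_lt hc ha hc1 ha1 hx hX m1 m2 (rr_nonneg (mom2_nonneg a)) (hr_le_one (mom2_nonneg c))
  · exact R2_cell chkB15_3 covB15_3 muQ_pos muQ_lt hc ha hc1 ha1 hx hX m1 m2 (rr_nonneg (mom2_nonneg a)) (hr_le_one (mom2_nonneg c))
  · exact R2_cell chkB15_4 covB15_4 muQ_pos muQ_lt hc ha hc1 ha1 hx hX m1 m2 (rr_nonneg (mom2_nonneg a)) (hr_le_one (mom2_nonneg c))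
  · exact R2_cell chkB15_5 covB15_5 muQ_pos muQ_lt hc ha hc1 ha1 hx hX m1 m2 (rr_nonneg (mom2_nonneg a)) (hr_le_one (mom2_nonneg c))
  · exact R2_cell chkB15_6 covB15_6 muQ_pos muQ_lt hc ha hc1 ha1 hx hX m1 m2 (rr_nonneg (mom2_nonneg a)) (hr_le_one (mom2_nonneg c))
  · exact R2_cell chkB15_7 covB15_7 muQ_pos muQ_lt hc ha hc1 ha1 hx hX m1 m2 (rr_nonneg (mom2_nonneg a)) (hr_le_one (mom2_nonneg c))
  · exact R2_cell chkB15_8 covB15_8 muQ_pos muQ_lt hc ha hc1 ha1 hx hX m1 m2 (rr_nonneg (mom2_nonneg a)) (hr_le_one (mom2_nonneg c))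
  · exact R2_cell chkB15_9 covB15_9 muQ_pos muQ_lt hc ha hc1 ha1 hx hX m1 m2 (rr_nonneg (mom2_nonneg a)) (hr_le_one (mom2_nonneg c))
  · exact R2_cell chkB15_10 covB15_10 muQ_pos muQ_lt hc ha hc1 ha1 hx hX m1 m2 (rr_nonneg (mom2_nonneg a)) (hr_le_one (mom2_nonneg c))
  · exact R2_cell chkB15_11 covB15_11 muQ_pos muQ_lt hc ha hc1 ha1 hx hX m1 m2 (rr_nonneg (mom2_nonneg a)) (hr_le_one (mom2_nonneg c))
  · exact R2_cell chkB15_12 covB15_12 muQ_pos muQ_lt hc ha hc1 ha1 hx hX m1 m2 (rr_nonneg (mom2_nonneg a)) (hr_le_one (mom2_nonneg c))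
  · exact R2_cell chkB15_13 covB15_13 muQ_pos muQ_lt hc ha hc1 ha1 hx hX m1 m2 (rr_nonneg (mom2_nonneg a)) (hr_le_one (mom2_nonneg c))
  · exact R2_cell chkB15_14 covB15_14 muQ_pos muQ_lt hc ha hc1 ha1 hx hX m1 m2 (rr_nonneg (mom2_nonneg a)) (hr_le_one (mom2_nonneg c))
  · exact R2_cell chkB15_15 covB15_15 muQ_pos muQ_lt hc ha hc1 ha1 hx hX m1 m2 (rr_nonneg (mom2_nonneg a)) (hr_le_one (mom2_nonneg c))

theorem r2row16 {c a : Fin 4 → ℝ} (hc : ∑ l, c l = 0) (ha : ∑ l, a l = 0) (hc1 : ∀ l, -1 < c l) (ha1 : ∀ l, -muQ.val ≤ a l)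
    (hx : 0 < mom c 2) (hX : 0 < mom a 2) (hX0 : 0 ≤ mom a 2) (hX1 : mom a 2 < (1541 / 1024 : ℝ)) (m1 : Iv.mem ⟨6,7,4⟩ (mom c 2)) :
    (1 - rr (mom a 2)) * GG c + hr (mom c 2) * GG a ≤ avgT a (fun b => ZZ c b * GG (uu c b)) := by
  rcases binA2 hX0 hX1 with m2 | m2 | m2 | m2 | m2 | m2 | m2 | m2 | m2 | m2 | m2 | m2 | m2 | m2 | m2 | m2
  · exact R2_cell chkB16_0 covB16_0 muQ_pos muQ_lt hc ha hc1 ha1 hx hX m1 m2 (rr_nonneg (mom2_nonneg a)) (hr_le_one (mom2_nonneg c))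
  · exact R2_cell chkB16_1 covB16_1 muQ_pos muQ_lt hc ha hc1 ha1 hx hX m1 m2 (rr_nonneg (mom2_nonneg a)) (hr_le_one (mom2_nonneg c))
  · exact R2_cell chkB16_2 covB16_2 muQ_pos muQ_lt hc ha hc1 ha1 hx hX m1 m2 (rr_nonneg (mom2_nonneg a)) (hr_le_one (mom2_nonneg c))
  · exact R2_cell chkB16_3 covB16_3 muQ_pos muQ_lt hc ha hc1 ha1 hx hX m1 m2 (rr_nonneg (mom2_nonneg a)) (hr_le_one (mom2_nonneg c))
  · exact R2_cell chkB16_4 covB16_4 muQ_pos muQ_lt hc ha hc1 ha1 hx hX m1 m2 (rr_nonneg (mom2_nonneg a)) (hr_le_one (mom2_nonneg c))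
  · exact R2_cell chkB16_5 covB16_5 muQ_pos muQ_lt hc ha hc1 ha1 hx hX m1 m2 (rr_nonneg (mom2_nonneg a)) (hr_le_one (mom2_nonneg c))
  · exact R2_cell chkB16_6 covB16_6 muQ_pos muQ_lt hc ha hc1 ha1 hx hX m1 m2 (rr_nonneg (mom2_nonneg a)) (hr_le_one (mom2_nonneg c))
  · exact R2_cell chkB16_7 covB16_7 muQ_pos muQ_lt hc ha hc1 ha1 hx hX m1 m2 (rr_nonneg (mom2_nonneg a)) (hr_le_one (mom2_nonneg c))
  · exact R2_cell chkB16_8 covB16_8 muQ_pos muQ_lt hc ha hc1 ha1 hx hX m1 m2 (rr_nonneg (mom2_nonneg a)) (hr_le_one (mom2_nonneg c))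
  · exact R2_cell chkB16_9 covB16_9 muQ_pos muQ_lt hc ha hc1 ha1 hx hX m1 m2 (rr_nonneg (mom2_nonneg a)) (hr_le_one (mom2_nonneg c))
  · exact R2_cell chkB16_10 covB16_10 muQ_pos muQ_lt hc ha hc1 ha1 hx hX m1 m2 (rr_nonneg (mom2_nonneg a)) (hr_le_one (mom2_nonneg c))
  · exact R2_cell chkB16_11 covB16_11 muQ_pos muQ_lt hc ha hc1 ha1 hx hX m1 m2 (rr_nonneg (mom2_nonneg a)) (hr_le_one (mom2_nonneg c))
  · exact R2_cell chkB16_12 covB16_12 muQ_pos muQ_lt hc ha hc1 ha1 hx hX m1 m2 (rr_nonneg (mom2_nonneg a)) (hr_le_one (mom2_nonneg c))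
  · exact R2_cell chkB16_13 covB16_13 muQ_pos muQ_lt hc ha hc1 ha1 hx hX m1 m2 (rr_nonneg (mom2_nonneg a)) (hr_le_one (mom2_nonneg c))
  · exact R2_cell chkB16_14 covB16_14 muQ_pos muQ_lt hc ha hc1 ha1 hx hX m1 m2 (rr_nonneg (mom2_nonneg a)) (hr_le_one (mom2_nonneg c))
  · exact R2_cell chkB16_15 covB16_15 muQ_pos muQ_lt hc ha hc1 ha1 hx hX m1 m2 (rr_nonneg (mom2_nonneg a)) (hr_le_one (mom2_nonneg c))

theorem r2row17 {c a : Fin 4 → ℝ} (hc : ∑ l, c l = 0) (ha : ∑ l, a l = 0) (hc1 : ∀ l, -1 < c l) (ha1 : ∀ l, -muQ.val ≤ a l)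
    (hx : 0 < mom c 2) (hX : 0 < mom a 2) (hX0 : 0 ≤ mom a 2) (hX1 : mom a 2 < (1541 / 1024 : ℝ)) (m1 : Iv.mem ⟨7,8,4⟩ (mom c 2)) :
    (1 - rr (mom a 2)) * GG c + hr (mom c 2) * GG a ≤ avgT a (fun b => ZZ c b * GG (uu c b)) := by
  rcases binA2 hX0 hX1 with m2 | m2 | m2 | m2 | m2 | m2 | m2 | m2 | m2 | m2 | m2 | m2 | m2 | m2 | m2 | m2
  · exact R2_cell chkB17_0 covB17_0 muQ_pos muQ_lt hc ha hc1 ha1 hx hX m1 m2 (rr_nonneg (mom2_nonneg a)) (hr_le_one (mom2_nonneg c))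
  · exact R2_cell chkB17_1 covB17_1 muQ_pos muQ_lt hc ha hc1 ha1 hx hX m1 m2 (rr_nonneg (mom2_nonneg a)) (hr_le_one (mom2_nonneg c))
  · exact R2_cell chkB17_2 covB17_2 muQ_pos muQ_lt hc ha hc1 ha1 hx hX m1 m2 (rr_nonneg (mom2_nonneg a)) (hr_le_one (mom2_nonneg c))
  · exact R2_cell chkB17_3 covB17_3 muQ_pos muQ_lt hc ha hc1 ha1 hx hX m1 m2 (rr_nonneg (mom2_nonneg a)) (hr_le_one (mom2_nonneg c))
  · exact R2_cell chkB17_4 covB17_4 muQ_pos muQ_lt hc ha hc1 ha1 hx hX m1 m2 (rr_nonneg (mom2_nonneg a)) (hr_le_one (mom2_nonneg c))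
  · exact R2_cell chkB17_5 covB17_5 muQ_pos muQ_lt hc ha hc1 ha1 hx hX m1 m2 (rr_nonneg (mom2_nonneg a)) (hr_le_one (mom2_nonneg c))
  · exact R2_cell chkB17_6 covB17_6 muQ_pos muQ_lt hc ha hc1 ha1 hx hX m1 m2 (rr_nonneg (mom2_nonneg a)) (hr_le_one (mom2_nonneg c))
  · exact R2_cell chkB17_7 covB17_7 muQ_pos muQ_lt hc ha hc1 ha1 hx hX m1 m2 (rr_nonneg (mom2_nonneg a)) (hr_le_one (mom2_nonneg c))
  · exact R2_cell chkB17_8 covB17_8 muQ_pos muQ_lt hc ha hc1 ha1 hx hX m1 m2 (rr_nonneg (mom2_nonneg a)) (hr_le_one (mom2_nonneg c))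
  · exact R2_cell chkB17_9 covB17_9 muQ_pos muQ_lt hc ha hc1 ha1 hx hX m1 m2 (rr_nonneg (mom2_nonneg a)) (hr_le_one (mom2_nonneg c))
  · exact R2_cell chkB17_10 covB17_10 muQ_pos muQ_lt hc ha hc1 ha1 hx hX m1 m2 (rr_nonneg (mom2_nonneg a)) (hr_le_one (mom2_nonneg c))
  · exact R2_cell chkB17_11 covB17_11 muQ_pos muQ_lt hc ha hc1 ha1 hx hX m1 m2 (rr_nonneg (mom2_nonneg a)) (hr_le_one (mom2_nonneg c))
  · exact R2_cell chkB17_12 covB17_12 muQ_pos muQ_lt hc ha hc1 ha1 hx hX m1 m2 (rr_nonneg (mom2_nonneg a)) (hr_le_one (mom2_nonneg c))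
  · exact R2_cell chkB17_13 covB17_13 muQ_pos muQ_lt hc ha hc1 ha1 hx hX m1 m2 (rr_nonneg (mom2_nonneg a)) (hr_le_one (mom2_nonneg c))
  · exact R2_cell chkB17_14 covB17_14 muQ_pos muQ_lt hc ha hc1 ha1 hx hX m1 m2 (rr_nonneg (mom2_nonneg a)) (hr_le_one (mom2_nonneg c))
  · exact R2_cell chkB17_15 covB17_15 muQ_pos muQ_lt hc ha hc1 ha1 hx hX m1 m2 (rr_nonneg (mom2_nonneg a)) (hr_le_one (mom2_nonneg c))

theorem r2row18 {c a : Fin 4 → ℝ} (hc : ∑ l, c l = 0) (ha : ∑ l, a l = 0) (hc1 : ∀ l, -1 < c l) (ha1 : ∀ l, -muQ.val ≤ a l)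
    (hx : 0 < mom c 2) (hX : 0 < mom a 2) (hX0 : 0 ≤ mom a 2) (hX1 : mom a 2 < (1541 / 1024 : ℝ)) (m1 : Iv.mem ⟨8,9,4⟩ (mom c 2)) :
    (1 - rr (mom a 2)) * GG c + hr (mom c 2) * GG a ≤ avgT a (fun b => ZZ c b * GG (uu c b)) := by
  rcases binA2 hX0 hX1 with m2 | m2 | m2 | m2 | m2 | m2 | m2 | m2 | m2 | m2 | m2 | m2 | m2 | m2 | m2 | m2
  · exact R2_cell chkB18_0 covB18_0 muQ_pos muQ_lt hc ha hc1 ha1 hx hX m1 m2 (rr_nonneg (mom2_nonneg a)) (hr_le_one (mom2_nonneg c))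
  · exact R2_cell chkB18_1 covB18_1 muQ_pos muQ_lt hc ha hc1 ha1 hx hX m1 m2 (rr_nonneg (mom2_nonneg a)) (hr_le_one (mom2_nonneg c))
  · exact R2_cell chkB18_2 covB18_2 muQ_pos muQ_lt hc ha hc1 ha1 hx hX m1 m2 (rr_nonneg (mom2_nonneg a)) (hr_le_one (mom2_nonneg c))
  · exact R2_cell chkB18_3 covB18_3 muQ_pos muQ_lt hc ha hc1 ha1 hx hX m1 m2 (rr_nonneg (mom2_nonneg a)) (hr_le_one (mom2_nonneg c))
  · exact R2_cell chkB18_4 covB18_4 muQ_pos muQ_lt hc ha hc1 ha1 hx hX m1 m2 (rr_nonneg (mom2_nonneg a)) (hr_le_one (mom2_nonneg c))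
  · exact R2_cell chkB18_5 covB18_5 muQ_pos muQ_lt hc ha hc1 ha1 hx hX m1 m2 (rr_nonneg (mom2_nonneg a)) (hr_le_one (mom2_nonneg c))
  · exact R2_cell chkB18_6 covB18_6 muQ_pos muQ_lt hc ha hc1 ha1 hx hX m1 m2 (rr_nonneg (mom2_nonneg a)) (hr_le_one (mom2_nonneg c))
  · exact R2_cell chkB18_7 covB18_7 muQ_pos muQ_lt hc ha hc1 ha1 hx hX m1 m2 (rr_nonneg (mom2_nonneg a)) (hr_le_one (mom2_nonneg c))
  · exact R2_cell chkB18_8 covB18_8 muQ_pos muQ_lt hc ha hc1 ha1 hx hX m1 m2 (rr_nonneg (mom2_nonneg a)) (hr_le_one (mom2_nonneg c))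
  · exact R2_cell chkB18_9 covB18_9 muQ_pos muQ_lt hc ha hc1 ha1 hx hX m1 m2 (rr_nonneg (mom2_nonneg a)) (hr_le_one (mom2_nonneg c))
  · exact R2_cell chkB18_10 covB18_10 muQ_pos muQ_lt hc ha hc1 ha1 hx hX m1 m2 (rr_nonneg (mom2_nonneg a)) (hr_le_one (mom2_nonneg c))
  · exact R2_cell chkB18_11 covB18_11 muQ_pos muQ_lt hc ha hc1 ha1 hx hX m1 m2 (rr_nonneg (mom2_nonneg a)) (hr_le_one (mom2_nonneg c))
  · exact R2_cell chkB18_12 covB18_12 muQ_pos muQ_lt hc ha hc1 ha1 hx hX m1 m2 (rr_nonneg (mom2_nonneg a)) (hr_le_one (mom2_nonneg c))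
  · exact R2_cell chkB18_13 covB18_13 muQ_pos muQ_lt hc ha hc1 ha1 hx hX m1 m2 (rr_nonneg (mom2_nonneg a)) (hr_le_one (mom2_nonneg c))
  · exact R2_cell chkB18_14 covB18_14 muQ_pos muQ_lt hc ha hc1 ha1 hx hX m1 m2 (rr_nonneg (mom2_nonneg a)) (hr_le_one (mom2_nonneg c))
  · exact R2_cell chkB18_15 covB18_15 muQ_pos muQ_lt hc ha hc1 ha1 hx hX m1 m2 (rr_nonneg (mom2_nonneg a)) (hr_le_one (mom2_nonneg c))

theorem r2row19 {c a : Fin 4 → ℝ} (hc : ∑ l, c l = 0) (ha : ∑ l, a l = 0) (hc1 : ∀ l, -1 < c l) (ha1 : ∀ l, -muQ.val ≤ a l)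
    (hx : 0 < mom c 2) (hX : 0 < mom a 2) (hX0 : 0 ≤ mom a 2) (hX1 : mom a 2 < (1541 / 1024 : ℝ)) (m1 : Iv.mem ⟨9,10,4⟩ (mom c 2)) :
    (1 - rr (mom a 2)) * GG c + hr (mom c 2) * GG a ≤ avgT a (fun b => ZZ c b * GG (uu c b)) := by
  rcases binA2 hX0 hX1 with m2 | m2 | m2 | m2 | m2 | m2 | m2 | m2 | m2 | m2 | m2 | m2 | m2 | m2 | m2 | m2
  · exact R2_cell chkB19_0 covB19_0 muQ_pos muQ_lt hc ha hc1 ha1 hx hX m1 m2 (rr_nonneg (mom2_nonneg a)) (hr_le_one (mom2_nonneg c))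
  · exact R2_cell chkB19_1 covB19_1 muQ_pos muQ_lt hc ha hc1 ha1 hx hX m1 m2 (rr_nonneg (mom2_nonneg a)) (hr_le_one (mom2_nonneg c))
  · exact R2_cell chkB19_2 covB19_2 muQ_pos muQ_lt hc ha hc1 ha1 hx hX m1 m2 (rr_nonneg (mom2_nonneg a)) (hr_le_one (mom2_nonneg c))
  · exact R2_cell chkB19_3 covB19_3 muQ_pos muQ_lt hc ha hc1 ha1 hx hX m1 m2 (rr_nonneg (mom2_nonneg a)) (hr_le_one (mom2_nonneg c))
  · exact R2_cell chkB19_4 covB19_4 muQ_pos muQ_lt hc ha hc1 ha1 hx hX m1 m2 (rr_nonneg (mom2_nonneg a)) (hr_le_one (mom2_nonneg c))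
  · exact R2_cell chkB19_5 covB19_5 muQ_pos muQ_lt hc ha hc1 ha1 hx hX m1 m2 (rr_nonneg (mom2_nonneg a)) (hr_le_one (mom2_nonneg c))
  · exact R2_cell chkB19_6 covB19_6 muQ_pos muQ_lt hc ha hc1 ha1 hx hX m1 m2 (rr_nonneg (mom2_nonneg a)) (hr_le_one (mom2_nonneg c))
  · exact R2_cell chkB19_7 covB19_7 muQ_pos muQ_lt hc ha hc1 ha1 hx hX m1 m2 (rr_nonneg (mom2_nonneg a)) (hr_le_one (mom2_nonneg c))
  · exact R2_cell chkB19_8 covB19_8 muQ_pos muQ_lt hc ha hc1 ha1 hx hX m1 m2 (rr_nonneg (mom2_nonneg a)) (hr_le_one (mom2_nonneg c))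
  · exact R2_cell chkB19_9 covB19_9 muQ_pos muQ_lt hc ha hc1 ha1 hx hX m1 m2 (rr_nonneg (mom2_nonneg a)) (hr_le_one (mom2_nonneg c))
  · exact R2_cell chkB19_10 covB19_10 muQ_pos muQ_lt hc ha hc1 ha1 hx hX m1 m2 (rr_nonneg (mom2_nonneg a)) (hr_le_one (mom2_nonneg c))
  · exact R2_cell chkB19_11 covB19_11 muQ_pos muQ_lt hc ha hc1 ha1 hx hX m1 m2 (rr_nonneg (mom2_nonneg a)) (hr_le_one (mom2_nonneg c))
  · exact R2_cell chkB19_12 covB19_12 muQ_pos muQ_lt hc ha hc1 ha1 hx hX m1 m2 (rr_nonneg (mom2_nonneg a)) (hr_le_one (mom2_nonneg c))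
  · exact R2_cell chkB19_13 covB19_13 muQ_pos muQ_lt hc ha hc1 ha1 hx hX m1 m2 (rr_nonneg (mom2_nonneg a)) (hr_le_one (mom2_nonneg c))
  · exact R2_cell chkB19_14 covB19_14 muQ_pos muQ_lt hc ha hc1 ha1 hx hX m1 m2 (rr_nonneg (mom2_nonneg a)) (hr_le_one (mom2_nonneg c))
  · exact R2_cell chkB19_15 covB19_15 muQ_pos muQ_lt hc ha hc1 ha1 hx hX m1 m2 (rr_nonneg (mom2_nonneg a)) (hr_le_one (mom2_nonneg c))

theorem r2row20 {c a : Fin 4 → ℝ} (hc : ∑ l, c l = 0) (ha : ∑ l, a l = 0) (hc1 : ∀ l, -1 < c l) (ha1 : ∀ l, -muQ.val ≤ a l)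
    (hx : 0 < mom c 2) (hX : 0 < mom a 2) (hX0 : 0 ≤ mom a 2) (hX1 : mom a 2 < (1541 / 1024 : ℝ)) (m1 : Iv.mem ⟨10,11,4⟩ (mom c 2)) :
    (1 - rr (mom a 2)) * GG c + hr (mom c 2) * GG a ≤ avgT a (fun b => ZZ c b * GG (uu c b)) := by
  rcases binA2 hX0 hX1 with m2 | m2 | m2 | m2 | m2 | m2 | m2 | m2 | m2 | m2 | m2 | m2 | m2 | m2 | m2 | m2
  · exact R2_cell chkB20_0 covB20_0 muQ_pos muQ_lt hc ha hc1 ha1 hx hX m1 m2 (rr_nonneg (mom2_nonneg a)) (hr_le_one (mom2_nonneg c))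
  · exact R2_cell chkB20_1 covB20_1 muQ_pos muQ_lt hc ha hc1 ha1 hx hX m1 m2 (rr_nonneg (mom2_nonneg a)) (hr_le_one (mom2_nonneg c))
  · exact R2_cell chkB20_2 covB20_2 muQ_pos muQ_lt hc ha hc1 ha1 hx hX m1 m2 (rr_nonneg (mom2_nonneg a)) (hr_le_one (mom2_nonneg c))
  · exact R2_cell chkB20_3 covB20_3 muQ_pos muQ_lt hc ha hc1 ha1 hx hX m1 m2 (rr_nonneg (mom2_nonneg a)) (hr_le_one (mom2_nonneg c))
  · exact R2_cell chkB20_4 covB20_4 muQ_pos muQ_lt hc ha hc1 ha1 hx hX m1 m2 (rr_nonneg (mom2_nonneg a)) (hr_le_one (mom2_nonneg c))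
  · exact R2_cell chkB20_5 covB20_5 muQ_pos muQ_lt hc ha hc1 ha1 hx hX m1 m2 (rr_nonneg (mom2_nonneg a)) (hr_le_one (mom2_nonneg c))
  · exact R2_cell chkB20_6 covB20_6 muQ_pos muQ_lt hc ha hc1 ha1 hx hX m1 m2 (rr_nonneg (mom2_nonneg a)) (hr_le_one (mom2_nonneg c))
  · exact R2_cell chkB20_7 covB20_7 muQ_pos muQ_lt hc ha hc1 ha1 hx hX m1 m2 (rr_nonneg (mom2_nonneg a)) (hr_le_one (mom2_nonneg c))
  · exact R2_cell chkB20_8 covB20_8 muQ_pos muQ_lt hc ha hc1 ha1 hx hX m1 m2 (rr_nonneg (mom2_nonneg a)) (hr_le_one (mom2_nonneg c))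
  · exact R2_cell chkB20_9 covB20_9 muQ_pos muQ_lt hc ha hc1 ha1 hx hX m1 m2 (rr_nonneg (mom2_nonneg a)) (hr_le_one (mom2_nonneg c))
  · exact R2_cell chkB20_10 covB20_10 muQ_pos muQ_lt hc ha hc1 ha1 hx hX m1 m2 (rr_nonneg (mom2_nonneg a)) (hr_le_one (mom2_nonneg c))
  · exact R2_cell chkB20_11 covB20_11 muQ_pos muQ_lt hc ha hc1 ha1 hx hX m1 m2 (rr_nonneg (mom2_nonneg a)) (hr_le_one (mom2_nonneg c))
  · exact R2_cell chkB20_12 covB20_12 muQ_pos muQ_lt hc ha hc1 ha1 hx hX m1 m2 (rr_nonneg (mom2_nonneg a)) (hr_le_one (mom2_nonneg c))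
  · exact R2_cell chkB20_13 covB20_13 muQ_pos muQ_lt hc ha hc1 ha1 hx hX m1 m2 (rr_nonneg (mom2_nonneg a)) (hr_le_one (mom2_nonneg c))
  · exact R2_cell chkB20_14 covB20_14 muQ_pos muQ_lt hc ha hc1 ha1 hx hX m1 m2 (rr_nonneg (mom2_nonneg a)) (hr_le_one (mom2_nonneg c))
  · exact R2_cell chkB20_15 covB20_15 muQ_pos muQ_lt hc ha hc1 ha1 hx hX m1 m2 (rr_nonneg (mom2_nonneg a)) (hr_le_one (mom2_nonneg c))

theorem r2row21 {c a : Fin 4 → ℝ} (hc : ∑ l, c l = 0) (ha : ∑ l, a l = 0) (hc1 : ∀ l, -1 < c l) (ha1 : ∀ l, -muQ.val ≤ a l)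
    (hx : 0 < mom c 2) (hX : 0 < mom a 2) (hX0 : 0 ≤ mom a 2) (hX1 : mom a 2 < (1541 / 1024 : ℝ)) (m1 : Iv.mem ⟨2816,3073,1024⟩ (mom c 2)) :
    (1 - rr (mom a 2)) * GG c + hr (mom c 2) * GG a ≤ avgT a (fun b => ZZ c b * GG (uu c b)) := by
  rcases binA2 hX0 hX1 with m2 | m2 | m2 | m2 | m2 | m2 | m2 | m2 | m2 | m2 | m2 | m2 | m2 | m2 | m2 | m2
  · exact R2_cell chkB21_0 covB21_0 muQ_pos muQ_lt hc ha hc1 ha1 hx hX m1 m2 (rr_nonneg (mom2_nonneg a)) (hr_le_one (mom2_nonneg c))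
  · exact R2_cell chkB21_1 covB21_1 muQ_pos muQ_lt hc ha hc1 ha1 hx hX m1 m2 (rr_nonneg (mom2_nonneg a)) (hr_le_one (mom2_nonneg c))
  · exact R2_cell chkB21_2 covB21_2 muQ_pos muQ_lt hc ha hc1 ha1 hx hX m1 m2 (rr_nonneg (mom2_nonneg a)) (hr_le_one (mom2_nonneg c))
  · exact R2_cell chkB21_3 covB21_3 muQ_pos muQ_lt hc ha hc1 ha1 hx hX m1 m2 (rr_nonneg (mom2_nonneg a)) (hr_le_one (mom2_nonneg c))
  · exact R2_cell chkB21_4 covB21_4 muQ_pos muQ_lt hc ha hc1 ha1 hx hX m1 m2 (rr_nonneg (mom2_nonneg a)) (hr_le_one (mom2_nonneg c))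
  · exact R2_cell chkB21_5 covB21_5 muQ_pos muQ_lt hc ha hc1 ha1 hx hX m1 m2 (rr_nonneg (mom2_nonneg a)) (hr_le_one (mom2_nonneg c))
  · exact R2_cell chkB21_6 covB21_6 muQ_pos muQ_lt hc ha hc1 ha1 hx hX m1 m2 (rr_nonneg (mom2_nonneg a)) (hr_le_one (mom2_nonneg c))
  · exact R2_cell chkB21_7 covB21_7 muQ_pos muQ_lt hc ha hc1 ha1 hx hX m1 m2 (rr_nonneg (mom2_nonneg a)) (hr_le_one (mom2_nonneg c))
  · exact R2_cell chkB21_8 covB21_8 muQ_pos muQ_lt hc ha hc1 ha1 hx hX m1 m2 (rr_nonneg (mom2_nonneg a)) (hr_le_one (mom2_nonneg c))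
  · exact R2_cell chkB21_9 covB21_9 muQ_pos muQ_lt hc ha hc1 ha1 hx hX m1 m2 (rr_nonneg (mom2_nonneg a)) (hr_le_one (mom2_nonneg c))
  · exact R2_cell chkB21_10 covB21_10 muQ_pos muQ_lt hc ha hc1 ha1 hx hX m1 m2 (rr_nonneg (mom2_nonneg a)) (hr_le_one (mom2_nonneg c))
  · exact R2_cell chkB21_11 covB21_11 muQ_pos muQ_lt hc ha hc1 ha1 hx hX m1 m2 (rr_nonneg (mom2_nonneg a)) (hr_le_one (mom2_nonneg c))
  · exact R2_cell chkB21_12 covB21_12 muQ_pos muQ_lt hc ha hc1 ha1 hx hX m1 m2 (rr_nonneg (mom2_nonneg a)) (hr_le_one (mom2_nonneg c))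
  · exact R2_cell chkB21_13 covB21_13 muQ_pos muQ_lt hc ha hc1 ha1 hx hX m1 m2 (rr_nonneg (mom2_nonneg a)) (hr_le_one (mom2_nonneg c))
  · exact R2_cell chkB21_14 covB21_14 muQ_pos muQ_lt hc ha hc1 ha1 hx hX m1 m2 (rr_nonneg (mom2_nonneg a)) (hr_le_one (mom2_nonneg c))
  · exact R2_cell chkB21_15 covB21_15 muQ_pos muQ_lt hc ha hc1 ha1 hx hX m1 m2 (rr_nonneg (mom2_nonneg a)) (hr_le_one (mom2_nonneg c))

theorem Fr_nonneg' {c : Fin 4 → ℝ} (hc : GW.Simp c) : 0 ≤ Fr (mom c 2) (mom c 3) (mom c 4) := by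
  rcases (mom2_nonneg c).lt_or_eq with h | h
  · exact Fr_pos_part hc h
  · have h0 := mom2_eq_zero h.symm
    subst h0
    norm_num [Fr, mom, dF, F1, F2, F3, F4, F5]

lemma mom_a_lt {a : Fin 4 → ℝ} (ha : ∑ l, a l = 0) (ha1 : ∀ l, -muQ.val ≤ a l) : mom a 2 < 1541 / 1024 := by
  have := (momB_msg muQ_pos.le ha ha1).d4
  rw [muQ_val] at this
  norm_num at this
  linarith

lemma mom_c_lt {c : Fin 4 → ℝ} (hc : ∑ l, c l = 0) (hc1 : ∀ l, -1 < c l) : mom c 2 < 3073 / 1024 := by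
  have := mom2_le_simp (c := c) ⟨hc, hc1⟩
  linarith

theorem facts_r1 {c a : Fin 4 → ℝ} (hc : ∑ l, c l = 0) (ha : ∑ l, a l = 0) (hc1 : ∀ l, -1 < c l) (ha1 : ∀ l, -muQ.val ≤ a l)
    (hx : 0 < mom c 2) (hX : 0 < mom a 2) :
    avgT a (fun b => ZZ c b * xx (uu c b)) ≤ mom c 2 + mom a 2 - 2 / 3 * mom a 2 * GG c
      - GG a * Fr (mom c 2) (mom c 3) (mom c 4) - mom c 2 ^ 2 * mom a 2 ^ 2 / dltD := by
  have hF0 : 0 ≤ Fr (mom c 2) (mom c 3) (mom c 4) := Fr_nonneg' ⟨hc, hc1⟩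
  have hX1 : mom a 2 < (1541 / 1024 : ℝ) := mom_a_lt ha ha1
  have hx1 : mom c 2 < (3073 / 1024 : ℝ) := mom_c_lt hc hc1
  rcases binX1 hx.le hx1 with m1 | m1 | m1 | m1 | m1 | m1 | m1 | m1 | m1 | m1 | m1 | m1 | m1 | m1 | m1 | m1 | m1 | m1 | m1 | m1 | m1 | m1 | m1 | m1
  · exact r1row0 hc ha hc1 ha1 hx hX hF0 hX.le hX1 m1
  · exact r1row1 hc ha hc1 ha1 hx hX hF0 hX.le hX1 m1
  · exact r1row2 hc ha hc1 ha1 hx hX hF0 hX.le hX1 m1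
  · exact r1row3 hc ha hc1 ha1 hx hX hF0 hX.le hX1 m1
  · exact r1row4 hc ha hc1 ha1 hx hX hF0 hX.le hX1 m1
  · exact r1row5 hc ha hc1 ha1 hx hX hF0 hX.le hX1 m1
  · exact r1row6 hc ha hc1 ha1 hx hX hF0 hX.le hX1 m1
  · exact r1row7 hc ha hc1 ha1 hx hX hF0 hX.le hX1 m1
  · exact r1row8 hc ha hc1 ha1 hx hX hF0 hX.le hX1 m1
  · exact r1row9 hc ha hc1 ha1 hx hX hF0 hX.le hX1 m1
  · exact r1row10 hc ha hc1 ha1 hx hX hF0 hX.le hX1 m1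
  · exact r1row11 hc ha hc1 ha1 hx hX hF0 hX.le hX1 m1
  · exact r1row12 hc ha hc1 ha1 hx hX hF0 hX.le hX1 m1
  · exact r1row13 hc ha hc1 ha1 hx hX hF0 hX.le hX1 m1
  · exact r1row14 hc ha hc1 ha1 hx hX hF0 hX.le hX1 m1
  · exact r1row15 hc ha hc1 ha1 hx hX hF0 hX.le hX1 m1
  · exact r1row16 hc ha hc1 ha1 hx hX hF0 hX.le hX1 m1
  · exact r1row17 hc ha hc1 ha1 hx hX hF0 hX.le hX1 m1
  · exact r1row18 hc ha hc1 ha1 hx hX hF0 hX.le hX1 m1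
  · exact r1row19 hc ha hc1 ha1 hx hX hF0 hX.le hX1 m1
  · exact r1row20 hc ha hc1 ha1 hx hX hF0 hX.le hX1 m1
  · exact r1row21 hc ha hc1 ha1 hx hX hF0 hX.le hX1 m1
  · exact r1row22 hc ha hc1 ha1 hx hX hF0 hX.le hX1 m1
  · exact r1row23 hc ha hc1 ha1 hx hX hF0 hX.le hX1 m1

theorem facts_r2 {c a : Fin 4 → ℝ} (hc : ∑ l, c l = 0) (ha : ∑ l, a l = 0) (hc1 : ∀ l, -1 < c l) (ha1 : ∀ l, -muQ.val ≤ a l)
    (hx : 0 < mom c 2) (hX : 0 < mom a 2) :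
    (1 - rr (mom a 2)) * GG c + hr (mom c 2) * GG a ≤ avgT a (fun b => ZZ c b * GG (uu c b)) := by
  have hX1 : mom a 2 < (1541 / 1024 : ℝ) := mom_a_lt ha ha1
  have hx1 : mom c 2 < (3073 / 1024 : ℝ) := mom_c_lt hc hc1
  rcases binX2 hx.le hx1 with m1 | m1 | m1 | m1 | m1 | m1 | m1 | m1 | m1 | m1 | m1 | m1 | m1 | m1 | m1 | m1 | m1 | m1 | m1 | m1 | m1 | m1
  · exact r2row0 hc ha hc1 ha1 hx hX hX.le hX1 m1
  · exact r2row1 hc ha hc1 ha1 hx hX hX.le hX1 m1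
  · exact r2row2 hc ha hc1 ha1 hx hX hX.le hX1 m1
  · exact r2row3 hc ha hc1 ha1 hx hX hX.le hX1 m1
  · exact r2row4 hc ha hc1 ha1 hx hX hX.le hX1 m1
  · exact r2row5 hc ha hc1 ha1 hx hX hX.le hX1 m1
  · exact r2row6 hc ha hc1 ha1 hx hX hX.le hX1 m1
  · exact r2row7 hc ha hc1 ha1 hx hX hX.le hX1 m1
  · exact r2row8 hc ha hc1 ha1 hx hX hX.le hX1 m1
  · exact r2row9 hc ha hc1 ha1 hx hX hX.le hX1 m1
  · exact r2row10 hc ha hc1 ha1 hx hX hX.le hX1 m1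
  · exact r2row11 hc ha hc1 ha1 hx hX hX.le hX1 m1
  · exact r2row12 hc ha hc1 ha1 hx hX hX.le hX1 m1
  · exact r2row13 hc ha hc1 ha1 hx hX hX.le hX1 m1
  · exact r2row14 hc ha hc1 ha1 hx hX hX.le hX1 m1
  · exact r2row15 hc ha hc1 ha1 hx hX hX.le hX1 m1
  · exact r2row16 hc ha hc1 ha1 hx hX hX.le hX1 m1
  · exact r2row17 hc ha hc1 ha1 hx hX hX.le hX1 m1
  · exact r2row18 hc ha hc1 ha1 hx hX hX.le hX1 m1
  · exact r2row19 hc ha hc1 ha1 hx hX hX.le hX1 m1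
  · exact r2row20 hc ha hc1 ha1 hx hX hX.le hX1 m1
  · exact r2row21 hc ha hc1 ha1 hx hX hX.le hX1 m1

/-- The three inequalities. -/
theorem facts4 : Facts where
  fr := fun c hc => Fr_nonneg' hc
  r1 := fun c a hc ha hc1 ha1 hx hX => facts_r1 hc ha hc1 ha1 hx hX
  r2 := fun c a hc ha hc1 ha1 hx hX => facts_r2 hc ha hc1 ha1 hx hX

end Vale.Agent.helper4.Q4
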